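import Vale.Agent.P232.Full.Min.SliceTools

/-!
# P232: what one axis of a symmetric decreasing minimiser shows

An axis of type A shows a slab, a tube or the slices of a ball; an axis of type B shows a slab.
-/

namespace Vale.Agent.P232

open MeasureTheory Set Function Filter Topology Real
open LemmaA (areaDisc lenA_of_le le_two le_tube le_ball)

noncomputable section

variable {M : Set (Fin 3 → ℝ)} {v a b : ℝ} {i : Fin 3} {L : ℝ → ℝ}

/-- Being a model up to a null set. -/
def HasModel (M : Set (Fin 3 → ℝ)) (v : ℝ) : Prop :=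
  ∃ (I : Finset (Fin 3)) (r : ℝ), IsModel v I r ∧
    ∀ᵐ x ∂volume.restrict (cube 3),
      M.indicator (fun _ => (1 : ℝ)) x = (model I r).indicator (fun _ => 1) x

theorem hasModel_of_slices (hM : MeasurableSet M) {I : Finset (Fin 3)} {r : ℝ} (hmod : IsModel v I r)
    (h : ∀ᵐ z ∂volume.restrict period, ∀ᵐ y ∂volume.restrict (cube 2),
      (splice i z y ∈ M ↔ ∑ k ∈ I, splice i z y k ^ 2 < r ^ 2)) : HasModel M v := by
  refine ⟨I, r, hmod, indicator_congr_ae (iff_of_slices (i := i) hM (measurableSet_model I r) ?_)⟩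
  filter_upwards [h, ae_restrict_mem period_measurable] with z hz hzp
  filter_upwards [hz, ae_restrict_mem cube_measurable] with y hy hyc
  rw [mem_model_iff (splice_mem_cube hzp hyc) hmod.1.le]
  exact hy

/-- End areas zero and one: a slab. -/
theorem AxisData.slab (d : AxisData M v i L a b) (hv : 0 < v) (hv' : v ≤ 1 / 2) (hM : HasVolume M v)
    (hs : SymmDecr (M.indicator fun _ => (1 : ℝ))) (ha : a = 0) (hb : b = 1) : HasModel M v := by
  have key : ∀ σ ∈ Icc (0 : ℝ) 1, √(1 - σ ^ 2) * (∫ z in period, L z) + 2 * σ ≤ ballTubeSlab v := by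
    intro σ hσ
    have h := d.weighted hM.meas hs (s := fun _ => σ) continuous_const fun _ => hσ
    rwa [integral_const_mul, intervalIntegral.integral_const, ha, hb, sub_zero, one_smul] at h
  have hJle : ballTubeSlab v ≤ 2 := le_two hv'
  have hJ : ballTubeSlab v = 2 := by
    refine le_antisymm hJle ?_
    simpa using key 1 ⟨zero_le_one, le_rfl⟩
  have hI0 : 0 ≤ ∫ z in period, L z := integral_nonneg d.nonneg
  have hIzero : ∫ z in period, L z = 0 := by
    refine le_antisymm (le_of_forall_pos_le_add fun ε hε => ?_) hI0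
    set δ := min 1 (ε / 2)
    have hδ : 0 < δ := lt_min one_pos (by linarith)
    have hδ1 : δ ≤ 1 := min_le_left _ _
    have hd2 : δ ^ 2 ≤ 1 := pow_le_one₀ hδ.le hδ1
    have h := key (1 - δ ^ 2) ⟨by linarith, sub_le_self _ (sq_nonneg δ)⟩
    have h1 : δ ≤ √(1 - (1 - δ ^ 2) ^ 2) := Real.le_sqrt_of_sq_le (by nlinarith [sq_nonneg δ])
    have h2 : δ * (∫ z in period, L z) ≤ δ * (2 * δ) := by
      linarith [mul_le_mul_of_nonneg_right h1 hI0]
    have h3 := le_of_mul_le_mul_left h2 hδ
    linarith [min_le_right 1 (ε / 2)]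
  have hL0 := (integral_eq_zero_iff_of_nonneg_ae (.of_forall d.nonneg) d.integrable).1 hIzero
  have hA01 : ∀ᵐ z ∂volume.restrict period, sliceArea M i z = 0 ∨ sliceArea M i z = 1 := by
    filter_upwards [d.planar, hL0] with z hp hz
    have h1 := sliceArea_mem hM.meas i z
    rw [show L z = 0 from hz] at hp
    rcases hp.isoperimetric with h | h | h
    · norm_num at h
    · left
      have : area (sliceSet M i z) * (4 * π) ≤ 0 := by linarith
      exact le_antisymm (nonpos_of_mul_nonpos_left this (by positivity)) h1.1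
    · right
      have : (1 - area (sliceSet M i z)) * (4 * π) ≤ 0 := by linarith
      exact le_antisymm h1.2 (sub_nonpos.1 (nonpos_of_mul_nonpos_left this (by positivity)))
  set A := sliceArea M i
  have hAi := AxisData.integrable_area hM.meas i
  have hmono := sliceArea_antitone hM.meas hs i
  have hin : ∀ z, z ≠ 0 → |z| < v / 2 → A z = 1 := by
    intro z hz0 hz
    by_contra hne
    have hlt : A z < 1 := lt_of_le_of_ne (sliceArea_mem hM.meas i z).2 hne
    have hle : ∫ w in period, A w ≤ ∫ w in period, (Icc (-|z|) |z|).indicator (fun _ => (1 : ℝ)) w := by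
      refine integral_mono_ae hAi ((integrable_const _).indicator measurableSet_Icc) ?_
      filter_upwards [hA01, ae_restrict_mem period_measurable] with w hw hwp
      by_cases hwz : w ∈ Icc (-|z|) |z|
      · rw [indicator_of_mem hwz]; exact (sliceArea_mem hM.meas i w).2
      · rw [indicator_of_notMem hwz]
        have h1 : |z| ≤ |w| := le_of_lt (not_le.1 fun h => hwz (abs_le.1 h))
        have h2 := hmono z w h1 (period_abs hwp)
        exact (hw.resolve_right (by linarith)).le
    rw [setIntegral_indicator measurableSet_Icc,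
      inter_eq_right.2 (show Icc (-|z|) |z| ⊆ period from fun w hw => ⟨by linarith [hw.1], by linarith [hw.2]⟩),
      setIntegral_const, smul_eq_mul, mul_one, Real.volume_real_Icc_of_le (by linarith [abs_nonneg z]),
      d.total] at hle
    linarith
  have hout : ∀ z, v / 2 < |z| → |z| < 1 / 2 → A z = 0 := by
    intro z hz hz'
    by_contra hne
    have hpos : 0 < A z := lt_of_le_of_ne (sliceArea_mem hM.meas i z).1 (Ne.symm hne)
    have hle : ∫ w in period, (Ioo (-|z|) |z|).indicator (fun _ => (1 : ℝ)) w ≤ ∫ w in period, A w := by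
      refine integral_mono_ae ((integrable_const _).indicator measurableSet_Ioo) hAi ?_
      filter_upwards [hA01] with w hw
      by_cases hwz : w ∈ Ioo (-|z|) |z|
      · rw [indicator_of_mem hwz]
        have h2 := hmono w z (abs_lt.2 hwz).le hz'.le
        exact (hw.resolve_left (by linarith)).ge
      · rw [indicator_of_notMem hwz]; exact (sliceArea_mem hM.meas i w).1
    rw [setIntegral_indicator measurableSet_Ioo,
      inter_eq_right.2 (show Ioo (-|z|) |z| ⊆ period from fun w hw => ⟨by linarith [hw.1], by linarith [hw.2]⟩),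
      setIntegral_const, smul_eq_mul, mul_one, Real.volume_real_Ioo_of_le (by linarith [abs_nonneg z]),
      d.total] at hle
    linarith
  refine hasModel_of_slices (i := i) (I := {i}) (r := v / 2) hM.meas
    ⟨by linarith, by linarith, .inr (.inr ⟨Finset.card_singleton i, by ring, hJ⟩)⟩ ?_
  filter_upwards [period_ae_interior, ae_restrict_of_ae (Measure.ae_ne volume (0 : ℝ)),
    ae_restrict_of_ae (Measure.ae_ne volume (v / 2)), ae_restrict_of_ae (Measure.ae_ne volume (-(v / 2)))]
    with z hz hz0 hz1 hz2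
  have hmS : MeasurableSet (sliceSet M i z) := measurableSet_sliceSet hM.meas i z
  simp only [Finset.sum_singleton, splice_same]
  rcases lt_trichotomy |z| (v / 2) with h | h | h
  · filter_upwards [ae_mem_of_area_one hmS (hin z hz0 h)] with y hy
    exact iff_of_true hy (sq_lt_sq.2 (by rwa [abs_of_pos (show 0 < v / 2 by linarith)]))
  · rcases abs_choice z with e | e <;> rw [e] at h
    · exact absurd h hz1
    · exact absurd (by linarith) hz2
  · filter_upwards [ae_notMem_of_area_zero hmS (hout z h hz)] with y hy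
    refine iff_of_false hy fun hlt => ?_
    have := sq_lt_sq.1 hlt
    rw [abs_of_pos (show 0 < v / 2 by linarith)] at this
    linarith

/-- The slices of an axis of type A obey the bound `lenA`. -/
theorem AxisData.lenA_le_L (d : AxisData M v i L a b) (hA : AxisA M i) :
    ∀ᵐ z ∂volume.restrict period, lenA (sliceArea M i z) ≤ L z := by
  filter_upwards [d.planar, d.ae_mem] with z hp hz
  exact lenA_le hp (hA z (abs_pos.2 hz.1) hz.2.1)

/-- Equal end areas: a tube. -/
theorem AxisData.tube (d : AxisData M v i L a b) (hv : 0 < v) (hv' : v ≤ 1 / 2) (hM : HasVolume M v)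
    (hs : SymmDecr (M.indicator fun _ => (1 : ℝ))) (hA : AxisA M i) (hab : a = b) : HasModel M v := by
  obtain ⟨hav, hvb⟩ := d.le_v hM.meas
  have hconst : ∀ᵐ z ∂volume.restrict period, z ≠ 0 ∧ |z| < 1 / 2 ∧ sliceArea M i z = v :=
    d.ae_mem.mono fun z hz => ⟨hz.1, hz.2.1, le_antisymm (by linarith [hz.2.2.2]) (by linarith [hz.2.2.1])⟩
  have hp : IsFiniteMeasure (volume.restrict period) := isFiniteMeasure_restrict.2 (by simp [volume_period])
  have hint : ∫ z in period, L z ≤ ballTubeSlab v := by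
    have h := d.weighted hM.meas hs (s := fun _ => 0) continuous_const fun _ => ⟨le_rfl, zero_le_one⟩
    simpa using h
  have hlow : ∀ᵐ z ∂volume.restrict period, lenA v ≤ L z := by
    filter_upwards [d.lenA_le_L hA, hconst] with z hz hc
    rwa [hc.2.2] at hz
  have hlJ : lenA v ≤ ballTubeSlab v := by
    refine le_trans ?_ hint
    calc lenA v = ∫ _ in period, lenA v := by simp [measureReal_def]
      _ ≤ _ := integral_mono_ae (integrable_const _) d.integrable hlow
  have hJd : ballTubeSlab v ≤ discLen v := le_tube hv'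
  have hJ2 : ballTubeSlab v ≤ 2 := le_two hv'
  have hdisc : discLen v ≤ ballTubeSlab v := by
    have hdd : discLen v ≤ discLen (1 - v) :=
      mul_le_mul_of_nonneg_left (Real.sqrt_le_sqrt (by nlinarith [pi_pos])) zero_le_two
    rw [lenA] at hlJ
    rcases min_le_iff.1 hlJ with h | h
    · exact h
    rcases min_le_iff.1 h with h | h
    · exact hdd.trans h
    · have hvs : v ≤ areaDisc := by
        rw [areaDisc]
        have : (v - 3 / 25) / (13 / 20) = 20 / 13 * v - 12 / 65 := by ring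
        linarith
      linarith [discLen_lt_line hv.le hvs]
  have hJ : ballTubeSlab v = discLen v := le_antisymm hJd hdisc
  have hvpi : π * v ≤ 1 := by
    have h1 : √(π * v) ≤ 1 := by rw [discLen] at hdisc; linarith
    exact Real.sqrt_le_one.1 h1
  have hvd : v ≤ areaDisc := by
    rw [areaDisc]
    nlinarith [pi_gt_d6, hvpi, hv]
  have hlA : lenA v = discLen v := lenA_of_le hv.le hvd
  have hLJ : ∀ᵐ z ∂volume.restrict period, L z = discLen v := by
    have hnn : ∀ᵐ z ∂volume.restrict period, 0 ≤ L z - discLen v :=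
      hlow.mono fun z hz => by rw [hlA] at hz; linarith
    have h0 : ∫ z in period, (L z - discLen v) = 0 := by
      refine le_antisymm ?_ (integral_nonneg_of_ae hnn)
      rw [integral_sub d.integrable (integrable_const _)]
      simp [measureReal_def]
      linarith
    exact ((integral_eq_zero_iff_of_nonneg_ae hnn (d.integrable.sub (integrable_const _))).1 h0).mono
      fun z hz => sub_eq_zero.1 hz
  set r := √(v / π)
  have hr : 0 < r := Real.sqrt_pos.2 (by positivity)
  have hr2 : r ^ 2 = v / π := Real.sq_sqrt (by positivity)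
  have hr' : r < 1 / 2 := by
    rw [Real.sqrt_lt' (by norm_num)]
    have := areaDisc_lt
    have : v / π ≤ areaDisc / π := by gcongr
    linarith
  have hv2 : v = π * r ^ 2 := by rw [hr2]; field_simp
  have hmodel : IsModel v (Finset.univ.erase i) r := by
    refine ⟨hr, hr', .inr (.inl ⟨by simp, hv2, ?_⟩)⟩
    rw [hJ, hv2, discLen, show π * (π * r ^ 2) = (π * r) ^ 2 by ring, Real.sqrt_sq (by positivity)]
    ring
  refine hasModel_of_slices (i := i) hM.meas hmodel ?_
  filter_upwards [d.planar, hconst, hLJ] with z hp hz hL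
  have e : area (sliceSet M i z) = v := hz.2.2
  have h := slice_disc hp (hA z (abs_pos.2 hz.1) hz.2.1) (e ▸ hvd) fun _ => by rw [e, hL]
  rw [e, ← hr2] at h
  filter_upwards [h] with y hy
  have e2 : ∑ k ∈ Finset.univ.erase i, splice i z y k ^ 2 = y 0 ^ 2 + y 1 ^ 2 := offSq_splice i z y
  rw [e2]
  exact hy

/-- The data of the slices of a ball of radius `r`. -/
def BallSlices (M : Set (Fin 3 → ℝ)) (v : ℝ) (i : Fin 3) (r : ℝ) : Prop :=
  0 < r ∧ r < 1 / 2 ∧ v = 4 * π * r ^ 3 / 3 ∧ ballTubeSlab v = 4 * π * r ^ 2 ∧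
    EndLimit (sliceArea M i) 0 ∧ Tendsto (sliceArea M i) (𝓝[≠] 0) (𝓝 (π * r ^ 2)) ∧
    (∀ z, z ≠ 0 → |z| < 1 / 2 → sliceArea M i z ≤ π * r ^ 2) ∧
    ∀ᵐ z ∂volume.restrict period, ∀ᵐ y ∂volume.restrict (cube 2),
      (splice i z y ∈ M ↔ y 0 ^ 2 + y 1 ^ 2 < sliceArea M i z / π)

theorem le_ball_radius {v r : ℝ} (hv : v ≤ 1 / 2) (hr : 0 ≤ r) (h : v = 4 * π * r ^ 3 / 3) :
    ballTubeSlab v ≤ 4 * π * r ^ 2 := by
  refine (le_ball hv).trans (le_of_eq ?_)
  have hv0 : 0 ≤ v := by rw [h]; positivity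
  have e1 : v ^ ((2 : ℝ) / 3) = (v ^ 2) ^ ((1 : ℝ) / 3) := by
    rw [← Real.rpow_natCast v 2, ← Real.rpow_mul hv0]
    norm_num
  rw [e1, ← Real.mul_rpow (by positivity) (sq_nonneg v),
    show 36 * π * v ^ 2 = (4 * π * r ^ 2) ^ 3 by rw [h]; ring,
    show (1 : ℝ) / 3 = ((3 : ℕ) : ℝ)⁻¹ by norm_num, Real.pow_rpow_inv_natCast (by positivity) (by norm_num)]

theorem integral_sqrt_one_sub_div {b : ℝ} (hb : 0 < b) :
    ∫ x in (0 : ℝ)..b, √(1 - x / b) = 2 * b / 3 := by
  rw [intervalIntegral.integral_comp_div (fun x => √(1 - x)) hb.ne', zero_div, div_self hb.ne',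
    intervalIntegral.integral_comp_sub_left (fun x => √x), sub_self, sub_zero]
  simp only [Real.sqrt_eq_rpow]
  rw [integral_rpow (.inl (by norm_num)), smul_eq_mul]
  norm_num
  ring

/-- The slices of a ball. -/
theorem AxisData.ball (d : AxisData M v i L a b) (hv' : v ≤ 1 / 2) (hM : HasVolume M v)
    (hs : SymmDecr (M.indicator fun _ => (1 : ℝ))) (hA : AxisA M i) (ha : a = 0) (hbd : b ≤ areaDisc)
    {r : ℝ} (hr : 0 < r) (hbr : b = π * r ^ 2) (hvr : v = 4 * π * r ^ 3 / 3) : BallSlices M v i r := by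
  have hb0 : 0 < b := by rw [hbr]; positivity
  set s : ℝ → ℝ := fun x => √(1 - max x 0 / b)
  have hsc : Continuous s := by fun_prop
  have hs01 : ∀ x, s x ∈ Icc (0 : ℝ) 1 := fun x =>
    ⟨Real.sqrt_nonneg _, Real.sqrt_le_one.2 (sub_le_self _ (div_nonneg (le_max_right _ _) hb0.le))⟩
  have hw := d.weighted hM.meas hs hsc hs01
  have hsint : ∫ x in a..b, s x = 2 * b / 3 := by
    rw [ha, ← integral_sqrt_one_sub_div hb0]
    refine intervalIntegral.integral_congr fun x hx => ?_
    rw [uIcc_of_le hb0.le] at hx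
    simp only [s, max_eq_left hx.1]
  have hgood : ∀ᵐ z ∂volume.restrict period,
      2 / r * sliceArea M i z ≤ √(1 - s (sliceArea M i z) ^ 2) * L z ∧
      (√(1 - s (sliceArea M i z) ^ 2) * L z = 2 / r * sliceArea M i z →
        0 < sliceArea M i z → L z = discLen (sliceArea M i z)) := by
    filter_upwards [d.lenA_le_L hA, d.ae_mem] with z hz hm
    set A := sliceArea M i z
    have hA0 : 0 ≤ A := ha ▸ hm.2.2.1
    have hAb : A / b ≤ 1 := (div_le_one hb0).2 hm.2.2.2
    have hsA : √(1 - s A ^ 2) = √(A / b) := by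
      simp only [s, max_eq_left hA0, Real.sq_sqrt (sub_nonneg.2 hAb), sub_sub_cancel]
    have hlA : lenA A = discLen A := lenA_of_le hA0 (hm.2.2.2.trans hbd)
    have he : √(A / b) * discLen A = 2 / r * A := by
      rw [discLen, mul_left_comm, ← Real.sqrt_mul (div_nonneg hA0 hb0.le),
        show A / b * (π * A) = (A / r) ^ 2 by rw [hbr]; field_simp, Real.sqrt_sq (div_nonneg hA0 hr.le)]
      ring
    rw [hlA] at hz
    rw [hsA, ← he]
    refine ⟨mul_le_mul_of_nonneg_left hz (Real.sqrt_nonneg _), fun h hpos => ?_⟩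
    exact mul_left_cancel₀ (Real.sqrt_pos.2 (div_pos hpos hb0)).ne' h
  have hAi := AxisData.integrable_area hM.meas i
  have hlow : 2 / r * v ≤ ∫ z in period, √(1 - s (sliceArea M i z) ^ 2) * L z := by
    rw [← d.total, ← integral_const_mul]
    exact integral_mono_ae (hAi.const_mul _) (d.weight_integrable hM.meas hsc) (hgood.mono fun z h => h.1)
  have hJle := le_ball_radius hv' hr.le hvr
  have e1 : 2 / r * v + 2 * (2 * b / 3) = 4 * π * r ^ 2 := by
    rw [hvr, hbr]; field_simp; ring
  rw [hsint] at hw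
  have hJ : ballTubeSlab v = 4 * π * r ^ 2 := by linarith
  have heq : ∀ᵐ z ∂volume.restrict period,
      √(1 - s (sliceArea M i z) ^ 2) * L z = 2 / r * sliceArea M i z := by
    have hnn : ∀ᵐ z ∂volume.restrict period,
        0 ≤ √(1 - s (sliceArea M i z) ^ 2) * L z - 2 / r * sliceArea M i z :=
      hgood.mono fun z h => sub_nonneg.2 h.1
    have h0 : ∫ z in period, (√(1 - s (sliceArea M i z) ^ 2) * L z - 2 / r * sliceArea M i z) = 0 := by
      refine le_antisymm ?_ (integral_nonneg_of_ae hnn)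
      rw [integral_sub (d.weight_integrable hM.meas hsc) (hAi.const_mul _), integral_const_mul, d.total]
      linarith
    exact ((integral_eq_zero_iff_of_nonneg_ae hnn
      ((d.weight_integrable hM.meas hsc).sub (hAi.const_mul _))).1 h0).mono fun z hz => sub_eq_zero.1 hz
  have hr' : r < 1 / 2 := by
    have h1 := areaDisc_lt
    have h2 : r ^ 2 ≤ areaDisc / π := by rw [le_div_iff₀ pi_pos, mul_comm, ← hbr]; exact hbd
    nlinarith
  refine ⟨hr, hr', hvr, hJ, ha ▸ d.endLimit, hbr ▸ d.tendsto, fun z h0 h1 => hbr ▸ (d.mem z h0 h1).2, ?_⟩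
  filter_upwards [d.planar, d.ae_mem, hgood, heq] with z hp hz hg he
  exact slice_disc hp (hA z (abs_pos.2 hz.1) hz.2.1) (hz.2.2.2.trans hbd) fun hpos => (hg.2 he hpos).le

/-- An axis of type A: a model, or the slices of a ball. -/
theorem axisA_model_or_ball (hv : 0 < v) (hv' : v ≤ 1 / 2) (hM : HasVolume M v)
    (hs : SymmDecr (M.indicator fun _ => (1 : ℝ)))
    (hc : TVLE (M.indicator fun _ => (1 : ℝ)) (ballTubeSlab v)) (hA : AxisA M i) :
    HasModel M v ∨ ∃ r, BallSlices M v i r := by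
  obtain ⟨L, a, b, d⟩ := exists_axisData hv.le hM hs hc i
  obtain ⟨hav, hvb⟩ := d.le_v hM.meas
  by_cases htube : a = b
  · exact .inl (d.tube hv hv' hM hs hA htube)
  by_cases hslab : a = 0 ∧ b = 1
  · exact .inl (d.slab hv hv' hM hs hslab.1 hslab.2)
  by_cases hball : a = 0 ∧ b ≤ areaDisc ∧ ∃ r, 0 < r ∧ b = π * r ^ 2 ∧ v = 4 * π * r ^ 3 / 3
  · obtain ⟨ha, hbd, r, hr, hbr, hvr⟩ := hball
    exact .inr ⟨r, d.ball hv' hM hs hA ha hbd hr hbr hvr⟩
  exfalso
  obtain ⟨lam, K, s, hsc, hs01, hval, hgt⟩ := goodA_strict hv hv' d.ha.1 hav hvb d.hb.2 htube hslab hball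
  have hw := d.weighted hM.meas hs hsc hs01
  have hAi := AxisData.integrable_area hM.meas i
  have hp : IsFiniteMeasure (volume.restrict period) := isFiniteMeasure_restrict.2 (by simp [volume_period])
  have hlow : lam * v + K ≤ ∫ z in period, √(1 - s (sliceArea M i z) ^ 2) * L z := by
    calc lam * v + K = ∫ z in period, (lam * sliceArea M i z + K) := by
          rw [integral_add (hAi.const_mul lam) (integrable_const K), integral_const_mul, d.total]
          simp [measureReal_def]
      _ ≤ _ := by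
          refine integral_mono_ae ((hAi.const_mul lam).add (integrable_const K))
            (d.weight_integrable hM.meas hsc) ?_
          filter_upwards [d.lenA_le_L hA, d.ae_mem] with z hz hm
          exact (hval _ hm.2.2).trans (mul_le_mul_of_nonneg_left hz (Real.sqrt_nonneg _))
  linarith

/-- The strict form of the calibration of type B. -/
def StrictB : Prop :=
  ∀ {v W a m b : ℝ}, 0 < v → v ≤ 1 / 2 → W ∈ Icc 0 (1 / 2) → 0 ≤ a → a ≤ m → m ≤ b → b ≤ 1 → 2 * W ≤ m →
    2 * kappa * m + (1 - 2 * kappa) * a ≤ v → v ≤ 2 * kappa * b + (1 - 2 * kappa) * m →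
    ¬ (a = 0 ∧ b = 1) →
    ∃ (lam K₁ K₂ : ℝ) (s₁ s₂ : ℝ → ℝ), Continuous s₁ ∧ Continuous s₂ ∧
      (∀ A, s₁ A ∈ Icc (0 : ℝ) 1) ∧ (∀ A, s₂ A ∈ Icc (0 : ℝ) 1) ∧
      (∀ A ∈ Icc m b, lam * A + K₁ ≤ √(1 - s₁ A ^ 2) * lenCross W A) ∧
      (∀ A ∈ Icc a m, lam * A + K₂ ≤ √(1 - s₂ A ^ 2) * lenOuter W A) ∧
      ballTubeSlab v < lam * v + 2 * kappa * K₁ + (1 - 2 * kappa) * K₂
        + 2 * ((∫ A in a..m, s₂ A) + ∫ A in m..b, s₁ A)

theorem trace_le_sliceArea (hM : MeasurableSet M) (i : Fin 3) (z : ℝ) (k : Fin 2) :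
    trace (sliceSet M i z) k ≤ sliceArea M i z := by
  have hS := measurableSet_sliceSet hM i z
  rw [sliceArea, ← integral_lineLen hS k,
    show trace (sliceSet M i z) k = ∫ _ in period, trace (sliceSet M i z) k by
      simp [measureReal_def]]
  have : IsFiniteMeasure (volume.restrict period) := isFiniteMeasure_restrict.2 (by simp [volume_period])
  refine integral_mono_ae (integrable_const _)
    (Integrable.of_bound (measurable_lineLen hS k).aestronglyMeasurable 1 (.of_forall fun x => by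
      rw [Real.norm_eq_abs, abs_of_nonneg (lineLen_mem x).1]; exact (lineLen_mem x).2)) ?_
  filter_upwards [period_ae_interior] with x hx using trace_le_lineLen hx

/-- The calibrations of type B bound the total variation from below. -/
theorem AxisData.boundB (d : AxisData M v i L a b) {c : ℝ} (hI : SliceIneq L (sliceArea M i) c)
    (hM : HasVolume M v) (hs : SymmDecr (M.indicator fun _ => (1 : ℝ))) (hAx : AxisB M i) :
    ∃ W m : ℝ, W ∈ Icc (0 : ℝ) (1 / 2) ∧ a ≤ m ∧ m ≤ b ∧ 2 * W ≤ m ∧
      2 * kappa * m + (1 - 2 * kappa) * a ≤ v ∧ v ≤ 2 * kappa * b + (1 - 2 * kappa) * m ∧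
      ∀ (lam K₁ K₂ : ℝ) (s₁ s₂ : ℝ → ℝ), Continuous s₁ → Continuous s₂ →
        (∀ A, s₁ A ∈ Icc (0 : ℝ) 1) → (∀ A, s₂ A ∈ Icc (0 : ℝ) 1) →
        (∀ A ∈ Icc m b, lam * A + K₁ ≤ √(1 - s₁ A ^ 2) * lenCross W A) →
        (∀ A ∈ Icc a m, lam * A + K₂ ≤ √(1 - s₂ A ^ 2) * lenOuter W A) →
        lam * v + 2 * kappa * K₁ + (1 - 2 * kappa) * K₂
          + 2 * ((∫ A in a..m, s₂ A) + ∫ A in m..b, s₁ A) ≤ c := by
  have hk : (0 : ℝ) < kappa ∧ kappa < 1 / 2 := by norm_num [kappa]
  set A := sliceArea M i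
  have hmono := sliceArea_antitone hM.meas hs i
  have hAi := AxisData.integrable_area hM.meas i
  set t : Fin 2 → ℝ := trace (sliceSet M i kappa)
  set W := max (t 0) (t 1) / 2
  have hWk : ∀ k, t k ≤ 2 * W := fun k => by
    simp only [W]; fin_cases k <;> simp <;> linarith [le_max_left (t 0) (t 1), le_max_right (t 0) (t 1)]
  obtain ⟨k₀, hk₀⟩ : ∃ k, 2 * W ≤ t k := by
    rcases max_choice (t 0) (t 1) with e | e
    · exact ⟨0, by simp only [W, e]; linarith⟩
    · exact ⟨1, by simp only [W, e]; linarith⟩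
  set m := A kappa
  have hkz : kappa ≠ 0 ∧ |kappa| < 1 / 2 := ⟨hk.1.ne', by rw [abs_of_pos hk.1]; exact hk.2⟩
  have hm := d.mem kappa hkz.1 hkz.2
  have hW : W ∈ Icc (0 : ℝ) (1 / 2) := by
    constructor
    · linarith [trace_nonneg (sliceSet M i kappa) 0, hWk 0]
    · linarith [trace_le_one (sliceSet M i kappa) k₀, show 2 * W ≤ trace (sliceSet M i kappa) k₀ from hk₀]
  have hWm : 2 * W ≤ m := hk₀.trans (trace_le_sliceArea hM.meas i kappa k₀)
  have hm₁ : ∀ z, |z| < kappa → m ≤ A z := fun z hz =>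
    hmono z kappa (by rw [abs_of_pos hk.1]; exact hz.le) hkz.2.le
  have hm₂ : ∀ z, kappa < |z| → |z| ≤ 1 / 2 → A z ≤ m := fun z hz hz' =>
    hmono kappa z (by rw [abs_of_pos hk.1]; exact hz.le) hz'
  have hp : IsFiniteMeasure (volume.restrict period) := isFiniteMeasure_restrict.2 (by simp [volume_period])
  set J : Set ℝ := Ioo (-kappa) kappa
  have hstep : ∀ p q : ℝ, Integrable (fun z => p + J.indicator (fun _ => q) z) (volume.restrict period) ∧
      ∫ z in period, (p + J.indicator (fun _ => q) z) = p + 2 * kappa * q := fun p q => by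
    have hJi : Integrable (J.indicator fun _ => q) (volume.restrict period) :=
      (integrable_const q).indicator measurableSet_Ioo
    refine ⟨(integrable_const p).add hJi, ?_⟩
    rw [integral_add (integrable_const p) hJi, setIntegral_indicator measurableSet_Ioo,
      inter_eq_right.2 (show Ioo (-kappa) kappa ⊆ period from
        fun z hz => ⟨by linarith [hz.1, hk.2], by linarith [hz.2, hk.2]⟩),
      setIntegral_const, setIntegral_const, Real.volume_real_Ioo_of_le (by linarith [hk.1]),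
      show volume.real period = 1 by simp [measureReal_def, volume_period], smul_eq_mul, smul_eq_mul]
    ring
  have hJiff : ∀ z, z ∈ J ↔ |z| < kappa := fun z => abs_lt.symm
  have hne : ∀ᵐ z ∂volume.restrict period, |z| ≠ kappa := by
    filter_upwards [ae_restrict_of_ae (Measure.ae_ne volume kappa),
      ae_restrict_of_ae (Measure.ae_ne volume (-kappa))] with z h1 h2 he
    rcases abs_choice z with e | e <;> rw [e] at he
    · exact h1 he
    · exact h2 (by linarith)
  have h1 : 2 * kappa * m + (1 - 2 * kappa) * a ≤ v := by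
    have := integral_mono_ae (hstep a (m - a)).1 hAi (by
      filter_upwards [d.ae_mem] with z hz
      by_cases hzJ : z ∈ J
      · rw [indicator_of_mem hzJ]; linarith [hm₁ z ((hJiff z).1 hzJ)]
      · rw [indicator_of_notMem hzJ]; linarith [hz.2.2.1])
    rw [(hstep a (m - a)).2, d.total] at this
    linarith
  have h2 : v ≤ 2 * kappa * b + (1 - 2 * kappa) * m := by
    have := integral_mono_ae hAi (hstep m (b - m)).1 (by
      filter_upwards [d.ae_mem, hne] with z hz hzk
      by_cases hzJ : z ∈ J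
      · rw [indicator_of_mem hzJ]; linarith [hz.2.2.2]
      · rw [indicator_of_notMem hzJ]
        linarith [hm₂ z (lt_of_le_of_ne (not_lt.1 fun h => hzJ ((hJiff z).2 h)) (Ne.symm hzk)) hz.2.1.le])
    rw [(hstep m (b - m)).2, d.total] at this
    linarith
  refine ⟨W, m, hW, hm.1, hm.2, hWm, h1, h2,
    fun lam K₁ K₂ s₁ s₂ hc₁ hc₂ hr₁ hr₂ hv₁ hv₂ => ?_⟩
  have hcb := core_bound hI d.integrable d.meas d.nonneg (measurable_sliceArea hM.meas i)
    (sliceArea_mem hM.meas i) hmono d.endLimit d.tendsto ⟨hk.1, hk.2⟩ hm₁ hm₂ hc₁ hr₁ hc₂ hr₂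
    (lam := lam) (K₁ := K₁) (K₂ := K₂) ?_ ?_
  · rwa [d.total] at hcb
  · filter_upwards [d.planar, d.ae_mem] with z hp hz hzk
    refine (hv₁ _ ⟨hm₁ z hzk, hz.2.2.2⟩).trans (mul_le_mul_of_nonneg_left ?_ (Real.sqrt_nonneg _))
    refine lenCross_le hp (hAx z hzk.le) ⟨k₀, hk₀.trans ?_⟩
    exact trace_antitone hM.meas hs i k₀ z kappa (by rw [abs_of_pos hk.1]; exact hzk.le) hkz.2.le
  · filter_upwards [d.planar, d.ae_mem] with z hp hz hzk
    refine (hv₂ _ ⟨hz.2.2.1, hm₂ z hzk hz.2.1.le⟩).trans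
      (mul_le_mul_of_nonneg_left ?_ (Real.sqrt_nonneg _))
    refine lenOuter_le hp fun k => le_trans ?_ (hWk k)
    exact trace_antitone hM.meas hs i k kappa z (by rw [abs_of_pos hk.1]; exact hzk.le) hz.2.1.le

/-- An axis of type B: a slab. -/
theorem axisB_model (hB : StrictB) (hv : 0 < v) (hv' : v ≤ 1 / 2) (hM : HasVolume M v)
    (hs : SymmDecr (M.indicator fun _ => (1 : ℝ)))
    (hc : TVLE (M.indicator fun _ => (1 : ℝ)) (ballTubeSlab v)) (hAx : AxisB M i) : HasModel M v := by
  obtain ⟨L, a, b, d⟩ := exists_axisData hv.le hM hs hc i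
  by_cases hslab : a = 0 ∧ b = 1
  · exact d.slab hv hv' hM hs hslab.1 hslab.2
  exfalso
  obtain ⟨W, m, hW, hm₁, hm₂, hWm, h1, h2, hbd⟩ := d.boundB d.ineq hM hs hAx
  obtain ⟨lam, K₁, K₂, s₁, s₂, hc₁, hc₂, hr₁, hr₂, hv₁, hv₂, hgt⟩ :=
    hB hv hv' hW d.ha.1 hm₁ hm₂ d.hb.2 hWm h1 h2 hslab
  linarith [hbd lam K₁ K₂ s₁ s₂ hc₁ hc₂ hr₁ hr₂ hv₁ hv₂]

end

end Vale.Agent.P232
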