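import Vale.Agent.P232.Full.Min.Chain

/-!
# P232: the minimisers

A set of least perimeter is, up to a null set and a translation, a ball, a tube or a slab of volume
`min V (1 - V)`, or the complement of one.
-/

namespace Vale.Agent.P232

open MeasureTheory Set Real

noncomputable section

theorem ballTubeSlab_nonneg {V : ℝ} (hV : V ∈ Ioo (0 : ℝ) 1) : 0 ≤ ballTubeSlab V := by
  have h : 0 ≤ min V (1 - V) := le_min hV.1.le (by linarith [hV.2])
  exact le_min (by positivity) (le_min (by positivity) zero_le_two)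

/-- The minimisers, given the symmetric decreasing ones. -/
theorem minimiser_classification_of
    (hsym : ∀ {v : ℝ} {M : Set (Fin 3 → ℝ)}, 0 < v → v ≤ 1 / 2 → HasVolume M v →
      SymmDecr (M.indicator fun _ => (1 : ℝ)) → TVLE (M.indicator fun _ => (1 : ℝ)) (ballTubeSlab v) →
      ∃ (I : Finset (Fin 3)) (r : ℝ), IsModel v I r ∧
        ∀ᵐ x ∂volume.restrict (cube 3),
          M.indicator (fun _ => (1 : ℝ)) x = (model I r).indicator (fun _ => 1) x)
    {V : ℝ} (hV : V ∈ Ioo (0 : ℝ) 1) {E : Set (Fin 3 → ℝ)} (hE : HasVolume E V)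
    (hmin : perimeter E = isoProfile V) :
    ∃ (I : Finset (Fin 3)) (r : ℝ) (a : Fin 3 → ℝ), IsModel (min V (1 - V)) I r ∧
      ((∀ᵐ x, x ∈ E ↔ x - a ∈ model I r) ∨ ∀ᵐ x, x ∈ E ↔ x - a ∉ model I r) := by
  obtain ⟨C, hC, hCp⟩ := exists_competitor hV
  have hle : perimeter E ≤ ENNReal.ofReal (ballTubeSlab V) :=
    hmin.trans_le ((iInf₂_le C hC).trans hCp)
  have key : ∀ {v : ℝ} {S : Set (Fin 3 → ℝ)}, 0 < v → v ≤ 1 / 2 → HasVolume S v →
      perimeter S ≤ ENNReal.ofReal (ballTubeSlab v) →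
      ∃ (I : Finset (Fin 3)) (r : ℝ) (a : Fin 3 → ℝ), IsModel v I r ∧
        IsTranslate S (model I r) a := by
    intro v S hv hv' hS hp
    have hc : TVLE (S.indicator fun _ => 1) (ballTubeSlab v) :=
      (tvle_iff_perimeter hS.meas (ballTubeSlab_nonneg ⟨hv, by linarith⟩)).2 hp
    have h1 := hasVolume_steiner hS 0
    have h2 := hasVolume_steiner h1 1
    have h3 := hasVolume_steiner h2 2
    have c3 : TVLE ((steiner₃ S).indicator fun _ => 1) (ballTubeSlab v) :=
      tvle_steiner h2.meas h2.periodic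
        (tvle_steiner h1.meas h1.periodic (tvle_steiner hS.meas hS.periodic hc 0) 1) 2
    obtain ⟨I, r, hI, hM⟩ := hsym hv hv' h3 (symmDecr_steiner₃ hS) c3
    obtain ⟨a, ha⟩ := translate_of_steiner₃ hI hS hc hM
    exact ⟨I, r, a, hI, ha⟩
  rcases le_or_gt V (1 / 2) with h | h
  · rw [min_eq_left (by linarith)]
    obtain ⟨I, r, a, hI, ha⟩ := key hV.1 h hE hle
    exact ⟨I, r, a, hI, .inl ha⟩
  · rw [min_eq_right (by linarith)]
    obtain ⟨hcv, hcp⟩ := hE.compl hV.1.le
    have hJ : ballTubeSlab (1 - V) = ballTubeSlab V := by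
      simp only [ballTubeSlab, sub_sub_cancel, min_comm (1 - V) V]
    obtain ⟨I, r, a, hI, ha⟩ := key (by linarith [hV.2]) (by linarith) hcv (hJ.symm ▸ hcp.trans_le hle)
    refine ⟨I, r, a, hI, .inr (ha.mono fun x hx => ?_)⟩
    simpa using not_congr hx

end

end Vale.Agent.P232
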