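import Vale.Agent.P232.Full.Min.Chain

/-!
# P232: every model has the volume and at most the perimeter it should

Translates of the models, and their complements, have perimeter at most the conjectured profile.
-/

namespace Vale.Agent.P232

open MeasureTheory Set Function Real

noncomputable section

theorem radial_comp (σ : Equiv.Perm (Fin 3)) (I : Finset (Fin 3)) (x : Fin 3 → ℝ) :
    radial I (fun i => x (σ i)) = radial (I.map σ.toEmbedding) x := by
  simp only [radial]
  congr 1
  refine Fintype.sum_equiv σ _ _ fun i => ?_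
  simp [Finset.mem_map_equiv]

/-- The volume of a model only depends on the number of its coordinates. -/
theorem volume_model_map (σ : Equiv.Perm (Fin 3)) (I : Finset (Fin 3)) (s : ℝ) :
    volume.real (cube 3 ∩ {x | radial (I.map σ.toEmbedding) x < s})
      = volume.real (cube 3 ∩ {x | radial I x < s}) := by
  have hmp := volume_measurePreserving_piCongrLeft (fun _ : Fin 3 => ℝ) σ.symm
  have hfun : ⇑(MeasurableEquiv.piCongrLeft (fun _ : Fin 3 => ℝ) σ.symm) = fun x i => x (σ i) := by
    funext x i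
    conv_lhs => rw [← Equiv.symm_apply_apply σ i, MeasurableEquiv.piCongrLeft_apply_apply]
  have hpre : cube 3 ∩ {x | radial (I.map σ.toEmbedding) x < s}
      = (fun (x : Fin 3 → ℝ) i => x (σ i)) ⁻¹' (cube 3 ∩ {x | radial I x < s}) := by
    ext x
    simp only [mem_preimage, mem_inter_iff, mem_ofPred_eq, radial_comp, cube, mem_univ_pi]
    exact and_congr_left fun _ => ⟨fun h i => h (σ i), fun h i => by simpa using h (σ.symm i)⟩
  rw [measureReal_def, measureReal_def, hpre, ← hfun,
    hmp.measure_preimage (s := cube 3 ∩ {x | radial I x < s})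
      (cube_measurable.inter (measurableSet_model I s)).nullMeasurableSet]

theorem exists_perm {I : Finset (Fin 3)} :
    (I.card = 3 → I = Finset.univ) ∧
    (I.card = 2 → ∃ σ : Equiv.Perm (Fin 3), ({0, 1} : Finset (Fin 3)).map σ.toEmbedding = I) ∧
    (I.card = 1 → ∃ σ : Equiv.Perm (Fin 3), ({0} : Finset (Fin 3)).map σ.toEmbedding = I) := by
  revert I
  decide

/-- A model attains the profile. -/
theorem IsModel.perimeter_le {v : ℝ} {I : Finset (Fin 3)} {r : ℝ} (h : IsModel v I r) :
    HasVolume (model I r) v ∧ perimeter (model I r) ≤ ENNReal.ofReal (ballTubeSlab v) := by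
  obtain ⟨hr, hr', h⟩ := h
  have hs : ∀ s ∈ Icc 0 r, s ∈ Icc (0 : ℝ) (1 / 2) := fun s hs => ⟨hs.1, by linarith [hs.2]⟩
  rcases h with ⟨hc, hv, hJ⟩ | ⟨hc, hv, hJ⟩ | ⟨hc, hv, hJ⟩
  · obtain rfl := exists_perm.1 hc
    obtain ⟨h1, h2⟩ := radial_bound Finset.univ hr (show 0 ≤ 4 * π / 3 by positivity)
      fun s h => ball_volume (hs s h)
    refine ⟨hv ▸ h1, h2.trans (le_of_eq (congrArg _ ?_))⟩
    rw [hJ]; push_cast; ring
  · obtain ⟨σ, rfl⟩ := exists_perm.2.1 hc
    obtain ⟨h1, h2⟩ := radial_bound (({0, 1} : Finset (Fin 3)).map σ.toEmbedding) hr Real.pi_pos.le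
      fun s h => (volume_model_map σ _ s).trans (tube_volume (hs s h))
    refine ⟨hv ▸ h1, h2.trans (le_of_eq (congrArg _ ?_))⟩
    rw [hJ]; push_cast; ring
  · obtain ⟨σ, rfl⟩ := exists_perm.2.2 hc
    obtain ⟨h1, h2⟩ := radial_bound (({0} : Finset (Fin 3)).map σ.toEmbedding) hr zero_le_two
      fun s h => (volume_model_map σ _ s).trans (slab_volume (hs s h))
    rw [pow_one, ← hv] at h1
    exact ⟨h1, h2.trans (le_of_eq (congrArg _ (by rw [hJ]; simp)))⟩

/-- Translates of models and their complements have perimeter at most the profile. -/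
theorem competitor_of_model {V : ℝ} (hV : V ∈ Ioo (0 : ℝ) 1) {I : Finset (Fin 3)} {r : ℝ}
    (h : IsModel (min V (1 - V)) I r) (a : Fin 3 → ℝ) :
    let M := (fun x => x + -a) ⁻¹' model I r
    (V ≤ 1 / 2 → HasVolume M V ∧ perimeter M ≤ ENNReal.ofReal (ballTubeSlab V)) ∧
      (1 / 2 ≤ V → HasVolume Mᶜ V ∧ perimeter Mᶜ ≤ ENNReal.ofReal (ballTubeSlab V)) := by
  intro M
  obtain ⟨hvol, hp⟩ := h.perimeter_le
  have hmin : ballTubeSlab (min V (1 - V)) = ballTubeSlab V := by
    rcases le_total V (1 - V) with h' | h'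
    · rw [min_eq_left h']
    · rw [min_eq_right h']
      simp only [ballTubeSlab, sub_sub_cancel, min_comm (1 - V) V]
  have hv0 : 0 ≤ min V (1 - V) := le_min hV.1.le (by linarith [hV.2])
  have hJ : 0 ≤ ballTubeSlab (min V (1 - V)) := by
    have h0 : 0 ≤ min (min V (1 - V)) (1 - min V (1 - V)) :=
      le_min hv0 (by linarith [min_le_left V (1 - V), hV.2])
    exact le_min (by positivity) (le_min (by positivity) zero_le_two)
  have hM : HasVolume M (min V (1 - V)) := hasVolume_preimage hvol (-a)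
  have hMp : perimeter M ≤ ENNReal.ofReal (ballTubeSlab V) := by
    rw [← hmin]
    exact (tvle_iff_perimeter hM.meas hJ).1
      (tvle_preimage hvol.periodic ((tvle_iff_perimeter hvol.meas hJ).2 hp) _)
  refine ⟨fun hh => ?_, fun hh => ?_⟩
  · rw [min_eq_left (by linarith)] at hM
    exact ⟨hM, hMp⟩
  · rw [min_eq_right (by linarith)] at hM
    obtain ⟨h1, h2⟩ := hM.compl (by linarith [hV.2])
    rw [sub_sub_cancel] at h1
    exact ⟨h1, h2.trans_le hMp⟩

end

end Vale.Agent.P232
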