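import Vale.Agent.P232.Perim.Variation

/-!
# P232: periodic extensions, functions with weakly vanishing gradient

`periodExt f` repeats the restriction of `f` to the cube; it is smooth if `f` is and vanishes near the
boundary of the cube. A bounded function on a convex open set whose weak gradient vanishes is constant.
-/

namespace Vale.Agent.P232

open MeasureTheory Set Function Filter Topology
open scoped Convolution

noncomputable section

variable {n : ℕ}

/-- The representative in the unit cube. -/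
def centre (y : Fin n → ℝ) : Fin n → ℝ := fun i => toIocMod one_pos (-(1 / 2) : ℝ) (y i)

/-- The periodic function which agrees with `f` on the cube. -/
def periodExt (f : (Fin n → ℝ) → ℝ) (y : Fin n → ℝ) : ℝ := f (centre y)

theorem centre_mem (y : Fin n → ℝ) (i : Fin n) : centre y i ∈ Ioc (-(1 / 2) : ℝ) (1 / 2) := by
  have h := toIocMod_mem_Ioc one_pos (-(1 / 2) : ℝ) (y i)
  norm_num at h ⊢
  exact h

theorem centre_eq {y : Fin n → ℝ} (hy : y ∈ cube n) : centre y = y := funext fun i =>
  (toIocMod_eq_iff one_pos).2 ⟨by have := hy i (mem_univ i); norm_num at this ⊢; exact this, 0, by simp⟩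

theorem periodExt_eq (f : (Fin n → ℝ) → ℝ) {y : Fin n → ℝ} (hy : y ∈ cube n) :
    periodExt f y = f y := by rw [periodExt, centre_eq hy]

theorem periodExt_periodic (f : (Fin n → ℝ) → ℝ) : Periodic (periodExt f) := fun i y => by
  unfold periodExt
  congr 1
  funext k
  unfold centre
  rcases eq_or_ne k i with rfl | h
  · rw [Pi.add_apply, Pi.single_eq_same, toIocMod_add_right]
  · rw [Pi.add_apply, Pi.single_eq_of_ne h, add_zero]

theorem centre_of_int {y : Fin n → ℝ} {i : Fin n} {c : ℝ} (hc : c ∈ Ioc (-(1 / 2) : ℝ) (1 / 2))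
    {d : ℤ} (h : y i = c + d) : centre y i = c :=
  (toIocMod_eq_iff one_pos).2 ⟨by norm_num at hc ⊢; exact hc, d, by simpa using h⟩

/-- Near any point the representative is a translate, or it has a coordinate near the boundary. -/
theorem centre_local (y₀ : Fin n → ℝ) {σ : ℝ} (hσ : σ < 1 / 2) :
    (∃ d : Fin n → ℝ, ∀ᶠ y in 𝓝 y₀, centre y = y - d) ∨ ∀ᶠ y in 𝓝 y₀, ∃ i, σ < |centre y i| := by
  have hex : ∀ i, ∃ d : ℤ, y₀ i = centre y₀ i + d := fun i => by
    refine ⟨toIocDiv one_pos (-(1 / 2) : ℝ) (y₀ i), ?_⟩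
    have h := toIocMod_add_toIocDiv_zsmul one_pos (-(1 / 2) : ℝ) (y₀ i)
    simp only [zsmul_one] at h
    exact h.symm
  choose d hd using hex
  by_cases h : ∀ i, centre y₀ i < 1 / 2
  · refine .inl ⟨fun i => (d i : ℝ), ?_⟩
    have hev : ∀ᶠ y in 𝓝 y₀, ∀ i, y i - (d i : ℝ) ∈ Ioo (-(1 / 2) : ℝ) (1 / 2) := by
      refine eventually_all.2 fun i => ((continuous_apply i).sub continuous_const).continuousAt.eventually
        (Ioo_mem_nhds ?_ ?_) <;> simp only [Pi.sub_apply] <;>
        linarith [hd i, (centre_mem y₀ i).1, h i]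
    exact hev.mono fun y hy => funext fun i => centre_of_int (Ioo_subset_Ioc_self (hy i)) (d := d i) (by simp)
  · push Not at h
    obtain ⟨i, hi⟩ := h
    have hi2 : centre y₀ i = 1 / 2 := le_antisymm (centre_mem y₀ i).2 hi
    have hm := lt_min (sub_pos.2 hσ) (show (0 : ℝ) < 1 / 4 by norm_num)
    have hnear : ∀ᶠ y in 𝓝 y₀,
        y i ∈ Ioo (y₀ i - min (1 / 2 - σ) (1 / 4)) (y₀ i + min (1 / 2 - σ) (1 / 4)) :=
      ((continuous_apply i).tendsto y₀).eventually_mem (Ioo_mem_nhds (by linarith) (by linarith))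
    refine .inr (hnear.mono
      fun y hy => ⟨i, ?_⟩)
    have h1 := min_le_left (1 / 2 - σ) (1 / 4)
    have h2 := min_le_right (1 / 2 - σ) (1 / 4)
    have h0 : y₀ i = 1 / 2 + d i := hi2 ▸ hd i
    rcases le_or_gt (y i - d i) (1 / 2) with hle | hgt
    · rw [centre_of_int (c := y i - d i) ⟨by linarith [hy.1], hle⟩ (d := d i) (by ring),
        abs_of_nonneg (by linarith [hy.1])]
      linarith [hy.1]
    · rw [centre_of_int (c := y i - d i - 1) ⟨by linarith, by linarith [hy.2]⟩ (d := d i + 1)
        (by push_cast; ring), abs_of_nonpos (by linarith [hy.2])]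
      linarith [hy.2]

theorem contDiff_periodExt {f : (Fin n → ℝ) → ℝ} {k : WithTop ℕ∞} (hf : ContDiff ℝ k f) {σ : ℝ}
    (hσ : σ < 1 / 2) (h0 : ∀ y i, σ < |y i| → f y = 0) : ContDiff ℝ k (periodExt f) := by
  refine contDiff_iff_contDiffAt.2 fun y₀ => ?_
  rcases centre_local y₀ hσ with ⟨d, hd⟩ | hz
  · exact (hf.comp (contDiff_id.sub contDiff_const)).contDiffAt.congr_of_eventuallyEq
      (hd.mono fun y hy => by
        show f (centre y) = f (id y - d)
        rw [hy]; rfl)
  · exact (contDiffAt_const (c := (0 : ℝ))).congr_of_eventuallyEq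
      (hz.mono fun y ⟨i, hi⟩ => h0 _ i hi)

/-- Vanishing weak gradient on a convex open set: constant. -/
theorem ae_const_of_weak_grad {U : Set (Fin n → ℝ)} (hU : IsOpen U) (hconv : Convex ℝ U)
    {G : (Fin n → ℝ) → ℝ} (hG : Measurable G) {B : ℝ} (hB : ∀ y ∈ U, |G y| ≤ B)
    (h : ∀ ζ : (Fin n → ℝ) → ℝ, ContDiff ℝ 1 ζ → HasCompactSupport ζ → tsupport ζ ⊆ U → ∀ i,
      ∫ y in U, G y * fderiv ℝ ζ y (Pi.single i 1) = 0) :
    ∃ C, ∀ᵐ y, y ∈ U → G y = C := by
  set H : (Fin n → ℝ) → ℝ := U.indicator G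
  have hHb : ∀ y, |H y| ≤ max B 0 := fun y => by
    by_cases hy : y ∈ U
    · simp only [H, indicator_of_mem hy]; exact (hB y hy).trans (le_max_left _ _)
    · simp [H, indicator_of_notMem hy]
  have hHm : Measurable H := hG.indicator hU.measurableSet
  have hloc : LocallyIntegrable H volume := fun x => by
    refine ⟨Metric.ball x 1, Metric.ball_mem_nhds x one_pos, ?_⟩
    have : IsFiniteMeasure (volume.restrict (Metric.ball x 1)) :=
      isFiniteMeasure_restrict.2 measure_ball_lt_top.ne
    exact Integrable.of_bound hHm.aestronglyMeasurable (max B 0)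
      (.of_forall fun y => by rw [Real.norm_eq_abs]; exact hHb y)
  set φ : ℕ → ContDiffBump (0 : Fin n → ℝ) := fun k =>
    ⟨1 / ((k : ℝ) + 1), 2 / ((k : ℝ) + 1), by positivity, by gcongr; norm_num⟩
  set g : ℕ → (Fin n → ℝ) → ℝ :=
    fun k => (φ k).normed volume ⋆[ContinuousLinearMap.lsmul ℝ ℝ, volume] H
  have hlim : ∀ᵐ y, Tendsto (fun k => g k y) atTop (𝓝 (H y)) := by
    refine ContDiffBump.ae_convolution_tendsto_right_of_locallyIntegrable (K := 2) ?_ ?_ hloc
    · simpa [φ, div_eq_mul_inv] using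
        (tendsto_one_div_add_atTop_nhds_zero_nat (𝕜 := ℝ)).const_mul 2
    · exact .of_forall fun k => le_of_eq (by simp only [φ]; ring)
  have hzero : ∀ k x, Metric.closedBall x (φ k).rOut ⊆ U → HasFDerivAt (g k) (0 : (Fin n → ℝ) →L[ℝ] ℝ) x := by
    intro k x hx
    set ψ := (φ k).normed volume
    have hψc : HasCompactSupport ψ := (φ k).hasCompactSupport_normed
    have hψd : ContDiff ℝ 1 ψ := (φ k).contDiff_normed
    refine (hψc.hasFDerivAt_convolution_left (L := ContinuousLinearMap.lsmul ℝ ℝ) hψd hloc x).congr_fderiv ?_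
    have hcomp : ∀ v : Fin n → ℝ,
        (fderiv ℝ ψ ⋆[(ContinuousLinearMap.lsmul ℝ ℝ).precompL (Fin n → ℝ), volume] H) x v
          = ∫ y, fderiv ℝ ψ (x - y) v * H y := fun v => by
      rw [convolution_eq_swap, ContinuousLinearMap.integral_apply]
      · simp
      · have := ((hψc.fderiv ℝ).convolutionExists_left
          ((ContinuousLinearMap.lsmul ℝ ℝ).precompL (Fin n → ℝ)) (hψd.continuous_fderiv one_ne_zero) hloc x)
        exact (this.integrable_swap)
    have hsingle : ∀ i, ∫ y, fderiv ℝ ψ (x - y) (Pi.single i 1) * H y = 0 := fun i => by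
      set ζ : (Fin n → ℝ) → ℝ := fun y => ψ (x - y)
      have hζd : ContDiff ℝ 1 ζ := hψd.comp (contDiff_const.sub contDiff_id)
      have hsupp : tsupport ζ ⊆ Metric.closedBall x (φ k).rOut := by
        refine closure_minimal (fun y hy => ?_) Metric.isClosed_closedBall
        have : x - y ∈ support ψ := hy
        rw [(φ k).support_normed_eq, mem_ball_zero_iff] at this
        rw [Metric.mem_closedBall, dist_comm, dist_eq_norm]
        exact this.le
      have hd : ∀ y, fderiv ℝ ζ y (Pi.single i 1) = -fderiv ℝ ψ (x - y) (Pi.single i 1) := fun y => by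
        have h1 : HasFDerivAt ζ ((fderiv ℝ ψ (x - y)).comp (-ContinuousLinearMap.id ℝ (Fin n → ℝ))) y :=
          ((hψd.differentiable one_ne_zero) (x - y)).hasFDerivAt.comp y ((hasFDerivAt_id y).const_sub x)
        rw [h1.fderiv]
        simp
      have h0 := h ζ hζd ((isCompact_closedBall x _).of_isClosed_subset (isClosed_tsupport ζ) hsupp)
        (hsupp.trans hx) i
      rw [← integral_indicator hU.measurableSet] at h0
      rw [← neg_eq_zero, ← integral_neg, ← h0]
      refine integral_congr_ae (.of_forall fun y => ?_)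
      by_cases hy : y ∈ U
      · simp only [H, indicator_of_mem hy, hd]; ring
      · simp [H, indicator_of_notMem hy]
    refine ContinuousLinearMap.ext fun v => ?_
    rw [pi_eq_sum_univ' v]
    simp only [map_sum, map_smul, zero_apply, smul_zero, Finset.sum_const_zero]
    refine Finset.sum_eq_zero fun i _ => ?_
    rw [hcomp, hsingle, smul_zero]
  rcases U.eq_empty_or_nonempty with rfl | ⟨x₀, hx₀⟩
  · exact ⟨0, .of_forall fun y hy => absurd hy (notMem_empty y)⟩
  obtain ⟨x₁, hx₁, hx₁l⟩ : ∃ x ∈ U, Tendsto (fun k => g k x) atTop (𝓝 (H x)) := by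
    by_contra hc
    push Not at hc
    exact (hU.measure_pos volume ⟨x₀, hx₀⟩).ne' (measure_mono_null (fun x hx => hc x hx) (ae_iff.1 hlim))
  refine ⟨G x₁, hlim.mono fun y hy hyU => ?_⟩
  have hseg : segment ℝ x₁ y ⊆ U := hconv.segment_subset hx₁ hyU
  have hcomp : IsCompact (segment ℝ x₁ y) := by
    rw [segment_eq_image]
    exact isCompact_Icc.image (by fun_prop)
  obtain ⟨r, hr, hrU⟩ := hcomp.exists_cthickening_subset_open hU hseg
  have hev : ∀ᶠ k in atTop, (φ k).rOut ≤ r := by
    have : Tendsto (fun k : ℕ => 2 / ((k : ℝ) + 1)) atTop (𝓝 0) := by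
      simpa [div_eq_mul_inv] using (tendsto_one_div_add_atTop_nhds_zero_nat (𝕜 := ℝ)).const_mul 2
    exact (this.eventually (ge_mem_nhds hr)).mono fun k hk => hk
  have heq : ∀ᶠ k in atTop, g k y = g k x₁ := hev.mono fun k hk => by
    have hsub : ∀ z ∈ segment ℝ x₁ y, Metric.closedBall z (φ k).rOut ⊆ U := fun z hz =>
      ((Metric.closedBall_subset_closedBall hk).trans (Metric.closedBall_subset_cthickening hz r)).trans hrU
    have := (convex_segment x₁ y).norm_image_sub_le_of_norm_hasFDerivWithin_le (C := 0)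
      (fun z hz => (hzero k z (hsub z hz)).hasFDerivWithinAt) (fun z _ => by simp)
      (left_mem_segment ℝ x₁ y) (right_mem_segment ℝ x₁ y)
    rwa [zero_mul, norm_le_zero_iff, sub_eq_zero] at this
  have := tendsto_nhds_unique (hy.congr' heq) hx₁l
  simpa [H, indicator_of_mem hx₁, indicator_of_mem hyU] using this

end

end Vale.Agent.P232
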