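import Vale.Agent.P232.Full.Min.ModelCalib

/-!
# P232: from the Steiner symmetrisations back to the set

If a Steiner symmetrisation of a set of least perimeter is a translate of a model, the set is one.
Successive symmetrisations in the three axes give a symmetric decreasing set, so the classification of
the minimisers reduces to that of the symmetric decreasing ones.
-/

namespace Vale.Agent.P232

open MeasureTheory Set Function Filter Topology Real

noncomputable section

/-- Equal up to a null set to the translate of `M` by `a`. -/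
def IsTranslate {n : ℕ} (E M : Set (Fin n → ℝ)) (a : Fin n → ℝ) : Prop :=
  ∀ᵐ x, x ∈ E ↔ x - a ∈ M

variable {n : ℕ}

/-- Almost everywhere on the cube gives almost everywhere. -/
theorem ae_of_cube {P : (Fin n → ℝ) → Prop} (hP : Periodic P)
    (h : ∀ᵐ x ∂volume.restrict (cube n), P x) : ∀ᵐ x, P x := by
  have hall : ∀ᵐ x : Fin n → ℝ, ∀ g : lattice n,
      (g : Fin n → ℝ) + x ∈ cube n → P ((g : Fin n → ℝ) + x) :=
    ae_all_iff.2 fun g => (measurePreserving_add_left volume (g : Fin n → ℝ)).quasiMeasurePreserving.ae
      ((ae_restrict_iff' cube_measurable).1 h)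
  filter_upwards [hall] with x hx
  obtain ⟨g, hg⟩ := exists_nearest x
  exact (hP.vadd g x).mp (hx g hg)

/-- The total variation is invariant under translations. -/
theorem tvle_preimage {E : Set (Fin n → ℝ)} (hp : Periodic fun x => x ∈ E) {c : ℝ}
    (hc : TVLE (E.indicator fun _ => 1) c) (a : Fin n → ℝ) :
    TVLE (((fun x => x + a) ⁻¹' E).indicator fun _ => 1) c := by
  intro F hF
  have hq : Periodic fun x => ((fun x => x + a) ⁻¹' E).indicator (fun _ => (1 : ℝ)) x * divergence F x :=
    fun i x => by
      have e : ((fun x => x + a) ⁻¹' E).indicator (fun _ => (1 : ℝ)) (x + Pi.single i 1)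
          = ((fun x => x + a) ⁻¹' E).indicator (fun _ => (1 : ℝ)) x :=
        indicator_periodic (hp.comp_translate a) i x
      simp only [e, divergence_periodic hF.periodic i x]
  rw [← hq.integral_translate (-a)]
  have := hc _ (hF.translate (-a))
  simp only [divergence_translate] at this
  refine le_trans (le_of_eq (integral_congr_ae (.of_forall fun x => ?_))) this
  have e : (x + -a ∈ (fun x => x + a) ⁻¹' E) ↔ x ∈ E := by simp
  by_cases hx : x ∈ E
  · simp [indicator_of_mem hx, indicator_of_mem (e.2 hx)]
  · simp [indicator_of_notMem hx, indicator_of_notMem fun hh => hx (e.1 hh)]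

theorem integral_period_add {f : ℝ → ℝ} (hf : Function.Periodic f 1) (b : ℝ) :
    ∫ z in period, f (z + b) = ∫ z in period, f z := by
  rw [period, ← intervalIntegral.integral_of_le (by norm_num : -(1 / 2 : ℝ) ≤ 1 / 2),
    intervalIntegral.integral_comp_add_right,
    ← intervalIntegral.integral_of_le (by norm_num : -(1 / 2 : ℝ) ≤ 1 / 2)]
  have h := hf.intervalIntegral_add_eq (-(1 / 2) + b) (-(1 / 2))
  rw [show -(1 / 2) + b + 1 = 1 / 2 + b by ring, show -(1 / 2 : ℝ) + 1 = 1 / 2 by norm_num] at h
  exact h

variable {m : ℕ} {j : Fin (m + 1)} {E F : Set (Fin (m + 1) → ℝ)}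

theorem baseLen_preimage (hp : Periodic fun x => x ∈ E) (a : Fin (m + 1) → ℝ) (y : Fin m → ℝ) :
    baseLen ((fun x => x + a) ⁻¹' E) j y = baseLen E j (y + baseProj j a) := by
  have e : ∀ z, splice j z y + a = splice j (z + a j) (y + baseProj j a) := fun z => by
    funext i
    refine j.succAboveCases ?_ (fun k => ?_) i
    · simp [splice_same]
    · simp [splice_above, baseProj]
  have e2 : ∀ z, ((fun x => x + a) ⁻¹' E).indicator (fun _ => (1 : ℝ)) (splice j z y)
      = E.indicator (fun _ => 1) (splice j (z + a j) (y + baseProj j a)) := fun z => by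
    by_cases hz : splice j z y + a ∈ E
    · rw [indicator_of_mem (show splice j z y ∈ (fun x => x + a) ⁻¹' E from hz),
        indicator_of_mem (e z ▸ hz)]
    · rw [indicator_of_notMem (show splice j z y ∉ (fun x => x + a) ⁻¹' E from hz),
        indicator_of_notMem (e z ▸ hz)]
  simp only [baseLen, e2]
  exact integral_period_add (f := fun z => E.indicator (fun _ => (1 : ℝ)) (splice j z (y + baseProj j a)))
    (line_periodic (indicator_periodic hp) _) (a j)

theorem baseLen_congr (h : ∀ᵐ x ∂volume.restrict (cube (m + 1)), x ∈ E ↔ x ∈ F) :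
    ∀ᵐ y ∂volume.restrict (cube m), baseLen E j y = baseLen F j y := by
  have h' : ∀ᵐ y ∂volume.restrict (cube m), ∀ᵐ z ∂volume.restrict period,
      (splice j z y ∈ E ↔ splice j z y ∈ F) :=
    Measure.ae_ae_of_ae_prod (((splice_preserving j).quasiMeasurePreserving.comp
      Measure.measurePreserving_swap.quasiMeasurePreserving).ae h)
  filter_upwards [h'] with y hy
  refine integral_congr_ae (hy.mono fun z hz => ?_)
  dsimp only
  by_cases hm : splice j z y ∈ E
  · rw [indicator_of_mem hm, indicator_of_mem (hz.1 hm)]
  · rw [indicator_of_notMem hm, indicator_of_notMem fun hh => hm (hz.2 hh)]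

theorem iff_of_lines (hE : MeasurableSet E) (hF : MeasurableSet F)
    (h : ∀ᵐ y ∂volume.restrict (cube m), ∀ᵐ z ∂volume.restrict period,
      (splice j z y ∈ E ↔ splice j z y ∈ F)) :
    ∀ᵐ x ∂volume.restrict (cube (m + 1)), x ∈ E ↔ x ∈ F := by
  have hq := splice_preserving j
  have hset : MeasurableSet {x | x ∈ E ↔ x ∈ F} := by
    have : {x | x ∈ E ↔ x ∈ F} = (E ∩ F) ∪ (Eᶜ ∩ Fᶜ) := by ext x; simp; tauto
    rw [this]
    exact (hE.inter hF).union (hE.compl.inter hF.compl)
  rw [← hq.map_eq]
  refine (ae_map_iff hq.measurable.aemeasurable hset).2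
    (Measure.measurePreserving_swap.quasiMeasurePreserving.ae ?_
      (p := fun p : (Fin m → ℝ) × ℝ => splice j p.2 p.1 ∈ E ↔ splice j p.2 p.1 ∈ F))
  exact (Measure.ae_prod_iff_ae_ae ((hq.measurable.comp measurable_swap) hset)).2 h

theorem integral_baseLen (hE : MeasurableSet E) (j : Fin (m + 1)) :
    ∫ y in cube m, baseLen E j y = volume.real (cube (m + 1) ∩ E) := by
  have hi : IntegrableOn (E.indicator fun _ => (1 : ℝ)) (cube (m + 1)) :=
    integrableOn_cube (measurable_const.indicator hE) (C := 1) fun x => by
      rw [abs_of_nonneg (indicator_mem E x).1]; exact (indicator_mem E x).2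
  rw [← setIntegral_one_eq_measureReal, ← setIntegral_indicator hE, (integral_cube_lines hi j).1]
  rfl

theorem line_const (hE : MeasurableSet E) (y : Fin m → ℝ) :
    (baseLen E j y = 0 → ∀ᵐ z ∂volume.restrict period, splice j z y ∉ E) ∧
      (baseLen E j y = 1 → ∀ᵐ z ∂volume.restrict period, splice j z y ∈ E) := by
  have hi : Integrable (fun z => E.indicator (fun _ => (1 : ℝ)) (splice j z y)) (volume.restrict period) :=
    Integrable.of_bound ((measurable_const.indicator hE).comp
      (continuous_splice y).measurable).aestronglyMeasurable 1 (.of_forall fun z => by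
        rw [Real.norm_eq_abs, abs_of_nonneg (indicator_mem E _).1]; exact (indicator_mem E _).2)
  constructor <;> intro h
  · refine ((integral_eq_zero_iff_of_nonneg_ae (.of_forall fun z => (indicator_mem E _).1) hi).1 h).mono
      fun z hz hm => ?_
    simp [indicator_of_mem hm] at hz
  · have h0 : ∫ z in period, (1 - E.indicator (fun _ => (1 : ℝ)) (splice j z y)) = 0 := by
      rw [integral_sub (integrable_const _) hi]
      simp only [baseLen] at h
      simp [h]
    refine ((integral_eq_zero_iff_of_nonneg_ae
      (.of_forall fun z => sub_nonneg.2 (indicator_mem E _).2) ((integrable_const _).sub hi)).1 h0).mono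
      fun z hz => ?_
    by_contra hm
    simp [indicator_of_notMem hm] at hz

theorem hasVolume_steiner {E : Set (Fin 3 → ℝ)} {v : ℝ} (h : HasVolume E v) (j : Fin 3) :
    HasVolume (steiner E j) v := by
  refine ⟨measurableSet_steiner h.meas, periodic_steiner h.periodic, ?_⟩
  have e : volume.real (cube 3 ∩ steiner E j) = volume.real (cube 3 ∩ E) := by
    rw [← integral_baseLen (measurableSet_steiner h.meas) j, ← integral_baseLen h.meas j]
    simp only [baseLen_steiner]
  rw [measureReal_def, measureReal_def,
    ENNReal.toReal_eq_toReal_iff' (measure_ne_top_of_subset inter_subset_left cube_finite)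
      (measure_ne_top_of_subset inter_subset_left cube_finite)] at e
  rw [e, h.vol]

theorem measurableSet_model (I : Finset (Fin 3)) (r : ℝ) : MeasurableSet (model I r) := by
  have hd : Continuous intDist := (LipschitzWith.of_dist_le_mul (K := 1) fun s t => by
    simp only [Real.dist_eq, NNReal.coe_one, one_mul]
    exact abs_intDist_sub s t).continuous
  have hc : Continuous (radial I) := by
    unfold radial
    refine Real.continuous_sqrt.comp (continuous_finsetSum _ fun i _ => Continuous.pow ?_ 2)
    split_ifs
    · exact hd.comp (continuous_apply i)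
    · exact continuous_const
  exact measurableSet_lt hc.measurable measurable_const

theorem periodic_iff {P Q : (Fin n → ℝ) → Prop} (hP : Periodic P) (hQ : Periodic Q) :
    Periodic fun x => P x ↔ Q x := fun i x => by simp only [hP i x, hQ i x]

theorem indicator_eq_iff {α : Type*} {A B : Set α} {x y : α}
    (h : A.indicator (fun _ => (1 : ℝ)) x = B.indicator (fun _ => 1) y) : x ∈ A ↔ y ∈ B := by
  by_cases h1 : x ∈ A <;> by_cases h2 : y ∈ B <;> simp_all

theorem IsModel.area {v : ℝ} {I : Finset (Fin 3)} {r : ℝ} (h : IsModel v I r) :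
    ballTubeSlab v = I.card * v / r := by
  obtain ⟨hr, -, h⟩ := h
  rcases h with ⟨e1, e2, e3⟩ | ⟨e1, e2, e3⟩ | ⟨e1, e2, e3⟩ <;> rw [e3, e1, e2] <;> push_cast <;>
    field_simp

/-- The lines over the shadow of a model. -/
theorem steiner_eq_model {E : Set (Fin 3 → ℝ)} {I : Finset (Fin 3)} {r : ℝ} {j : Fin 3}
    (hE : MeasurableSet E) (hp : Periodic fun x => x ∈ E) (hr : 0 ≤ r) (hj : j ∈ I)
    (hprof : ∀ᵐ y ∂volume.restrict (cube 2),
      baseLen E j y = (shadow (baseSet j I) r).indicator (chord (baseSet j I) r) y) :
    ∀ᵐ x : Fin 3 → ℝ, x ∈ steiner E j ↔ x ∈ model I r := by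
  refine ae_of_cube (periodic_iff (periodic_steiner hp) (periodic_model I r))
    (iff_of_lines (j := j) (measurableSet_steiner hE) (measurableSet_model I r) ?_)
  filter_upwards [hprof, ae_restrict_mem cube_measurable, openSquare_ae] with y hy hyc hyo
  filter_upwards [ae_restrict_mem period_measurable] with z hz
  rw [steiner_iff (abs_le.2 ⟨hz.1.le, hz.2⟩), hy, mem_model_iff (splice_mem_cube hz hyc) hr,
    sum_splice, if_pos hj]
  by_cases hlt : sqDist (baseSet j I) y < r ^ 2
  · rw [indicator_of_mem (show y ∈ shadow (baseSet j I) r from ⟨hyo, hlt⟩), chord]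
    have e : |z| < √(r ^ 2 - sqDist (baseSet j I) y) ↔ z ^ 2 + sqDist (baseSet j I) y < r ^ 2 := by
      rw [Real.lt_sqrt (abs_nonneg z), sq_abs, lt_sub_iff_add_lt]
    constructor
    · intro hh; exact e.1 (by linarith)
    · intro hh; linarith [e.2 hh]
  · rw [indicator_of_notMem (show y ∉ shadow (baseSet j I) r from fun hh => hlt hh.2)]
    exact iff_of_false (by linarith [abs_nonneg z]) fun hh => hlt (by linarith [sq_nonneg z])

theorem IsModel.vol_nonneg {v : ℝ} {I : Finset (Fin 3)} {r : ℝ} (h : IsModel v I r) : 0 ≤ v := by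
  obtain ⟨hr, -, h⟩ := h
  rcases h with ⟨-, e, -⟩ | ⟨-, e, -⟩ | ⟨-, e, -⟩ <;> rw [e] <;> positivity

/-- The set has the lines of a model. -/
theorem translate_of_lines {E : Set (Fin 3 → ℝ)} {v : ℝ} {I : Finset (Fin 3)} {r : ℝ} {j : Fin 3}
    (hmod : IsModel v I r) (hE : HasVolume E v) (hc : TVLE (E.indicator fun _ => 1) (ballTubeSlab v))
    (hlen : ∀ᵐ y ∂volume.restrict (cube 2), baseLen E j y = baseLen (model I r) j y) :
    ∃ b, IsTranslate E (model I r) b := by
  obtain ⟨hr, hr', -⟩ := id hmod
  by_cases hj : j ∈ I
  swap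
  · refine ⟨0, ?_⟩
    simp only [IsTranslate, sub_zero]
    refine ae_of_cube (periodic_iff hE.periodic (periodic_model I r))
      (iff_of_lines (j := j) hE.meas (measurableSet_model I r) ?_)
    filter_upwards [hlen, baseLen_model_of_notMem hr.le hj] with y hy h01
    rcases h01 with e | e
    · filter_upwards [(line_const hE.meas y).1 (hy.trans e), (line_const (measurableSet_model I r) y).1 e]
        with z h1 h2 using iff_of_false h1 h2
    · filter_upwards [(line_const hE.meas y).2 (hy.trans e), (line_const (measurableSet_model I r) y).2 e]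
        with z h1 h2 using iff_of_true h1 h2
  have hprof : ∀ᵐ y ∂volume.restrict (cube 2),
      baseLen E j y = (shadow (baseSet j I) r).indicator (chord (baseSet j I) r) y := by
    filter_upwards [hlen, baseLen_model hr.le hr'.le hj] with y h1 h2 using h1.trans h2
  obtain ⟨b, hb⟩ := calibrated_shadow (baseSet j I) hr hr'
  have hint : ∫ y in shadow (baseSet j I) r, chord (baseSet j I) r y = v := by
    have e1 : ∫ y in cube 2, baseLen E j y = v := by
      rw [integral_baseLen hE.meas j, measureReal_def, hE.vol, ENNReal.toReal_ofReal hmod.vol_nonneg]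
    rw [integral_congr_ae hprof, setIntegral_indicator (isOpen_shadow _ r).measurableSet,
      inter_eq_right.2 (show shadow (baseSet j I) r ⊆ cube 2 from fun y hy k _ =>
        Ioo_subset_Ioc_self (hy.1 k (mem_univ k)))] at e1
    exact e1
  have harea : (((baseSet j I).card : ℝ) + 1) * (∫ y in shadow (baseSet j I) r, chord (baseSet j I) r y) / r
      = ballTubeSlab v := by
    rw [hint, hmod.area, card_baseSet hj]
    push_cast
    rfl
  rw [harea] at hb
  obtain ⟨t, ht⟩ := hb.exists_translate hE.meas hE.periodic hc hprof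
  have hsp : Periodic fun x : Fin 3 → ℝ => x - Pi.single j t ∈ steiner E j := by
    simpa only [sub_eq_add_neg] using (periodic_steiner hE.periodic).comp_translate (-Pi.single j t)
  have ht' : ∀ᵐ x : Fin 3 → ℝ, x ∈ E ↔ x - Pi.single j t ∈ steiner E j :=
    ae_of_cube (periodic_iff hE.periodic hsp) (ht.mono fun x hx => indicator_eq_iff hx)
  refine ⟨Pi.single j t, ?_⟩
  filter_upwards [ht', (measurePreserving_sub_right volume (Pi.single j t)).quasiMeasurePreserving.ae
    (steiner_eq_model hE.meas hE.periodic hr.le hj hprof)] with x h1 h2 using h1.trans h2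

theorem hasVolume_preimage {E : Set (Fin 3 → ℝ)} {v : ℝ} (h : HasVolume E v) (a : Fin 3 → ℝ) :
    HasVolume ((fun x => x + a) ⁻¹' E) v := by
  have hm : MeasurableSet ((fun x => x + a) ⁻¹' E) := (measurable_add_const a) h.meas
  refine ⟨hm, h.periodic.comp_translate a, ?_⟩
  have e2 := (indicator_periodic h.periodic).integral_translate a
  have e3 : (fun x => E.indicator (fun _ => (1 : ℝ)) (x + a))
      = ((fun x => x + a) ⁻¹' E).indicator fun _ => 1 := funext fun x => by
    by_cases hx : x + a ∈ E
    · rw [indicator_of_mem hx, indicator_of_mem (show x ∈ (fun x => x + a) ⁻¹' E from hx)]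
    · rw [indicator_of_notMem hx, indicator_of_notMem (show x ∉ (fun x => x + a) ⁻¹' E from hx)]
  rw [e3, setIntegral_indicator hm, setIntegral_indicator h.meas, setIntegral_one_eq_measureReal,
    setIntegral_one_eq_measureReal, measureReal_def, measureReal_def,
    ENNReal.toReal_eq_toReal_iff' (measure_ne_top_of_subset inter_subset_left cube_finite)
      (measure_ne_top_of_subset inter_subset_left cube_finite)] at e2
  rw [e2, h.vol]

/-- If a Steiner symmetrisation is a translate of a model, so is the set. -/
theorem translate_of_steiner {E : Set (Fin 3 → ℝ)} {v : ℝ} {I : Finset (Fin 3)} {r : ℝ}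
    (hmod : IsModel v I r) (hE : HasVolume E v) (hc : TVLE (E.indicator fun _ => 1) (ballTubeSlab v))
    {j : Fin 3} {a : Fin 3 → ℝ} (h : IsTranslate (steiner E j) (model I r) a) :
    ∃ a', IsTranslate E (model I r) a' := by
  have hshift : ∀ᵐ x : Fin 3 → ℝ, x + a ∈ steiner E j ↔ x ∈ model I r := by
    have := (measurePreserving_add_right volume a).quasiMeasurePreserving.ae h
    simpa only [add_sub_cancel_right] using this
  have hlen : ∀ᵐ y ∂volume.restrict (cube 2),
      baseLen ((fun x => x + a) ⁻¹' E) j y = baseLen (model I r) j y := by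
    filter_upwards [baseLen_congr (j := j) (E := (fun x => x + a) ⁻¹' steiner E j) (F := model I r)
      (ae_restrict_of_ae hshift)] with y hy
    rw [baseLen_preimage (periodic_steiner hE.periodic), baseLen_steiner] at hy
    rw [baseLen_preimage hE.periodic, hy]
  obtain ⟨b, hb⟩ := translate_of_lines hmod (hasVolume_preimage hE a) (tvle_preimage hE.periodic hc a) hlen
  refine ⟨a + b, ?_⟩
  filter_upwards [(measurePreserving_sub_right volume a).quasiMeasurePreserving.ae hb] with x hx
  simpa [sub_sub] using hx

/-- The three successive Steiner symmetrisations. -/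
def steiner₃ (E : Set (Fin 3 → ℝ)) : Set (Fin 3 → ℝ) := steiner (steiner (steiner E 0) 1) 2

theorem symmDecr_steiner₃ {E : Set (Fin 3 → ℝ)} {v : ℝ} (hE : HasVolume E v) :
    SymmDecr ((steiner₃ E).indicator fun _ => (1 : ℝ)) := by
  have h0 : SymmDecrOn E (∅ : Set (Fin 3)) := fun _ _ _ hi => absurd hi (notMem_empty _)
  have h1 := symmDecrOn_steiner (j := 0) hE.meas h0
  have h2 := symmDecrOn_steiner (j := 1) (measurableSet_steiner hE.meas) h1
  have h3 := symmDecrOn_steiner (j := 2) (measurableSet_steiner (measurableSet_steiner hE.meas)) h2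
  intro x i y hy
  have hi : i ∈ insert (2 : Fin 3) (insert 1 (insert 0 (∅ : Set (Fin 3)))) := by
    fin_cases i <;> simp
  by_cases hm : update x i y ∈ steiner₃ E
  · rw [indicator_of_mem hm, indicator_of_mem]
    exact h3 x i y hi hy hm
  · rw [indicator_of_notMem hm]
    exact (indicator_mem _ _).1

/-- Reduction to the symmetric decreasing sets. -/
theorem translate_of_steiner₃ {E : Set (Fin 3 → ℝ)} {v : ℝ} {I : Finset (Fin 3)} {r : ℝ}
    (hmod : IsModel v I r) (hE : HasVolume E v) (hc : TVLE (E.indicator fun _ => 1) (ballTubeSlab v))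
    (h : ∀ᵐ x ∂volume.restrict (cube 3), (steiner₃ E).indicator (fun _ => (1 : ℝ)) x
      = (model I r).indicator (fun _ => 1) x) :
    ∃ a, IsTranslate E (model I r) a := by
  have hv1 := hasVolume_steiner hE 0
  have hv2 := hasVolume_steiner hv1 1
  have hv3 := hasVolume_steiner hv2 2
  have hc1 := tvle_steiner hE.meas hE.periodic hc 0
  have hc2 := tvle_steiner hv1.meas hv1.periodic hc1 1
  have h0 : IsTranslate (steiner₃ E) (model I r) 0 := by
    simp only [IsTranslate, sub_zero]
    exact ae_of_cube (periodic_iff hv3.periodic (periodic_model I r))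
      (h.mono fun x hx => indicator_eq_iff hx)
  obtain ⟨a2, ha2⟩ := translate_of_steiner hmod hv2 hc2 h0
  obtain ⟨a1, ha1⟩ := translate_of_steiner hmod hv1 hc1 ha2
  exact translate_of_steiner hmod hE hc ha1

end

end Vale.Agent.P232
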