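import Vale.Agent.P232.Full.Min.LineArcs

/-!
# P232: perturbations of a calibration along the lines

The field `b + s η cos (2π (z - t)) eᵢ` with the weight `a - s (bᵢ η / a) cos - K s² η²`, `a = √(1 - |b|²)`,
is admissible for small `s`; on a line which is an arc its two weights are affine in the first moment.
-/

namespace Vale.Agent.P232

open MeasureTheory Set Function Filter Topology Real

noncomputable section

variable {m : ℕ} {j : Fin (m + 1)}

/-- The constant of the quadratic correction. -/
def quadConst (a₀ : ℝ) : ℝ := (1 + 2 / a₀ ^ 2) / a₀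

theorem quadConst_pos {a₀ : ℝ} (h : 0 < a₀) : 0 < quadConst a₀ := by unfold quadConst; positivity

/-- Admissibility of the perturbation at one point. -/
theorem perturb_small {A a₀ B e s w C : ℝ} (ha₀ : 0 < a₀) (hA : a₀ ≤ A) (hB : B ^ 2 ≤ 1)
    (he : |e| ≤ C) (hw : |w| ≤ 1) (h1 : |s| * C ≤ a₀ ^ 2 / 2)
    (h2 : quadConst a₀ * s ^ 2 * C ^ 2 ≤ a₀ / 2) :
    0 ≤ A - s * (B * e / A) * w - quadConst a₀ * s ^ 2 * e ^ 2 ∧
      (A - s * (B * e / A) * w - quadConst a₀ * s ^ 2 * e ^ 2) ^ 2
        + (2 * B * (s * e * w) + (s * e * w) ^ 2) ≤ A ^ 2 := by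
  have hA0 : 0 < A := ha₀.trans_le hA
  set X := s * (B * e / A) * w
  set Y := quadConst a₀ * s ^ 2 * e ^ 2
  set v := s * e * w
  have hX : A * X = B * v := by simp only [X, v]; field_simp
  have hY0 : 0 ≤ Y := by have := quadConst_pos ha₀; positivity
  have hC : 0 ≤ C := (abs_nonneg e).trans he
  have he2 : e ^ 2 ≤ C ^ 2 := sq_le_sq' (abs_le.1 he).1 (abs_le.1 he).2
  have hY : Y ≤ a₀ / 2 :=
    (mul_le_mul_of_nonneg_left he2 (mul_nonneg (quadConst_pos ha₀).le (sq_nonneg s))).trans h2
  have hv : v ^ 2 ≤ s ^ 2 * e ^ 2 := by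
    have := mul_le_of_le_one_right (mul_nonneg (sq_nonneg s) (sq_nonneg e))
      ((sq_le_one_iff_abs_le_one _).2 hw)
    simp only [v, mul_pow]
    exact this
  have hv' : |v| ≤ |s| * C := by
    simp only [v, abs_mul]
    calc |s| * |e| * |w| ≤ |s| * C * 1 :=
          mul_le_mul (mul_le_mul_of_nonneg_left he (abs_nonneg s)) hw (abs_nonneg w) (by positivity)
      _ = |s| * C := mul_one _
  have hBv : (A * X) ^ 2 ≤ v ^ 2 := by
    rw [hX, mul_pow]; exact mul_le_of_le_one_left (sq_nonneg v) hB
  have hX2 : X ^ 2 ≤ s ^ 2 * e ^ 2 / a₀ ^ 2 := by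
    rw [le_div_iff₀ (by positivity)]
    nlinarith [mul_le_mul_of_nonneg_right (pow_le_pow_left₀ ha₀.le hA 2) (sq_nonneg X)]
  have hXs : |X| ≤ a₀ / 2 := by
    have h3 : |A * X| ≤ |v| := sq_le_sq.1 hBv
    rw [abs_mul, abs_of_pos hA0] at h3
    have h4 : a₀ * |X| ≤ A * |X| := mul_le_mul_of_nonneg_right hA (abs_nonneg X)
    have h5 : a₀ * |X| ≤ a₀ * (a₀ / 2) := by linarith
    exact le_of_mul_le_mul_left h5 ha₀
  refine ⟨by linarith [le_abs_self X], ?_⟩
  have hkey : v ^ 2 + 2 * X ^ 2 ≤ a₀ * Y := by
    have e1 : a₀ * Y = s ^ 2 * e ^ 2 + 2 * (s ^ 2 * e ^ 2 / a₀ ^ 2) := by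
      simp only [Y, quadConst]
      field_simp
    rw [e1]
    linarith
  nlinarith [sq_nonneg (X - Y), mul_le_mul_of_nonneg_right hA hY0, mul_le_mul_of_nonneg_left hY hY0]

/-- A quadratic bound near zero forces zero. -/
theorem eq_zero_of_le_sq {A N s₀ : ℝ} (hs₀ : 0 < s₀) (hN : 0 ≤ N)
    (h : ∀ s, |s| ≤ s₀ → s * A ≤ s ^ 2 * N) : A = 0 := by
  by_contra hne
  set s₁ := min s₀ (|A| / (2 * (N + 1)))
  have hs₁ : 0 < s₁ := lt_min hs₀ (by positivity)
  have h2 : s₁ * (2 * (N + 1)) ≤ |A| := (le_div_iff₀ (by positivity)).1 (min_le_right _ _)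
  rcases lt_or_gt_of_ne hne with hneg | hpos
  · have h3 := h (-s₁) (by rw [abs_neg, abs_of_pos hs₁]; exact min_le_left _ _)
    rw [abs_of_neg hneg] at h2
    nlinarith
  · have h3 := h s₁ (by rw [abs_of_pos hs₁]; exact min_le_left _ _)
    rw [abs_of_pos hpos] at h2
    nlinarith

/-- The cosine along the direction `j`. -/
def cosAxis (j : Fin (m + 1)) (t : ℝ) (x : Fin (m + 1) → ℝ) : ℝ := cos (2 * π * (x j - t))

/-- The perturbed field. -/
def pertField (j : Fin (m + 1)) (b : (Fin m → ℝ) → Fin m → ℝ) (η : (Fin m → ℝ) → ℝ) (i : Fin m)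
    (s t : ℝ) (x : Fin (m + 1) → ℝ) : Fin m → ℝ :=
  b (baseProj j x) + Pi.single i (s * η (baseProj j x) * cosAxis j t x)

variable {b : (Fin m → ℝ) → Fin m → ℝ} {η : (Fin m → ℝ) → ℝ} {i : Fin m} {s t : ℝ}

theorem contDiff_baseProj : ContDiff ℝ 1 (baseProj j : (Fin (m + 1) → ℝ) → Fin m → ℝ) :=
  contDiff_pi.2 fun l => contDiff_apply ℝ ℝ (j.succAbove l)

theorem contDiff_cosAxis : ContDiff ℝ 1 (cosAxis j t) :=
  (contDiff_const.mul ((contDiff_apply ℝ ℝ j).sub contDiff_const)).cos

theorem contDiff_pertField (hb : ContDiff ℝ 1 b) (hη : ContDiff ℝ 1 η) :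
    ContDiff ℝ 1 (pertField j b η i s t) := by
  refine (hb.comp contDiff_baseProj).add (contDiff_pi.2 fun l => ?_)
  simp only [Pi.single_apply]
  split_ifs
  · exact (contDiff_const.mul (hη.comp contDiff_baseProj)).mul contDiff_cosAxis
  · exact contDiff_const

theorem periodic_pertField (hb : Periodic b) (hη : Periodic η) :
    Periodic (pertField j b η i s t) := fun l x => by
  simp only [pertField]
  refine j.succAboveCases ?_ (fun l' => ?_) l
  · simp only [cosAxis, baseProj_add_same, Pi.add_apply, Pi.single_eq_same,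
      show 2 * π * (x j + 1 - t) = 2 * π * (x j - t) + 2 * π by ring, cos_add_two_pi]
  · simp only [cosAxis, baseProj_add_above, hb l', hη l', Pi.add_apply,
      Pi.single_eq_of_ne (Fin.succAbove_ne j l').symm, add_zero]

theorem divergence_pertField (hb : ContDiff ℝ 1 b) (hη : ContDiff ℝ 1 η) (x : Fin (m + 1) → ℝ) :
    divergence (baseField j (pertField j b η i s t)) x
      = divergence b (baseProj j x) + s * cosAxis j t x * fderiv ℝ η (baseProj j x) (Pi.single i 1) := by
  rw [divergence_baseField, divergence]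
  have hc : ∀ l, Differentiable ℝ fun y => b y l := fun l =>
    (contDiff_pi.1 hb l).differentiable one_ne_zero
  have hone : ∀ l, fderiv ℝ (fun z => pertField j b η i s t z l) x (Pi.single (j.succAbove l) 1)
      = fderiv ℝ (fun z => b z l) (baseProj j x) (Pi.single l 1)
        + (if l = i then s * cosAxis j t x * fderiv ℝ η (baseProj j x) (Pi.single i 1) else 0) := by
    intro l
    have hd1 : DifferentiableAt ℝ (fun z => b (baseProj j z) l) x :=
      (hc l _).comp x (contDiff_baseProj.differentiable one_ne_zero x)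
    rcases eq_or_ne l i with rfl | hl
    · have hd2 : DifferentiableAt ℝ (fun z => η (baseProj j z)) x :=
        ((hη.comp contDiff_baseProj).differentiable one_ne_zero) x
      have hd3 : DifferentiableAt ℝ (cosAxis j t) x := (contDiff_cosAxis.differentiable one_ne_zero) x
      have e1 : (fun z => pertField j b η l s t z l)
          = fun z => b (baseProj j z) l + s * η (baseProj j z) * cosAxis j t z :=
        funext fun z => by simp [pertField]
      have hcj : fderiv ℝ (cosAxis j t) x (Pi.single (j.succAbove l) 1) = 0 := by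
        have h1 : HasFDerivAt (cosAxis j t) ((-sin (2 * π * (x j - t))) •
            ((2 * π) • (ContinuousLinearMap.proj j : (Fin (m + 1) → ℝ) →L[ℝ] ℝ))) x :=
          ((hasFDerivAt_apply j x).sub_const t).const_mul (2 * π) |>.cos
        rw [h1.fderiv]
        simp
      have hd4 : DifferentiableAt ℝ (fun z => s * η (baseProj j z) * cosAxis j t z) x :=
        (hd2.const_mul s).mul hd3
      rw [e1, if_pos rfl, fderiv_fun_add hd1 hd4, add_apply,
        fderiv_baseProj (g := fun z => b z l) (hc l _) l,
        fderiv_fun_mul (hd2.const_mul s) hd3, add_apply]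
      simp only [smul_apply, smul_eq_mul, hcj, mul_zero, zero_add]
      rw [fderiv_const_mul hd2, smul_apply, smul_eq_mul,
        fderiv_baseProj (g := η) (hη.differentiable one_ne_zero _) l]
      ring
    · have e1 : (fun z => pertField j b η i s t z l) = fun z => b (baseProj j z) l :=
        funext fun z => by simp [pertField, hl]
      rw [e1, if_neg hl, add_zero, fderiv_baseProj (g := fun z => b z l) (hc l _) l]
  simp only [hone, Finset.sum_add_distrib, Finset.sum_ite_eq', Finset.mem_univ, if_true]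

variable {E : Set (Fin (m + 1) → ℝ)} {c : ℝ} {u : ℕ → (Fin (m + 1) → ℝ) → ℝ} {U : Set (Fin m → ℝ)}
  {C C' a₀ : ℝ}

/-- The pairing of the perturbed field with the set. -/
theorem integral_div_pertField (hE : MeasurableSet E) (hb : TestField b) (hη : ContDiff ℝ 1 η)
    (hdb : ∀ y, |fderiv ℝ η y (Pi.single i 1)| ≤ C') :
    ∫ x in cube (m + 1), E.indicator (fun _ => 1) x * divergence (baseField j (pertField j b η i s t)) x
      = (∫ y in cube m, divergence b y * baseLen E j y)
        + s * ∫ y in cube m, fderiv ℝ η y (Pi.single i 1) * lineMoment E j t y := by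
  obtain ⟨D, hD⟩ := hb.divergence_bound
  have hχ : ∀ x : Fin (m + 1) → ℝ, |E.indicator (fun _ => (1 : ℝ)) x| ≤ 1 := fun x => by
    rw [abs_of_nonneg (indicator_mem E _).1]; exact (indicator_mem E _).2
  have hC' : 0 ≤ C' := (abs_nonneg _).trans (hdb 0)
  rw [(integral_cube_lines (integrableOn_cube
    (f := fun x => E.indicator (fun _ => 1) x * divergence (baseField j (pertField j b η i s t)) x)
    ((measurable_const.indicator hE).mul (divergence_measurable _)) (C := 1 * (D + |s| * 1 * C'))
    fun x => by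
      rw [abs_mul, divergence_pertField hb.contDiff hη]
      refine mul_le_mul (hχ x) ((abs_add_le _ _).trans (add_le_add (hD _) ?_)) (abs_nonneg _) zero_le_one
      rw [abs_mul, abs_mul]
      exact mul_le_mul (mul_le_mul_of_nonneg_left (abs_cos_le_one _) (abs_nonneg s)) (hdb _)
        (abs_nonneg _) (by positivity)) j).1]
  have hfin : IsFiniteMeasure (volume.restrict (cube m)) := isFiniteMeasure_restrict.2 cube_finite
  have i1 : Integrable (fun y => divergence b y * baseLen E j y) (volume.restrict (cube m)) :=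
    integrableOn_cube ((divergence_measurable _).mul (measurable_baseLen hE)) (C := D * 1) fun y => by
      rw [abs_mul]
      exact mul_le_mul (hD y) (by rw [abs_of_nonneg (baseLen_mem E y).1]; exact (baseLen_mem E y).2)
        (abs_nonneg _) ((abs_nonneg _).trans (hD y))
  have i2 : Integrable (fun y => fderiv ℝ η y (Pi.single i 1) * lineMoment E j t y)
      (volume.restrict (cube m)) :=
    integrableOn_cube ((measurable_fderiv_apply_const ℝ _ _).mul (measurable_lineMoment hE t)) (C := C' * 1)
      fun y => by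
        rw [abs_mul]
        exact mul_le_mul (hdb y) (lineMoment_abs t y) (abs_nonneg _) hC'
  rw [← integral_const_mul, ← integral_add i1 (i2.const_mul s)]
  refine integral_congr_ae (.of_forall fun y => ?_)
  simp only [divergence_pertField hb.contDiff hη, baseProj_splice, cosAxis, splice_same, mul_add]
  have j0 : Integrable (fun z => E.indicator (fun _ => (1 : ℝ)) (splice j z y)) (volume.restrict period) :=
    Integrable.of_bound ((measurable_const.indicator hE).comp
      (continuous_splice y).measurable).aestronglyMeasurable 1 (.of_forall fun z => hχ _)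
  have e : (fun z => E.indicator (fun _ => (1 : ℝ)) (splice j z y)
      * (s * cos (2 * π * (z - t)) * fderiv ℝ η y (Pi.single i 1)))
      = fun z => (s * fderiv ℝ η y (Pi.single i 1))
        * (E.indicator (fun _ => (1 : ℝ)) (splice j z y) * cos (2 * π * (z - t))) :=
    funext fun z => by ring
  have j2 : Integrable (fun z => E.indicator (fun _ => (1 : ℝ)) (splice j z y) * cos (2 * π * (z - t)))
      (volume.restrict period) :=
    Integrable.of_bound (((measurable_const.indicator hE).comp (continuous_splice y).measurable).mul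
      (by fun_prop)).aestronglyMeasurable (1 * 1) (.of_forall fun z => by
        rw [norm_mul, Real.norm_eq_abs, Real.norm_eq_abs]
        exact mul_le_mul (hχ _) (abs_cos_le_one _) (abs_nonneg _) zero_le_one)
  rw [integral_add (j0.mul_const _) (e ▸ j2.const_mul _), integral_mul_const, e, integral_const_mul]
  simp only [lineMoment, baseLen]
  ring

/-- The inequality given by a perturbed field. -/
theorem perturb_le (hu : SetApprox E c u) (hE : MeasurableSet E) (hp : Periodic fun x => x ∈ E)
    (hU : IsOpen U) (hUc : U ⊆ cube m)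
    (harcs : ∀ᵐ y ∂volume.restrict (cube m), y ∈ U → ∃ mc, IsArc E j y mc)
    (hb : TestField b) (hη : ContDiff ℝ 1 η) (hηp : Periodic η) (hC : ∀ y, |η y| ≤ C)
    (hdb : ∀ y, |fderiv ℝ η y (Pi.single i 1)| ≤ C') (ha₀ : 0 < a₀)
    (hha : ∀ y, η y ≠ 0 → a₀ ≤ height (b y)) (hs1 : |s| * C ≤ a₀ ^ 2 / 2)
    (hs2 : quadConst a₀ * s ^ 2 * C ^ 2 ≤ a₀ / 2) :
    s * ((∫ y in cube m, fderiv ℝ η y (Pi.single i 1) * lineMoment E j t y)
        - ∫ y in U, 2 * (b y i * η y / height (b y) * (cos (π * baseLen E j y) * centreCos E j t y)))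
      ≤ (c - (2 * (∫ y in U, height (b y)) + ∫ y in cube m, divergence b y * baseLen E j y))
        + s ^ 2 * (2 * quadConst a₀ * C ^ 2) := by
  have hC0 : 0 ≤ C := (abs_nonneg _).trans (hC 0)
  have hK := quadConst_pos ha₀
  set K := quadConst a₀
  set a : (Fin m → ℝ) → ℝ := fun y => height (b y)
  have ham : Measurable a := (continuous_height.comp hb.contDiff.continuous).measurable
  set r : (Fin m → ℝ) → ℝ := fun y => b y i * η y / height (b y)
  have hrm : Measurable r := ((hb.coord i).continuous.measurable.mul hη.continuous.measurable).div ham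
  have hrb : ∀ y, |r y| ≤ C / a₀ := fun y => by
    by_cases hy : η y = 0
    · simp only [r, hy, mul_zero, zero_div, abs_zero]; positivity
    · simp only [r]
      rw [abs_div, abs_of_nonneg (height_nonneg _), abs_mul]
      refine div_le_div₀ hC0 ?_ ha₀ (hha y hy)
      calc |b y i| * |η y| ≤ 1 * C := mul_le_mul (hb.abs_le y i) (hC y) (abs_nonneg _) zero_le_one
        _ = C := one_mul C
  have small : ∀ (y : Fin m → ℝ) (w : ℝ), |w| ≤ 1 →
      0 ≤ a y - s * r y * w - K * s ^ 2 * η y ^ 2 ∧
      (a y - s * r y * w - K * s ^ 2 * η y ^ 2) ^ 2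
        + ∑ l, (b y + Pi.single i (s * η y * w) : Fin m → ℝ) l ^ 2 ≤ 1 := by
    intro y w hw
    have hsum : ∑ l, (b y + Pi.single i (s * η y * w) : Fin m → ℝ) l ^ 2
        = ∑ l, b y l ^ 2 + (2 * b y i * (s * η y * w) + (s * η y * w) ^ 2) := by
      simp only [Pi.add_apply, add_sq, Finset.sum_add_distrib, Pi.single_apply, mul_ite, mul_zero,
        ite_pow, zero_pow two_ne_zero, Finset.sum_ite_eq', Finset.mem_univ, if_true]
      ring
    have ha2 : a y ^ 2 = 1 - ∑ l, b y l ^ 2 := Real.sq_sqrt (by linarith [hb.sq_le y])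
    rw [hsum]
    by_cases hy : η y = 0
    · simp only [r, hy]
      refine ⟨by simpa [a] using height_nonneg _, ?_⟩
      simp only [mul_zero, zero_div, zero_mul, sub_zero, add_zero, zero_pow two_ne_zero]
      linarith
    obtain ⟨h1, h2⟩ := perturb_small (B := b y i) (e := η y) (w := w) ha₀ (hha y hy)
      ((sq_le_one_iff_abs_le_one _).2 (hb.abs_le y i)) (hC y) hw hs1 hs2
    exact ⟨h1, by linarith⟩
  set f : (Fin (m + 1) → ℝ) → ℝ := fun x =>
    a (baseProj j x) - s * r (baseProj j x) * cosAxis j t x - K * s ^ 2 * η (baseProj j x) ^ 2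
  have hfm : Measurable f :=
    ((ham.comp continuous_baseProj.measurable).sub
      (((hrm.comp continuous_baseProj.measurable).const_mul s).mul contDiff_cosAxis.continuous.measurable)).sub
      (((hη.continuous.measurable.comp continuous_baseProj.measurable).pow_const 2).const_mul _)
  set Q : (Fin m → ℝ) → ℝ := fun y => 2 * (r y * (cos (π * baseLen E j y) * centreCos E j t y))
  have hQm : Measurable Q :=
    (hrm.mul (((measurable_baseLen hE).const_mul π).cos.mul (measurable_centreCos hE t))).const_mul 2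
  have hQb : ∀ y, |Q y| ≤ 2 * (C / a₀ * (1 * 1)) := fun y => by
    simp only [Q, abs_mul, abs_two]
    exact mul_le_mul_of_nonneg_left (mul_le_mul (hrb y)
      (mul_le_mul (abs_cos_le_one _) (centreCos_abs t y) (abs_nonneg _) zero_le_one) (by positivity)
      (by positivity)) zero_le_two
  set Mf : (Fin m → ℝ) → ℝ := fun y => 2 * a y - s * Q y - 2 * K * s ^ 2 * η y ^ 2
  have hMm : Measurable Mf :=
    ((ham.const_mul 2).sub (hQm.const_mul s)).sub ((hη.continuous.measurable.pow_const 2).const_mul _)
  have hη2 : ∀ y, η y ^ 2 ≤ C ^ 2 := fun y => sq_le_sq' (abs_le.1 (hC y)).1 (abs_le.1 (hC y)).2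
  have hMb : ∀ y, |U.indicator Mf y| ≤ 2 + |s| * (2 * (C / a₀ * (1 * 1))) + 2 * K * s ^ 2 * C ^ 2 :=
    fun y => by
      have h0 : 0 ≤ 2 + |s| * (2 * (C / a₀ * (1 * 1))) + 2 * K * s ^ 2 * C ^ 2 := by positivity
      by_cases hy : y ∈ U
      · simp only [Mf, indicator_of_mem hy]
        have h2 := mul_le_mul_of_nonneg_left (hQb y) (abs_nonneg s)
        rw [← abs_mul] at h2
        have h4 := abs_le.1 h2
        have h5 : 2 * K * s ^ 2 * η y ^ 2 ≤ 2 * K * s ^ 2 * C ^ 2 :=
          mul_le_mul_of_nonneg_left (hη2 y) (by positivity)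
        have h6 : 0 ≤ 2 * K * s ^ 2 * η y ^ 2 := by positivity
        have h7 : a y ∈ Icc (0 : ℝ) 1 := ⟨height_nonneg _, height_le_one _⟩
        exact abs_le.2 ⟨by linarith [h7.1], by linarith [h7.2]⟩
      · simp only [indicator_of_notMem hy, abs_zero]; exact h0
  have h1 := hu.limit_le j (contDiff_pertField (i := i) (s := s) (t := t) hb.contDiff hη)
    (periodic_pertField hb.periodic hηp) (f := f) hfm
    (fun x => (small _ _ (abs_cos_le_one _)).1) (fun x => (small _ _ (abs_cos_le_one _)).2)
    (hMm.indicator hU.measurableSet) hMb ?_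
  swap
  · filter_upwards [harcs, hu.lines hp j] with y hy hL ε hε
    by_cases hyU : y ∈ U
    swap
    · rw [indicator_of_notMem hyU]
      exact .of_forall fun l => by
        have h0 : 0 ≤ lineVar j f (u l) y :=
          integral_nonneg fun z => mul_nonneg (small _ _ (abs_cos_le_one _)).1 (abs_nonneg _)
        linarith
    rw [indicator_of_mem hyU]
    obtain ⟨mc, hmc⟩ := hy hyU
    obtain ⟨-, eG⟩ := hmc.centreCos_eq hL.per' t
    set g : ℝ → ℝ := fun z => a y - s * r y * cos (2 * π * (z - t)) - K * s ^ 2 * η y ^ 2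
    have hg := hL.weight hmc.1 hmc.2 (f := g) (by fun_prop) (fun z => by
      simp only [g, show 2 * π * (z + 1 - t) = 2 * π * (z - t) + 2 * π by ring, cos_add_two_pi])
      (fun z => (small y _ (abs_cos_le_one _)).1) hε
    have e : ∀ l, lineVar j f (u l) y
        = ∫ z in Ioc (-(1 / 2) : ℝ) (1 / 2), g z * |deriv (fun z => u l (splice j z y)) z| := fun l => by
      simp only [lineVar, f, g, cosAxis, baseProj_splice, splice_same, period]
    filter_upwards [hg] with l hl
    rw [e]
    refine le_trans (le_of_eq ?_) hl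
    simp only [Mf, g, Q, eG]
    linear_combination (s * r y) * cos_ends mc (baseLen E j y) t
  rw [integral_div_pertField hE hb hη hdb, setIntegral_indicator hU.measurableSet,
    inter_eq_right.2 hUc] at h1
  have : IsFiniteMeasure (volume.restrict U) :=
    isFiniteMeasure_restrict.2 (measure_ne_top_of_subset hUc cube_finite)
  have iA : Integrable (fun y => 2 * a y) (volume.restrict U) :=
    (Integrable.of_bound ham.aestronglyMeasurable 1 (.of_forall fun y => by
      rw [Real.norm_eq_abs, abs_of_nonneg (height_nonneg _)]; exact height_le_one _)).const_mul 2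
  have iQ : Integrable (fun y => s * Q y) (volume.restrict U) :=
    (Integrable.of_bound hQm.aestronglyMeasurable _ (.of_forall hQb)).const_mul s
  have iE0 : Integrable (fun y => η y ^ 2) (volume.restrict U) :=
    Integrable.of_bound (hη.continuous.measurable.pow_const 2).aestronglyMeasurable (C ^ 2)
      (.of_forall fun y => by rw [norm_pow, Real.norm_eq_abs, sq_abs]; exact hη2 y)
  simp only [Mf] at h1
  have iAQ : Integrable (fun y => 2 * a y - s * Q y) (volume.restrict U) := iA.sub iQ
  rw [integral_sub iAQ (iE0.const_mul _), integral_sub iA iQ] at h1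
  have hU1 : ∫ y in U, η y ^ 2 ≤ C ^ 2 := by
    calc ∫ y in U, η y ^ 2 ≤ ∫ _ in U, C ^ 2 := integral_mono iE0 (integrable_const _) hη2
      _ ≤ C ^ 2 := by
        rw [setIntegral_const, smul_eq_mul]
        refine mul_le_of_le_one_left (sq_nonneg C) ?_
        rw [measureReal_def]
        exact ENNReal.toReal_le_of_le_ofReal zero_le_one (by
          rw [ENNReal.ofReal_one, ← volume_cube (n := m)]; exact measure_mono hUc)
  simp only [Q, r, a, integral_const_mul] at h1 ⊢
  nlinarith [mul_le_mul_of_nonneg_left hU1 (mul_nonneg hK.le (sq_nonneg s))]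

end

end Vale.Agent.P232
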