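import Vale.Agent.P232.Full.Planar
import Vale.Agent.P232.Full.Min.Perturb
import Mathlib.Analysis.Distribution.AEEqOfIntegralContDiff

/-!
# P232: a planar slice of least length is a disc

For a boxed symmetric decreasing set of area `π r²` and length at most `2 π r` the extent is `r`, and the
calibration `x / r` of its lines is sharp; its first variation shows that the lines are chords of the disc.
-/

namespace Vale.Agent.P232

open MeasureTheory Set Function Filter Topology Real
open scoped ContDiff

noncomputable section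

variable {E : Set (Fin 2 → ℝ)} {c r : ℝ}

theorem integral_semicircle (hr : 0 < r) : ∫ x in (-r)..r, √(1 - (x / r) ^ 2) = π * r / 2 := by
  rw [intervalIntegral.integral_comp_div (fun x => √(1 - x ^ 2)) hr.ne', div_self hr.ne', neg_div,
    div_self hr.ne', smul_eq_mul, show ∫ x in (-1 : ℝ)..1, √(1 - x ^ 2) = π / 2 from
      integral_sqrt_one_sub_sq]
  ring

/-- The chords have the area of the disc. -/
theorem integral_chord (hr : 0 < r) : ∫ x in (-r)..r, 2 * √(r ^ 2 - x ^ 2) = π * r ^ 2 := by
  have e : ∀ x : ℝ, √(r ^ 2 - x ^ 2) = r * √(1 - (x / r) ^ 2) := fun x => by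
    rw [show r ^ 2 - x ^ 2 = r ^ 2 * (1 - (x / r) ^ 2) by field_simp, Real.sqrt_mul (sq_nonneg r),
      Real.sqrt_sq hr.le]
  simp only [e]
  rw [intervalIntegral.integral_const_mul, intervalIntegral.integral_const_mul, integral_semicircle hr]
  ring

/-- A bounded function orthogonal to all derivatives of cut-offs is constant. -/
theorem ae_const_of_deriv {u : ℝ → ℝ} (hum : Measurable u) {B : ℝ} (hB : ∀ x, |u x| ≤ B) (hr : 0 < r)
    (h : ∀ φ : ℝ → ℝ, ContDiff ℝ 1 φ → (∃ σ < r, ∀ x, σ < |x| → φ x = 0) →
      ∫ x, deriv φ x * u x = 0) :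
    ∃ k, ∀ᵐ x, x ∈ Ioo (-r) r → u x = k := by
  set bump : ℝ → ℝ := fun x => max 0 (r / 2 - |x|)
  have hbumpc : Continuous bump := by fun_prop
  have hbump0 : ∀ x, r / 2 ≤ |x| → bump x = 0 := fun x hx => max_eq_left (by linarith)
  have hbumps : HasCompactSupport bump := HasCompactSupport.intro (isCompact_Icc (a := -(r / 2)) (b := r / 2))
    fun x hx => hbump0 x (by_contra fun hc => hx (abs_le.1 (not_le.1 hc).le))
  have hbumpI : Integrable bump := hbumpc.integrable_of_hasCompactSupport hbumps
  set w := ∫ x, bump x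
  have hw : 0 < w := by
    refine (integral_pos_iff_support_of_nonneg (fun x => le_max_left _ _) hbumpI).2 ?_
    refine (hbumpc.isOpen_support).measure_pos volume ⟨0, ?_⟩
    simp [bump, hr]
  set k := (∫ x, bump x * u x) / w
  refine ⟨k, ?_⟩
  have hui : LocallyIntegrable (fun x => u x - k) volume := fun x => by
    refine ⟨Metric.ball x 1, Metric.ball_mem_nhds x one_pos, ?_⟩
    have : IsFiniteMeasure (volume.restrict (Metric.ball x 1)) :=
      isFiniteMeasure_restrict.2 measure_ball_lt_top.ne
    exact Integrable.of_bound (hum.sub_const k).aestronglyMeasurable (B + |k|)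
      (.of_forall fun y => (abs_sub _ _).trans (add_le_add (hB y) le_rfl))
  refine ((isOpen_Ioo (a := -r) (b := r)).ae_eq_zero_of_integral_contDiff_smul_eq_zero
    (hui.locallyIntegrableOn _) fun ψ hψ hψc hψU => ?_).mono fun x hx hxU => sub_eq_zero.1 (hx hxU)
  obtain ⟨σ, hσ, hψ0⟩ : ∃ σ ∈ Ico (r / 2) r, ∀ x, σ < |x| → ψ x = 0 := by
    rcases (tsupport ψ).eq_empty_or_nonempty with he | hne
    · exact ⟨r / 2, ⟨le_rfl, by linarith⟩, fun x _ => image_eq_zero_of_notMem_tsupport (by simp [he])⟩
    · obtain ⟨y, hy, hmax⟩ := hψc.exists_isMaxOn hne continuous_abs.continuousOn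
      refine ⟨max (r / 2) |y|, ⟨le_max_left _ _, max_lt (by linarith) (abs_lt.2 (hψU hy))⟩, fun x hx => ?_⟩
      refine image_eq_zero_of_notMem_tsupport fun hxs => ?_
      exact absurd ((hmax hxs).trans (le_max_right (r / 2) |y|)) (not_le.2 hx)
  have hψi : Integrable ψ := hψ.continuous.integrable_of_hasCompactSupport hψc
  set cψ := (∫ x, ψ x) / w
  set f : ℝ → ℝ := fun x => ψ x - cψ * bump x
  have hfc : Continuous f := hψ.continuous.sub (hbumpc.const_mul cψ)
  have hf0 : ∀ x, σ < |x| → f x = 0 := fun x hx => by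
    simp only [f, hψ0 x hx, hbump0 x (hσ.1.trans hx.le), mul_zero, sub_zero]
  set φ : ℝ → ℝ := fun x => ∫ t in (-r)..x, f t
  have hφd : ∀ x, HasDerivAt φ (f x) x := fun x => (hfc.integral_hasStrictDerivAt (-r) x).hasDerivAt
  have hφ' : deriv φ = f := funext fun x => (hφd x).deriv
  have hfs : HasCompactSupport f := hψc.sub hbumps.mul_left
  have hfi : Integrable f := hfc.integrable_of_hasCompactSupport hfs
  have hf_int : ∫ x, f x = 0 := by
    simp only [f]
    rw [integral_sub hψi (hbumpI.const_mul _), integral_const_mul]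
    simp only [cψ]
    rw [div_mul_cancel₀ _ hw.ne', sub_self]
  have hr0 : 0 ≤ σ := le_trans (by linarith) hσ.1
  have hφ0 : ∀ x, σ < |x| → φ x = 0 := fun x hx => by
    rcases le_or_gt 0 x with h0 | h0
    · rw [abs_of_nonneg h0] at hx
      simp only [φ]
      rw [intervalIntegral.integral_eq_integral_of_support_subset, hf_int]
      intro t ht
      have : |t| ≤ σ := not_lt.1 fun hh => ht (hf0 t hh)
      have := abs_le.1 this
      exact ⟨by linarith [hσ.2], by linarith⟩
    · rw [abs_of_neg h0] at hx
      simp only [φ]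
      rw [intervalIntegral.integral_congr (g := fun _ => (0 : ℝ)) fun t ht => hf0 t ?_,
        intervalIntegral.integral_zero]
      rcases mem_uIcc.1 ht with ⟨-, h2⟩ | ⟨-, h2⟩ <;>
      · rw [abs_of_nonpos (by linarith [hσ.2])]
        linarith [hσ.2]
  have hφC : ContDiff ℝ 1 φ := contDiff_one_iff_deriv.2 ⟨fun x => (hφd x).differentiableAt, hφ' ▸ hfc⟩
  have hz := h φ hφC ⟨σ, hσ.2, hφ0⟩
  rw [hφ'] at hz
  have iψ : Integrable fun x => ψ x * u x := by
    refine hψi.mul_bdd hum.aestronglyMeasurable (c := B) (.of_forall fun x => ?_)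
    rw [Real.norm_eq_abs]; exact hB x
  have ibump : Integrable fun x => bump x * u x := by
    refine hbumpI.mul_bdd hum.aestronglyMeasurable (c := B) (.of_forall fun x => ?_)
    rw [Real.norm_eq_abs]; exact hB x
  simp only [f, sub_mul, mul_assoc] at hz
  rw [integral_sub iψ (ibump.const_mul cψ), integral_const_mul] at hz
  simp only [smul_eq_mul, mul_sub]
  rw [integral_sub iψ (hψi.mul_const k), integral_mul_const]
  have e : cψ * ∫ x, bump x * u x = (∫ x, ψ x) * k := by simp only [cψ, k]; ring
  linarith

/-- Extent and first variation of a slice of least length. -/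
theorem lineLen_disc (h : PlanarSet E c) (h0 : ∀ k, trace E k = 0) (hr : 0 < r) (hr' : r < 1 / 2)
    (hA : area E = π * r ^ 2) (hc : c ≤ 2 * π * r) :
    ∀ᵐ x ∂volume.restrict period, lineLen E 0 x = 2 * √(r ^ 2 - x ^ 2) := by
  have hend : EndLimit (lineLen E 0) 0 := h0 0 ▸ endLimit_trace h 0
  have hlt := lt_one_of_trace_zero h (k := 0) (l := 1) (by decide) (h0 1)
  obtain ⟨X, hX, -, hin, hout, hb⟩ := h.exists_extent hend hlt (by rw [hA]; positivity)
  obtain rfl : X = r := by
    rw [hA] at hb
    have e : π * r ^ 2 / X * X = π * r ^ 2 := div_mul_cancel₀ _ hX.ne'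
    have h1 : π * (X - r) ^ 2 ≤ 0 := by
      nlinarith [mul_le_mul_of_nonneg_right (hb.trans hc) hX.le]
    have h2 : (X - r) ^ 2 = 0 := le_antisymm (nonpos_of_mul_nonpos_right (a := π) h1 pi_pos) (sq_nonneg _)
    nlinarith [sq_eq_zero_iff.1 h2]
  clear hb hr
  set l := lineLen E 0
  have hlm : Measurable l := measurable_lineLen h.meas 0
  have hlb : ∀ x, |l x| ≤ 1 := fun x => abs_le.2 ⟨by linarith [(lineLen_mem (E := E) (i := 0) x).1],
    (lineLen_mem x).2⟩
  set g : ℝ → ℝ := fun x => 2 * √(X ^ 2 - x ^ 2)
  have hgc : Continuous g := by fun_prop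
  have hgo : ∀ x, X ≤ |x| → g x = 0 := fun x hx => by
    simp only [g]
    rw [Real.sqrt_eq_zero_of_nonpos (by nlinarith [sq_abs x, hX]), mul_zero]
  have hsub : Ioo (-X) X ⊆ period := fun x hx => ⟨by linarith [hx.1], by linarith [hx.2]⟩
  -- the lines vanish beyond the extent
  have hlo : ∀ᵐ x ∂volume.restrict period, x ∉ Ioo (-X) X → l x = 0 := by
    filter_upwards [period_ae_interior, ae_restrict_of_ae (Measure.ae_ne volume X),
      ae_restrict_of_ae (Measure.ae_ne volume (-X))] with x hx h1 h2 hxn
    refine hout x (lt_of_not_ge fun hle => ?_) hx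
    obtain ⟨e1, e2⟩ := abs_le.1 hle
    exact hxn ⟨lt_of_le_of_ne e1 (Ne.symm h2), lt_of_le_of_ne e2 h1⟩
  -- first variation
  have hvar : ∀ φ : ℝ → ℝ, ContDiff ℝ 1 φ → (∃ σ < X, ∀ x, σ < |x| → φ x = 0) →
      ∫ x in period, deriv φ x * l x = ∫ x in (-X)..X, deriv φ x * g x := by
    rintro φ hφ ⟨σ', hσ', hφ0'⟩
    set σ := max σ' 0
    have hσ : σ < X := max_lt hσ' hX
    have hσ0 : 0 ≤ σ := le_max_right _ _
    have hφ0 : ∀ x, σ < |x| → φ x = 0 := fun x hx => hφ0' x ((le_max_left _ _).trans_lt hx)
    obtain ⟨C₀, hC₀⟩ := (isCompact_Icc (a := -X) (b := X)).exists_bound_of_continuousOn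
      hφ.continuous.continuousOn
    set C := max C₀ 0
    have hC0 : 0 ≤ C := le_max_right _ _
    have hC : ∀ x, |φ x| ≤ C := fun x => by
      rcases le_or_gt |x| X with hx | hx
      · exact ((Real.norm_eq_abs _).symm.le.trans (hC₀ x (abs_le.1 hx))).trans (le_max_left _ _)
      · rw [hφ0 x (hσ.trans hx), abs_zero]; exact hC0
    set a₀ := √(1 - (σ / X) ^ 2)
    have hσX : σ / X < 1 := (div_lt_one hX).2 hσ
    have hσX0 : 0 ≤ σ / X := div_nonneg hσ0 hX.le
    have ha₀ : 0 < a₀ := Real.sqrt_pos.2 (by nlinarith)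
    set K := quadConst a₀
    have hK : 0 < K := quadConst_pos ha₀
    set q : ℝ → ℝ := fun x => x / X * φ x / max (√(1 - (x / X) ^ 2)) a₀
    have hqc : Continuous q := by
      refine ((continuous_id.div_const X).mul hφ.continuous).div ?_ fun x => (lt_max_of_lt_right ha₀).ne'
      fun_prop
    set s₀ : ℝ := min ((1 - σ / X) / (C + 1)) (min (a₀ ^ 2 / 2 / (C + 1))
      (min 1 (a₀ / 2 / (K * (C + 1) ^ 2))))
    have hs₀ : 0 < s₀ := lt_min (div_pos (sub_pos.2 hσX) (by positivity))
      (lt_min (by positivity) (lt_min one_pos (by positivity)))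
    set D := ∫ x in period, deriv φ x * l x
    obtain ⟨C', hC'⟩ := (isCompact_Icc (a := -(1 / 2 : ℝ)) (b := 1 / 2)).exists_bound_of_continuousOn
      (hφ.continuous_deriv le_rfl).continuousOn
    have iD : IntegrableOn (fun x => deriv φ x * l x) period := by
      refine Integrable.of_bound ((hφ.continuous_deriv le_rfl).measurable.mul hlm).aestronglyMeasurable
        (C' * 1) ?_
      filter_upwards [ae_restrict_mem period_measurable] with x hx
      rw [norm_mul]
      exact mul_le_mul (hC' x ⟨hx.1.le, hx.2⟩) (hlb x) (norm_nonneg _)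
        ((norm_nonneg _).trans (hC' x ⟨hx.1.le, hx.2⟩))
    have il : IntegrableOn l period := Integrable.of_bound hlm.aestronglyMeasurable 1 (.of_forall hlb)
    have hstep : ∀ s : ℝ, |s| ≤ s₀ → s * (D - 2 * ∫ x in (-X)..X, q x)
        ≤ s ^ 2 * (4 * X * K * C ^ 2) := by
      intro s hs
      obtain ⟨hs1, hs'⟩ := le_min_iff.1 hs
      obtain ⟨hs2, hs''⟩ := le_min_iff.1 hs'
      obtain ⟨hs3, hs4⟩ := le_min_iff.1 hs''
      rw [le_div_iff₀ (by positivity)] at hs1 hs2 hs4
      have hpert1 : |s| * C ≤ a₀ ^ 2 / 2 := by nlinarith [abs_nonneg s]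
      have hpert2 : K * s ^ 2 * C ^ 2 ≤ a₀ / 2 := by
        refine le_trans ?_ hs4
        rw [← sq_abs s, show |s| * (K * (C + 1) ^ 2) = K * |s| * (C + 1) ^ 2 by ring]
        refine mul_le_mul (mul_le_mul_of_nonneg_left ?_ hK.le) (by nlinarith) (sq_nonneg C) (by positivity)
        nlinarith [abs_nonneg s]
      -- slopes
      have hH : ∀ k, k ∈ Ioo 0 (1 / X) →
          2 * (∫ x in (-X)..X, √(1 - (k * x + s * φ x) ^ 2)) + (area E * k + s * D) ≤ c := by
        intro k hk
        have hR : X < 1 / k := by
          rw [lt_one_div hX hk.1]; exact hk.2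
        obtain ⟨β, hβ, hβ1, hβX⟩ := exists_slope hX.le hR
        have hβ' : ContDiff ℝ 1 fun x => β x + s * φ x := hβ.add (contDiff_const.mul hφ)
        have hb1 : ∀ x, |x| ≤ 1 / 2 → |β x + s * φ x| ≤ 1 := fun x _ => by
          rcases le_or_gt |x| σ with hx | hx
          · refine (abs_add_le _ _).trans ?_
            rw [(hβX x (hx.trans hσ.le)).1, abs_mul, abs_div, abs_of_pos (hX.trans hR)]
            have h1 : |x| / (1 / k) ≤ σ / X := div_le_div₀ hσ0 hx hX hR.le
            have h2 : |s| * |φ x| ≤ |s| * (C + 1) :=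
              mul_le_mul_of_nonneg_left (by linarith [hC x]) (abs_nonneg s)
            linarith
          · rw [hφ0 x hx, mul_zero, add_zero]; exact hβ1 x
        have hcal := h.calibration (i := 0) ⟨le_rfl, zero_le_one⟩ hend hβ' hb1
        have e2 : ∫ x in period, deriv (fun x => β x + s * φ x) x * (l x - 0) = area E * k + s * D := by
          have e : ∀ᵐ x ∂volume.restrict period, deriv (fun x => β x + s * φ x) x * (l x - 0)
              = k * l x + s * (deriv φ x * l x) := by
            filter_upwards [hlo] with x hx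
            rw [sub_zero, deriv_fun_add ((hβ.differentiable one_ne_zero) x)
              (((hφ.differentiable one_ne_zero) x).const_mul s),
              deriv_const_mul _ ((hφ.differentiable one_ne_zero) x)]
            by_cases hxX : x ∈ Ioo (-X) X
            · rw [(hβX x (abs_lt.2 hxX).le).2, one_div_one_div]; ring
            · rw [hx hxX]; ring
          rw [integral_congr_ae e, integral_add (il.const_mul k) (iD.const_mul s), integral_const_mul,
            integral_const_mul, integral_lineLen h.meas]
          ring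
        rw [e2] at hcal
        refine le_trans (add_le_add_left (mul_le_mul_of_nonneg_left ?_ zero_le_two) _) hcal
        rw [intervalIntegral.integral_of_le (by linarith), integral_Ioc_eq_integral_Ioo,
          ← inter_eq_right.2 hsub, ← setIntegral_indicator measurableSet_Ioo]
        refine integral_mono_ae
          ((integrableOn_period (by fun_prop)).indicator measurableSet_Ioo)
          ((integrableOn_period (continuous_const.sub (hβ'.continuous.pow 2)).sqrt).indicator
            (hlm measurableSet_Ioo)) ?_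
        filter_upwards [hlt] with x hx
        by_cases hxX : x ∈ Ioo (-X) X
        · have hxa : |x| < X := abs_lt.2 hxX
          rw [indicator_of_mem hxX, indicator_of_mem (show x ∈ partLines E 0 from ⟨hin x hxa, hx⟩),
            (hβX x hxa.le).1]
          refine le_of_eq ?_
          field_simp
        · rw [indicator_of_notMem hxX]
          exact indicator_nonneg (fun _ _ => Real.sqrt_nonneg _) _
      have hcont : Continuous fun k : ℝ =>
          2 * (∫ x in (-X)..X, √(1 - (k * x + s * φ x) ^ 2)) + (area E * k + s * D) := by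
        refine (continuous_const.mul (intervalIntegral.continuous_parametric_intervalIntegral_of_continuous'
          (f := fun k x => √(1 - (k * x + s * φ x) ^ 2)) ?_ _ _)).add (by fun_prop)
        exact (continuous_const.sub (((continuous_fst.mul continuous_snd).add
          (continuous_const.mul (hφ.continuous.comp continuous_snd))).pow 2)).sqrt
      have hlim : 2 * (∫ x in (-X)..X, √(1 - (1 / X * x + s * φ x) ^ 2)) + (area E * (1 / X) + s * D) ≤ c :=
        le_of_tendsto ((hcont.tendsto (1 / X)).mono_left nhdsWithin_le_nhds)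
          (Filter.eventually_of_mem (Ioo_mem_nhdsLT (show (0 : ℝ) < 1 / X by positivity)) hH)
      have hpt : ∀ x ∈ Icc (-X) X, √(1 - (x / X) ^ 2) - s * q x - K * s ^ 2 * C ^ 2
          ≤ √(1 - (1 / X * x + s * φ x) ^ 2) := by
        intro x hx
        have hB : |x / X| ≤ 1 := by
          rw [abs_div, abs_of_pos hX, div_le_one hX]; exact abs_le.2 hx
        have h1B : 0 ≤ 1 - (x / X) ^ 2 := sub_nonneg.2 ((sq_le_one_iff_abs_le_one _).2 hB)
        rw [one_div_mul_eq_div]
        rcases le_or_gt |x| σ with hxσ | hxσ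
        swap
        · simp only [q, hφ0 x hxσ, mul_zero, zero_div, add_zero, sub_zero]
          exact sub_le_self _ (by positivity)
        have hA' : a₀ ≤ √(1 - (x / X) ^ 2) := by
          refine Real.sqrt_le_sqrt (sub_le_sub_left ?_ 1)
          rw [div_pow, div_pow]
          exact div_le_div_of_nonneg_right (sq_le_sq.2 (by rwa [abs_of_nonneg hσ0])) (sq_nonneg X)
        obtain ⟨p1, p2⟩ := perturb_small (A := √(1 - (x / X) ^ 2)) (B := x / X) (e := φ x) (s := s) (w := 1)
          ha₀ hA' ((sq_le_one_iff_abs_le_one _).2 hB) (hC x) (by norm_num) hpert1 hpert2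
        rw [Real.sq_sqrt h1B] at p2
        have h3 : K * s ^ 2 * φ x ^ 2 ≤ K * s ^ 2 * C ^ 2 :=
          mul_le_mul_of_nonneg_left (sq_le_sq' (abs_le.1 (hC x)).1 (abs_le.1 (hC x)).2) (by positivity)
        have h4 : √(1 - (x / X) ^ 2) - s * (x / X * φ x / √(1 - (x / X) ^ 2)) * 1 - K * s ^ 2 * φ x ^ 2
            ≤ √(1 - (x / X + s * φ x) ^ 2) := by
          refine Real.le_sqrt_of_sq_le ?_
          linear_combination p2
        simp only [q, max_eq_left hA']
        linarith
      have hiT : IntervalIntegrable (fun x => √(1 - (x / X) ^ 2)) volume (-X) X :=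
        (by fun_prop : Continuous fun x => √(1 - (x / X) ^ 2)).intervalIntegrable _ _
      have hiq : IntervalIntegrable (fun x => s * q x) volume (-X) X :=
        (hqc.const_mul s).intervalIntegrable _ _
      have hmono := intervalIntegral.integral_mono_on (by linarith) ((hiT.sub hiq).sub intervalIntegrable_const)
        ((by fun_prop : Continuous fun x => √(1 - (1 / X * x + s * φ x) ^ 2)).intervalIntegrable _ _) hpt
      rw [intervalIntegral.integral_sub (hiT.sub hiq) intervalIntegrable_const,
        intervalIntegral.integral_sub hiT hiq, intervalIntegral.integral_const_mul,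
        intervalIntegral.integral_const, integral_semicircle hX, smul_eq_mul] at hmono
      have hAk : area E * (1 / X) = π * X := by rw [hA]; field_simp
      linarith
    have hkey := eq_zero_of_le_sq hs₀ (by positivity) hstep
    -- integration by parts
    have idg : IntervalIntegrable (fun x => deriv φ x * g x) volume (-X) X :=
      ((hφ.continuous_deriv le_rfl).mul hgc).intervalIntegrable _ _
    have iq2 : IntervalIntegrable (fun x => 2 * q x) volume (-X) X :=
      (hqc.const_mul 2).intervalIntegrable _ _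
    have hparts : ∫ x in (-X)..X, (deriv φ x * g x - 2 * q x) = 0 := by
      rw [intervalIntegral.integral_eq_sub_of_hasDerivAt_of_le (by linarith)
        (f := fun x => φ x * g x) (hφ.continuous.mul hgc).continuousOn (fun x hx => ?_)
        (idg.sub iq2)]
      · have e1 : φ X = 0 := hφ0 X (by rwa [abs_of_pos hX])
        have e2 : φ (-X) = 0 := hφ0 (-X) (by rwa [abs_neg, abs_of_pos hX])
        simp [e1, e2]
      · have hpos : 0 < X ^ 2 - x ^ 2 := by nlinarith [hx.1, hx.2]
        have hg : HasDerivAt g (2 * (-(2 * x) / (2 * √(X ^ 2 - x ^ 2)))) x := by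
          have h1 : HasDerivAt (fun x : ℝ => X ^ 2 - x ^ 2) (-(2 * x)) x := by
            simpa using (hasDerivAt_pow 2 x).const_sub (X ^ 2)
          exact (h1.sqrt hpos.ne').const_mul 2
        refine (((hφ.differentiable one_ne_zero) x).hasDerivAt.mul hg).congr_deriv ?_
        rcases le_or_gt |x| σ with hxσ | hxσ
        · have hT : a₀ ≤ √(1 - (x / X) ^ 2) := by
            refine Real.sqrt_le_sqrt (sub_le_sub_left ?_ 1)
            rw [div_pow, div_pow]
            exact div_le_div_of_nonneg_right (sq_le_sq.2 (by rwa [abs_of_nonneg hσ0])) (sq_nonneg X)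
          have e : √(1 - (x / X) ^ 2) = √(X ^ 2 - x ^ 2) / X := by
            rw [div_pow, one_sub_div (by positivity), Real.sqrt_div' _ (sq_nonneg X), Real.sqrt_sq hX.le]
          have hne : √(X ^ 2 - x ^ 2) ≠ 0 := (Real.sqrt_pos.2 hpos).ne'
          simp only [q]
          rw [max_eq_left hT, e]
          field_simp
          ring
        · simp [q, hφ0 x hxσ]
    rw [intervalIntegral.integral_sub idg iq2, intervalIntegral.integral_const_mul] at hparts
    linarith
  -- the difference to the chords
  set u : ℝ → ℝ := (Ioo (-X) X).indicator fun x => l x - g x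
  have hum : Measurable u := (hlm.sub hgc.measurable).indicator measurableSet_Ioo
  have hgb : ∀ x, |g x| ≤ 2 * X := fun x => by
    simp only [g]
    rw [abs_of_nonneg (by positivity)]
    exact mul_le_mul_of_nonneg_left ((Real.sqrt_le_sqrt (sub_le_self _ (sq_nonneg x))).trans_eq
      (Real.sqrt_sq hX.le)) zero_le_two
  have hub : ∀ x, |u x| ≤ 1 + 2 * X := fun x => by
    by_cases hx : x ∈ Ioo (-X) X
    · simp only [u, indicator_of_mem hx]
      exact (abs_sub _ _).trans (add_le_add (hlb x) (hgb x))
    · simp only [u, indicator_of_notMem hx, abs_zero]; positivity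
  have horth : ∀ φ : ℝ → ℝ, ContDiff ℝ 1 φ → (∃ σ < X, ∀ x, σ < |x| → φ x = 0) →
      ∫ x, deriv φ x * u x = 0 := by
    intro φ hφ hσ
    have hd := (hφ.continuous_deriv le_rfl)
    have e1 : ∫ x in period, deriv φ x * l x = ∫ x in Ioo (-X) X, deriv φ x * l x := by
      refine setIntegral_eq_of_subset_of_ae_sdiff_eq_zero period_measurable.nullMeasurableSet hsub ?_
      filter_upwards [(ae_restrict_iff' period_measurable).1 hlo] with x hx hxd
      rw [hx hxd.1 hxd.2, mul_zero]
    have e2 : (fun x => deriv φ x * u x) = (Ioo (-X) X).indicator fun x => deriv φ x * (l x - g x) :=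
      funext fun x => by by_cases hx : x ∈ Ioo (-X) X <;> simp [u, hx]
    have hfin : IsFiniteMeasure (volume.restrict (Ioo (-X) X)) :=
      isFiniteMeasure_restrict.2 measure_Ioo_lt_top.ne
    obtain ⟨N, hN⟩ := (isCompact_Icc (a := -X) (b := X)).exists_bound_of_continuousOn hd.continuousOn
    have i1 : IntegrableOn (fun x => deriv φ x * l x) (Ioo (-X) X) := by
      refine Integrable.of_bound (hd.measurable.mul hlm).aestronglyMeasurable (N * 1) ?_
      filter_upwards [ae_restrict_mem measurableSet_Ioo] with x hx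
      rw [norm_mul]
      exact mul_le_mul (hN x ⟨hx.1.le, hx.2.le⟩) (hlb x) (norm_nonneg _)
        ((norm_nonneg _).trans (hN x ⟨hx.1.le, hx.2.le⟩))
    have i2 : IntegrableOn (fun x => deriv φ x * g x) (Ioo (-X) X) :=
      (hd.mul hgc).continuousOn.integrableOn_Icc.mono_set Ioo_subset_Icc_self
    rw [e2, integral_indicator measurableSet_Ioo]
    simp only [mul_sub]
    rw [integral_sub i1 i2, ← e1, hvar φ hφ hσ, intervalIntegral.integral_of_le (by linarith),
      integral_Ioc_eq_integral_Ioo, sub_self]
  obtain ⟨k, hk⟩ := ae_const_of_deriv hum hub hX horth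
  have hk0 : k = 0 := by
    have e1 : ∫ x in period, (l x - g x) = ∫ x in period, (Ioo (-X) X).indicator (fun _ => k) x := by
      refine integral_congr_ae ?_
      filter_upwards [hlo, ae_restrict_of_ae hk] with x h1 h2
      by_cases hx : x ∈ Ioo (-X) X
      · have := h2 hx
        simp only [u, indicator_of_mem hx] at this
        rw [indicator_of_mem hx, this]
      · rw [indicator_of_notMem hx, h1 hx, hgo x ?_, sub_zero]
        exact not_lt.1 fun hlt' => hx (abs_lt.1 hlt')
    have e2 : ∫ x in period, g x = π * X ^ 2 := by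
      rw [← integral_chord hX, intervalIntegral.integral_of_le (by linarith), integral_Ioc_eq_integral_Ioo]
      refine setIntegral_eq_of_subset_of_forall_sdiff_eq_zero period_measurable hsub fun x hx => ?_
      exact hgo x (not_lt.1 fun hlt' => hx.2 (abs_lt.1 hlt'))
    rw [integral_sub (Integrable.of_bound hlm.aestronglyMeasurable 1 (.of_forall hlb))
      (integrableOn_period hgc), integral_lineLen h.meas, hA, e2, sub_self,
      setIntegral_indicator measurableSet_Ioo, inter_eq_right.2 hsub, setIntegral_const, smul_eq_mul,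
      Real.volume_real_Ioo_of_le (by linarith), eq_comm, mul_eq_zero] at e1
    exact e1.resolve_left (by linarith)
  filter_upwards [hlo, ae_restrict_of_ae hk] with x h1 h2
  by_cases hx : x ∈ Ioo (-X) X
  · have := h2 hx
    simp only [u, indicator_of_mem hx, hk0] at this
    exact sub_eq_zero.1 this
  · rw [h1 hx]
    exact (hgo x (not_lt.1 fun hlt' => hx (abs_lt.1 hlt'))).symm

end

end Vale.Agent.P232
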