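import Mathlib

/-!
# P232: lines of asymptotically least variation

Smooth periodic functions `v k` converge almost everywhere to the indicator `χ` of a periodic set of the
line which is neither null nor full. Their variation over a period is eventually at least `2 - ε`; if it
is often at most `2 + ε`, then `χ` is an arc, and with a continuous weight `f ≥ 0` the variation is at
least the sum of the weights of the two ends of the arc.
-/

namespace Vale.Agent.P232

open MeasureTheory Set Function Filter Topology Real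

noncomputable section

/-- Almost everywhere on one period gives almost everywhere. -/
theorem ae_of_period {P : ℝ → Prop} (hP : ∀ z, P (z + 1) ↔ P z)
    (h : ∀ᵐ z ∂volume.restrict (Ioc (-(1 / 2) : ℝ) (1 / 2)), P z) : ∀ᵐ z, P z := by
  have hint : ∀ (n : ℤ) (z : ℝ), P (z + n) ↔ P z := fun n => by
    induction n using Int.induction_on with
    | zero => simp
    | succ k ih => intro z; push_cast; rw [← add_assoc, hP]; exact ih z
    | pred k ih =>
      intro z
      push_cast
      rw [← hP (z + (-(k : ℝ) - 1)), show z + (-(k : ℝ) - 1) + 1 = z + -(k : ℝ) by ring]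
      simpa using ih z
  have h' : ∀ᵐ z : ℝ, z ∈ Ioc (-(1 / 2) : ℝ) (1 / 2) → P z := (ae_restrict_iff' measurableSet_Ioc).1 h
  have hall : ∀ᵐ z : ℝ, ∀ n : ℤ, z + n ∈ Ioc (-(1 / 2) : ℝ) (1 / 2) → P (z + n) :=
    ae_all_iff.2 fun n =>
      (measurePreserving_add_right volume (n : ℝ)).quasiMeasurePreserving.ae h'
  filter_upwards [hall] with z hz
  obtain ⟨n, hn, -⟩ := existsUnique_add_zsmul_mem_Ioc one_pos z (-(1 / 2) : ℝ)
  simp only [zsmul_one] at hn
  exact (hint n z).1 (hz n ⟨hn.1, by linarith [hn.2]⟩)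

/-- A point of a set of full measure in a nonempty open interval. -/
theorem exists_good {P : ℝ → Prop} (hP : ∀ᵐ z, P z) {a b : ℝ} (hab : a < b) :
    ∃ z ∈ Ioo a b, P z := by
  by_contra h
  push Not at h
  have h0 : volume (Ioo a b) = 0 := measure_mono_null (fun z hz => h z hz) (ae_iff.1 hP)
  rw [Real.volume_Ioo, ENNReal.ofReal_eq_zero] at h0
  linarith

/-- The arcs with centre `m` and length `l`, repeated with period one. -/
def arc (m l : ℝ) : Set ℝ := {z | cos (π * l) < cos (2 * π * (z - m))}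

theorem arc_iff {m l z : ℝ} (hl : l ∈ Icc (0 : ℝ) 1) (hz : |z - m| ≤ 1 / 2) :
    z ∈ arc m l ↔ 2 * |z - m| < l := by
  show cos (π * l) < cos (2 * π * (z - m)) ↔ _
  rw [← cos_abs (2 * π * (z - m)), abs_mul, abs_of_pos two_pi_pos]
  constructor
  · intro h
    by_contra h'
    refine h.not_ge (cos_le_cos_of_nonneg_of_le_pi (by nlinarith [pi_pos, hl.1]) ?_ ?_) <;>
      nlinarith [pi_pos, not_lt.1 h']
  · intro h
    exact cos_lt_cos_of_nonneg_of_le_pi (by positivity) (by nlinarith [pi_pos, hl.2])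
      (by nlinarith [pi_pos])

/-- Smooth periodic approximations of the indicator of a periodic set of the line. -/
structure LineApprox (v : ℕ → ℝ → ℝ) (χ : ℝ → ℝ) : Prop where
  smooth : ∀ k, ContDiff ℝ 1 (v k)
  per : ∀ k, Function.Periodic (v k) 1
  per' : Function.Periodic χ 1
  val : ∀ z, χ z = 0 ∨ χ z = 1
  lim : ∀ᵐ z ∂volume.restrict (Ioc (-(1 / 2) : ℝ) (1 / 2)), Tendsto (fun k => v k z) atTop (𝓝 (χ z))

variable {v : ℕ → ℝ → ℝ} {χ : ℝ → ℝ}

theorem LineApprox.ae_lim (h : LineApprox v χ) : ∀ᵐ z, Tendsto (fun k => v k z) atTop (𝓝 (χ z)) :=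
  ae_of_period (fun z => by simp only [h.per' z, fun k => h.per k z]) h.lim

theorem variation_ge {g : ℝ → ℝ} (hg : ContDiff ℝ 1 g) {a b : ℝ} (hab : a ≤ b) :
    |g b - g a| ≤ ∫ z in a..b, |deriv g z| := by
  rw [← intervalIntegral.integral_deriv_eq_sub (fun x _ => (hg.differentiable one_ne_zero) x)
    ((hg.continuous_deriv le_rfl).intervalIntegrable _ _)]
  exact intervalIntegral.abs_integral_le_integral_abs hab

theorem deriv_periodic {g : ℝ → ℝ} (hp : Function.Periodic g 1) :
    Function.Periodic (deriv g) 1 := fun z => by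
  rw [← deriv_comp_add_const g 1 z]
  exact congrArg (fun f => deriv f z) (funext hp)

theorem integral_one_period {F : ℝ → ℝ} (hp : Function.Periodic F 1) (a : ℝ) :
    ∫ z in Ioc (-(1 / 2) : ℝ) (1 / 2), F z = ∫ z in a..(a + 1), F z := by
  rw [← intervalIntegral.integral_of_le (by norm_num), ← hp.intervalIntegral_add_eq (-(1 / 2)) a]
  norm_num

/-- An alternation of four points gives variation four. -/
theorem LineApprox.four (h : LineApprox v χ) {a b c d : ℝ} (hab : a ≤ b) (hbc : b ≤ c)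
    (hcd : c ≤ d) (hda : d ≤ a + 1) (ta : Tendsto (fun k => v k a) atTop (𝓝 0))
    (tb : Tendsto (fun k => v k b) atTop (𝓝 1)) (tc : Tendsto (fun k => v k c) atTop (𝓝 0))
    (td : Tendsto (fun k => v k d) atTop (𝓝 1)) {ε : ℝ} (hε : 0 < ε) :
    ∀ᶠ k in atTop, 4 - ε ≤ ∫ z in Ioc (-(1 / 2) : ℝ) (1 / 2), |deriv (v k) z| := by
  have hlim : Tendsto (fun k => |v k b - v k a| + |v k c - v k b| + |v k d - v k c|
      + |v k a - v k d|) atTop (𝓝 4) := by
    have := ((((tb.sub ta).abs).add ((tc.sub tb).abs)).add ((td.sub tc).abs)).add ((ta.sub td).abs)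
    norm_num at this
    exact this
  filter_upwards [hlim.eventually (le_mem_nhds (show 4 - ε < 4 by linarith))] with k hk
  have hi : ∀ s t : ℝ, IntervalIntegrable (fun z => |deriv (v k) z|) volume s t := fun s t =>
    (((h.smooth k).continuous_deriv le_rfl).abs).intervalIntegrable _ _
  rw [integral_one_period (F := fun z => |deriv (v k) z|) (fun z => congrArg abs (deriv_periodic (h.per k) z)) a,
    ← intervalIntegral.integral_add_adjacent_intervals (hi a b) (hi b (a + 1)),
    ← intervalIntegral.integral_add_adjacent_intervals (hi b c) (hi c (a + 1)),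
    ← intervalIntegral.integral_add_adjacent_intervals (hi c d) (hi d (a + 1))]
  have h4 := variation_ge (h.smooth k) hda
  rw [h.per k a] at h4
  linarith [variation_ge (h.smooth k) hab, variation_ge (h.smooth k) hbc,
    variation_ge (h.smooth k) hcd]

/-- Points where the values are `0` and `1` give variation two. -/
theorem LineApprox.two (h : LineApprox v χ) (h0 : ¬∀ᵐ z, χ z = 1) (h1 : ¬∀ᵐ z, χ z = 0) {ε : ℝ}
    (hε : 0 < ε) :
    ∀ᶠ k in atTop, 2 - ε ≤ ∫ z in Ioc (-(1 / 2) : ℝ) (1 / 2), |deriv (v k) z| := by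
  obtain ⟨a, ha, hat⟩ := ((not_eventually.1 h0).and_eventually h.ae_lim).exists
  obtain ⟨b', hb, hbt⟩ := ((not_eventually.1 h1).and_eventually h.ae_lim).exists
  obtain ⟨n, hn, -⟩ := existsUnique_add_zsmul_mem_Ioc one_pos b' a
  simp only [zsmul_one] at hn
  set b := b' + (n : ℝ) with hbdef
  have hzero : χ a = 0 := (h.val a).resolve_right ha
  have hone : χ b' = 1 := (h.val b').resolve_left hb
  rw [hzero] at hat
  rw [hone] at hbt
  have hb2 : Tendsto (fun k => v k b) atTop (𝓝 1) := by
    have e : ∀ k, v k b = v k b' := fun k => by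
      simpa [hbdef] using ((h.per k).int_mul n) b'
    simpa only [e] using hbt
  have hlim : Tendsto (fun k => |v k b - v k a| + |v k a - v k b|) atTop (𝓝 2) := by
    have := ((hb2.sub hat).abs).add ((hat.sub hb2).abs)
    norm_num at this
    exact this
  filter_upwards [hlim.eventually (le_mem_nhds (show 2 - ε < 2 by linarith))] with k hk
  have hi : ∀ s t : ℝ, IntervalIntegrable (fun z => |deriv (v k) z|) volume s t := fun s t =>
    (((h.smooth k).continuous_deriv le_rfl).abs).intervalIntegrable _ _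
  rw [integral_one_period (F := fun z => |deriv (v k) z|) (fun z => congrArg abs (deriv_periodic (h.per k) z)) a,
    ← intervalIntegral.integral_add_adjacent_intervals (hi a b) (hi b (a + 1))]
  have h4 := variation_ge (h.smooth k) hn.2
  rw [h.per k a] at h4
  linarith [variation_ge (h.smooth k) hn.1.le]

/-- Asymptotically least variation: an arc. -/
theorem LineApprox.exists_arc (h : LineApprox v χ) {l : ℝ} (hl : l ∈ Ioo (0 : ℝ) 1)
    (hint : ∫ z in Ioc (-(1 / 2) : ℝ) (1 / 2), χ z = l)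
    (hfreq : ∃ᶠ k in atTop, ∫ z in Ioc (-(1 / 2) : ℝ) (1 / 2), |deriv (v k) z| ≤ 3) :
    ∃ m, ∀ᵐ z, χ z = (arc m l).indicator (fun _ => 1) z := by
  have hno : ∀ {a b c d : ℝ}, a ≤ b → b ≤ c → c ≤ d → d ≤ a + 1 →
      Tendsto (fun k => v k a) atTop (𝓝 0) → Tendsto (fun k => v k b) atTop (𝓝 1) →
      Tendsto (fun k => v k c) atTop (𝓝 0) → Tendsto (fun k => v k d) atTop (𝓝 1) → False := by
    intro a b c d hab hbc hcd hda ta tb tc td
    obtain ⟨k, hk1, hk2⟩ := (hfreq.and_eventually (h.four hab hbc hcd hda ta tb tc td one_half_pos)).exists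
    linarith
  have hn0 : ¬∀ᵐ z, χ z = 1 := fun hc => by
    rw [integral_congr_ae (ae_restrict_of_ae hc)] at hint
    simp [measureReal_def] at hint
    linarith [hl.2]
  obtain ⟨a, ha, hat⟩ := ((not_eventually.1 hn0).and_eventually h.ae_lim).exists
  rw [(h.val a).resolve_right ha] at hat
  set T := {z | χ z = 1 ∧ z ∈ Ioo a (a + 1) ∧ Tendsto (fun k => v k z) atTop (𝓝 (χ z))}
  have hTne : T.Nonempty := by
    by_contra hT
    have hz : ∀ᵐ z ∂volume.restrict (Ioc a (a + 1)), χ z = 0 := by
      filter_upwards [ae_restrict_mem measurableSet_Ioc, ae_restrict_of_ae h.ae_lim,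
        ae_restrict_of_ae (Measure.ae_ne volume (a + 1))] with z hz hzl hzn
      exact (h.val z).resolve_right fun h1 => hT ⟨z, h1, ⟨hz.1, lt_of_le_of_ne hz.2 hzn⟩, hzl⟩
    rw [integral_one_period h.per' a, intervalIntegral.integral_of_le (by linarith),
      integral_congr_ae hz] at hint
    simp at hint
    linarith [hl.1]
  have hbd : BddBelow T ∧ BddAbove T :=
    ⟨⟨a, fun z hz => hz.2.1.1.le⟩, ⟨a + 1, fun z hz => hz.2.1.2.le⟩⟩
  set p := sInf T
  set q := sSup T
  have hpq : p ≤ q := by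
    obtain ⟨z, hz⟩ := hTne
    exact (csInf_le hbd.1 hz).trans (le_csSup hbd.2 hz)
  have hp : a ≤ p := le_csInf hTne fun z hz => hz.2.1.1.le
  have hq : q ≤ a + 1 := csSup_le hTne fun z hz => hz.2.1.2.le
  have hval : ∀ᵐ z, z ∈ Ioo a (a + 1) → χ z = (Ioo p q).indicator (fun _ => 1) z := by
    filter_upwards [h.ae_lim, Measure.ae_ne volume p, Measure.ae_ne volume q] with z hzl hzp hzq hz
    rcases h.val z with h0 | h1
    · rw [h0, indicator_of_notMem fun hzm => ?_]
      obtain ⟨t₁, ht₁, h1z⟩ := exists_lt_of_csInf_lt hTne hzm.1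
      obtain ⟨t₂, ht₂, h2z⟩ := exists_lt_of_lt_csSup hTne hzm.2
      rw [h0] at hzl
      exact hno ht₁.2.1.1.le h1z.le h2z.le ht₂.2.1.2.le hat (ht₁.1 ▸ ht₁.2.2) hzl (ht₂.1 ▸ ht₂.2.2)
    · have hzT : z ∈ T := ⟨h1, hz, hzl⟩
      rw [h1, indicator_of_mem]
      exact ⟨lt_of_le_of_ne (csInf_le hbd.1 hzT) (Ne.symm hzp),
        lt_of_le_of_ne (le_csSup hbd.2 hzT) hzq⟩
  have hlen : q - p = l := by
    rw [← hint, integral_one_period h.per' a, intervalIntegral.integral_of_le (by linarith),
      integral_Ioc_eq_integral_Ioo,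
      setIntegral_congr_ae measurableSet_Ioo hval, setIntegral_indicator measurableSet_Ioo,
      inter_eq_right.2 (Ioo_subset_Ioo hp hq), setIntegral_const, smul_eq_mul, mul_one,
      Real.volume_real_Ioo_of_le hpq]
  refine ⟨(p + q) / 2, ae_of_period ?_ ?_⟩
  · intro z
    have e : z + 1 ∈ arc ((p + q) / 2) l ↔ z ∈ arc ((p + q) / 2) l := by
      show cos (π * l) < cos _ ↔ cos (π * l) < cos _
      rw [show 2 * π * (z + 1 - (p + q) / 2) = 2 * π * (z - (p + q) / 2) + 2 * π by ring, cos_add_two_pi]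
    rw [h.per' z]
    by_cases hz : z ∈ arc ((p + q) / 2) l
    · rw [indicator_of_mem hz, indicator_of_mem (e.2 hz)]
    · rw [indicator_of_notMem hz, indicator_of_notMem (fun hh => hz (e.1 hh))]
  · refine ae_restrict_of_ae ?_
    have hall : ∀ᵐ z : ℝ, ∀ n : ℤ, z + n ∈ Ioo a (a + 1) →
        χ (z + n) = (Ioo p q).indicator (fun _ => 1) (z + n) := ae_all_iff.2 fun n =>
      (measurePreserving_add_right volume (n : ℝ)).quasiMeasurePreserving.ae hval
    have hne : ∀ᵐ z : ℝ, ∀ n : ℤ, z + n ≠ a + 1 := ae_all_iff.2 fun n => by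
      filter_upwards [Measure.ae_ne volume (a + 1 - n)] with z hz hz'
      exact hz (by linarith)
    filter_upwards [hall, hne] with z hz hzn
    obtain ⟨n, hn, -⟩ := existsUnique_add_zsmul_mem_Ioc one_pos z a
    simp only [zsmul_one] at hn
    have hmem : z + n ∈ Ioo a (a + 1) := ⟨hn.1, lt_of_le_of_ne hn.2 (hzn n)⟩
    have e1 : χ (z + n) = χ z := by simpa using (h.per'.int_mul n) z
    have e2 : z ∈ arc ((p + q) / 2) l ↔ z + n ∈ arc ((p + q) / 2) l := by
      show cos (π * l) < cos _ ↔ cos (π * l) < cos _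
      rw [show 2 * π * (z + n - (p + q) / 2) = 2 * π * (z - (p + q) / 2) + n * (2 * π) by ring,
        cos_add_int_mul_two_pi]
    have e3 : z + n ∈ arc ((p + q) / 2) l ↔ z + n ∈ Ioo p q := by
      constructor
      · intro hm
        by_contra hout
        change cos (π * l) < cos (2 * π * (z + n - (p + q) / 2)) at hm
        rw [← cos_abs (2 * π * _), abs_mul, abs_of_pos two_pi_pos] at hm
        have habs : l / 2 ≤ |z + n - (p + q) / 2| := by
          rw [mem_Ioo, not_and_or, not_lt, not_lt] at hout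
          rcases hout with h' | h'
          · rw [abs_of_nonpos (by linarith)]; linarith
          · rw [abs_of_nonneg (by linarith)]; linarith
        have habs' : |z + n - (p + q) / 2| ≤ 1 - l / 2 :=
          abs_le.2 ⟨by linarith [hmem.1], by linarith [hmem.2]⟩
        rcases le_or_gt |z + n - (p + q) / 2| (1 / 2) with h' | h'
        · exact hm.not_ge (cos_le_cos_of_nonneg_of_le_pi (by nlinarith [pi_pos, hl.1])
            (by nlinarith [pi_pos]) (by nlinarith [pi_pos]))
        · rw [← cos_two_pi_sub (2 * π * _)] at hm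
          exact hm.not_ge (cos_le_cos_of_nonneg_of_le_pi (by nlinarith [pi_pos, hl.1])
            (by nlinarith [pi_pos]) (by nlinarith [pi_pos]))
      · intro hm
        have : |z + n - (p + q) / 2| < l / 2 := abs_lt.2 ⟨by linarith [hm.1], by linarith [hm.2]⟩
        exact (arc_iff ⟨hl.1.le, hl.2.le⟩ (by linarith [hl.2])).2 (by linarith)
    rw [← e1, hz n hmem]
    by_cases hm : z + n ∈ Ioo p q
    · rw [indicator_of_mem hm, indicator_of_mem (e2.2 (e3.2 hm))]
    · rw [indicator_of_notMem hm, indicator_of_notMem fun hh => hm (e3.1 (e2.1 hh))]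

/-- The weighted variation: at least the weights of the two ends. -/
theorem LineApprox.weight (h : LineApprox v χ) {m l : ℝ} (hl : l ∈ Ioo (0 : ℝ) 1)
    (harc : ∀ᵐ z, χ z = (arc m l).indicator (fun _ => 1) z) {f : ℝ → ℝ} (hf : Continuous f)
    (hfp : Function.Periodic f 1) (hf0 : ∀ z, 0 ≤ f z) {ε : ℝ} (hε : 0 < ε) :
    ∀ᶠ k in atTop, f (m - l / 2) + f (m + l / 2) - ε
      ≤ ∫ z in Ioc (-(1 / 2) : ℝ) (1 / 2), f z * |deriv (v k) z| := by
  set p := m - l / 2
  set q := m + l / 2
  obtain ⟨d₁, hd₁, hp'⟩ := Metric.continuous_iff.1 hf p (ε / 4) (by linarith)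
  obtain ⟨d₂, hd₂, hq'⟩ := Metric.continuous_iff.1 hf q (ε / 4) (by linarith)
  set d := min (min d₁ d₂) (min (l / 2) ((1 - l) / 2))
  have hd : 0 < d := lt_min (lt_min hd₁ hd₂) (lt_min (by linarith [hl.1]) (by linarith [hl.2]))
  have hdd : d ≤ d₁ ∧ d ≤ d₂ ∧ d ≤ l / 2 ∧ d ≤ (1 - l) / 2 := by
    simp [d]
  have good : ∀ {a b : ℝ}, a < b → ∀ {r : ℝ}, (∀ z ∈ Ioo a b, (arc m l).indicator (fun _ => (1 : ℝ)) z = r) →
      ∃ z ∈ Ioo a b, Tendsto (fun k => v k z) atTop (𝓝 r) := by
    intro a b hab r hr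
    obtain ⟨z, hz, h1, h2⟩ := exists_good (harc.and h.ae_lim) hab
    rw [h1, hr z hz] at h2
    exact ⟨z, hz, h2⟩
  have hin : ∀ z, |z - m| < l / 2 → (arc m l).indicator (fun _ => (1 : ℝ)) z = 1 := fun z hz =>
    indicator_of_mem ((arc_iff ⟨hl.1.le, hl.2.le⟩ (by linarith [hl.2])).2 (by linarith)) _
  have hout : ∀ z, l / 2 ≤ |z - m| → |z - m| ≤ 1 / 2 →
      (arc m l).indicator (fun _ => (1 : ℝ)) z = 0 := fun z hz hz' =>
    indicator_of_notMem (fun hh => by
      have := (arc_iff ⟨hl.1.le, hl.2.le⟩ hz').1 hh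
      linarith) _
  obtain ⟨a₁, ha₁, ta₁⟩ := good (show p - d < p by linarith) (r := 0) fun z hz => by
    refine hout z ?_ ?_ <;> rw [abs_of_nonpos (by simp only [p] at hz; linarith [hz.2, hl.1])] <;>
      simp only [p] at hz <;> linarith [hz.1, hz.2, hdd.2.2.2]
  obtain ⟨b₁, hb₁, tb₁⟩ := good (show p < p + d by linarith) (r := 1) fun z hz => hin z <| by
    simp only [p] at hz
    rw [abs_lt]; constructor <;> linarith [hz.1, hz.2, hdd.2.2.1]
  obtain ⟨a₂, ha₂, ta₂⟩ := good (show q - d < q by linarith) (r := 1) fun z hz => hin z <| by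
    simp only [q] at hz
    rw [abs_lt]; constructor <;> linarith [hz.1, hz.2, hdd.2.2.1]
  obtain ⟨b₂, hb₂, tb₂⟩ := good (show q < q + d by linarith) (r := 0) fun z hz => by
    refine hout z ?_ ?_ <;> rw [abs_of_nonneg (by simp only [q] at hz; linarith [hz.1, hl.1])] <;>
      simp only [q] at hz <;> linarith [hz.1, hz.2, hdd.2.2.2]
  have hbound : ∀ z, z ∈ Icc a₁ b₁ → f p - ε / 4 ≤ f z := fun z hz => by
    have := hp' z (by rw [Real.dist_eq, abs_lt]; constructor <;>
      linarith [hz.1, hz.2, ha₁.1, hb₁.2, hdd.1])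
    rw [Real.dist_eq] at this; linarith [(abs_lt.1 this).1]
  have hbound' : ∀ z, z ∈ Icc a₂ b₂ → f q - ε / 4 ≤ f z := fun z hz => by
    have := hq' z (by rw [Real.dist_eq, abs_lt]; constructor <;>
      linarith [hz.1, hz.2, ha₂.1, hb₂.2, hdd.2.1])
    rw [Real.dist_eq] at this; linarith [(abs_lt.1 this).1]
  have hlim : Tendsto (fun k => max (f p - ε / 4) 0 * |v k b₁ - v k a₁|
      + max (f q - ε / 4) 0 * |v k b₂ - v k a₂|) atTop
      (𝓝 (max (f p - ε / 4) 0 + max (f q - ε / 4) 0)) := by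
    have := (((tb₁.sub ta₁).abs).const_mul (max (f p - ε / 4) 0)).add
      (((tb₂.sub ta₂).abs).const_mul (max (f q - ε / 4) 0))
    norm_num at this
    exact this
  filter_upwards [hlim.eventually (le_mem_nhds (show max (f p - ε / 4) 0 + max (f q - ε / 4) 0 - ε / 4
    < max (f p - ε / 4) 0 + max (f q - ε / 4) 0 by linarith))] with k hk
  set F := fun z => f z * |deriv (v k) z|
  have hF : Continuous F := hf.mul ((h.smooth k).continuous_deriv le_rfl).abs
  have hFp : Function.Periodic F 1 := fun z => by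
    simp only [F, hfp z, deriv_periodic (h.per k) z]
  have hi : ∀ s t : ℝ, IntervalIntegrable F volume s t := fun s t => hF.intervalIntegrable _ _
  have hF0 : ∀ z, 0 ≤ F z := fun z => mul_nonneg (hf0 z) (abs_nonneg _)
  have piece : ∀ {s t r : ℝ}, s ≤ t → (∀ z ∈ Icc s t, r ≤ f z) →
      max r 0 * |v k t - v k s| ≤ ∫ z in s..t, F z := by
    intro s t r hst hr
    refine (mul_le_mul_of_nonneg_left (variation_ge (h.smooth k) hst) (le_max_right _ _)).trans ?_
    rw [← intervalIntegral.integral_const_mul]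
    exact intervalIntegral.integral_mono_on hst
      ((continuous_const.mul ((h.smooth k).continuous_deriv le_rfl).abs).intervalIntegrable _ _) (hi s t)
      fun z hz => mul_le_mul_of_nonneg_right (max_le (hr z hz) (hf0 z)) (abs_nonneg _)
  have h12 : b₁ ≤ a₂ := by
    simp only [p, q] at hb₁ ha₂
    linarith [hb₁.2, ha₂.1, hdd.2.2.1]
  have h2e : b₂ ≤ a₁ + 1 := by
    simp only [p, q] at hb₂ ha₁
    linarith [hb₂.2, ha₁.1, hdd.2.2.2]
  rw [integral_one_period hFp a₁,
    ← intervalIntegral.integral_add_adjacent_intervals (hi a₁ b₁) (hi b₁ (a₁ + 1)),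
    ← intervalIntegral.integral_add_adjacent_intervals (hi b₁ a₂) (hi a₂ (a₁ + 1)),
    ← intervalIntegral.integral_add_adjacent_intervals (hi a₂ b₂) (hi b₂ (a₁ + 1))]
  linarith [piece (show a₁ ≤ b₁ by linarith [ha₁.2, hb₁.1]) hbound,
    piece (show a₂ ≤ b₂ by linarith [ha₂.2, hb₂.1]) hbound',
    intervalIntegral.integral_nonneg h12 (fun z _ => hF0 z) (μ := volume),
    intervalIntegral.integral_nonneg h2e (fun z _ => hF0 z) (μ := volume),
    le_max_left (f p - ε / 4) 0, le_max_left (f q - ε / 4) 0]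

/-- The first moment of an arc. -/
theorem integral_arc {m l : ℝ} (hl : l ∈ Ioo (0 : ℝ) 1)
    (harc : ∀ᵐ z, χ z = (arc m l).indicator (fun _ => 1) z) (hχp : Function.Periodic χ 1) (t : ℝ) :
    ∫ z in Ioc (-(1 / 2) : ℝ) (1 / 2), χ z * cos (2 * π * (z - t))
      = sin (π * l) / π * cos (2 * π * (m - t)) := by
  have hper : Function.Periodic (fun z => χ z * cos (2 * π * (z - t))) 1 := fun z => by
    show χ (z + 1) * cos (2 * π * (z + 1 - t)) = _
    rw [hχp z, show 2 * π * (z + 1 - t) = 2 * π * (z - t) + 2 * π by ring, cos_add_two_pi]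
  rw [integral_one_period hper (m - 1 / 2), show m - 1 / 2 + 1 = m + 1 / 2 by ring,
    intervalIntegral.integral_of_le (by linarith)]
  have e : ∀ᵐ z ∂volume.restrict (Ioc (m - 1 / 2) (m + 1 / 2)), χ z * cos (2 * π * (z - t))
      = (Ioo (m - l / 2) (m + l / 2)).indicator (fun z => cos (2 * π * (z - t))) z := by
    filter_upwards [ae_restrict_mem measurableSet_Ioc, ae_restrict_of_ae harc] with z hz hzc
    have h' := arc_iff (m := m) (z := z) (⟨hl.1.le, hl.2.le⟩ : l ∈ Icc (0 : ℝ) 1)
      (abs_le.2 ⟨by linarith [hz.1], by linarith [hz.2]⟩)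
    by_cases hm : z ∈ Ioo (m - l / 2) (m + l / 2)
    · rw [hzc, indicator_of_mem hm, indicator_of_mem, one_mul]
      have : |z - m| < l / 2 := abs_lt.2 ⟨by linarith [hm.1], by linarith [hm.2]⟩
      exact h'.2 (by linarith)
    · rw [hzc, indicator_of_notMem hm, indicator_of_notMem, zero_mul]
      intro hh
      have := abs_lt.1 (show |z - m| < l / 2 by linarith [h'.1 hh])
      exact hm ⟨by linarith, by linarith⟩
  rw [integral_congr_ae e, setIntegral_indicator measurableSet_Ioo,
    inter_eq_right.2 (show Ioo (m - l / 2) (m + l / 2) ⊆ Ioc (m - 1 / 2) (m + 1 / 2) from fun z hz =>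
      ⟨by linarith [hz.1, hl.2], by linarith [hz.2, hl.2]⟩),
    ← integral_Ioc_eq_integral_Ioo, ← intervalIntegral.integral_of_le (by linarith [hl.1]),
    intervalIntegral.integral_eq_sub_of_hasDerivAt (f := fun z => sin (2 * π * (z - t)) / (2 * π))
      (fun z _ => ?_) ((by fun_prop : Continuous fun z => cos (2 * π * (z - t))).intervalIntegrable _ _)]
  · rw [show 2 * π * (m + l / 2 - t) = 2 * π * (m - t) + π * l by ring,
      show 2 * π * (m - l / 2 - t) = 2 * π * (m - t) - π * l by ring, sin_add, sin_sub]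
    field_simp
    ring
  · have h1 : HasDerivAt (fun z => 2 * π * (z - t)) (2 * π) z := by
      simpa using ((hasDerivAt_id z).sub_const t).const_mul (2 * π)
    refine (h1.sin.div_const (2 * π)).congr_deriv ?_
    field_simp

/-- The two end weights of an arc, for the first harmonics. -/
theorem cos_ends (m l t : ℝ) :
    cos (2 * π * (m - l / 2 - t)) + cos (2 * π * (m + l / 2 - t))
      = 2 * cos (π * l) * cos (2 * π * (m - t)) := by
  rw [show 2 * π * (m - l / 2 - t) = 2 * π * (m - t) - π * l by ring,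
    show 2 * π * (m + l / 2 - t) = 2 * π * (m - t) + π * l by ring, cos_add, cos_sub]
  ring

end

end Vale.Agent.P232
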