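import Vale.Agent.P232.Full.Min.LineTools

/-!
# P232: sharp calibrations force arcs

Let the lines of `E` in direction `j` have lengths `lf` on a convex open set `U` of the base and `0` outside.
If fields `b k` calibrate this profile sharply, almost every line over `U` is an arc.
-/

namespace Vale.Agent.P232

open MeasureTheory Set Function Filter Topology Real

noncomputable section

variable {m : ℕ}

/-- `sqrt (1 - |b|²)`. -/
def height (b : Fin m → ℝ) : ℝ := Real.sqrt (1 - ∑ i, b i ^ 2)

theorem height_le_one (b : Fin m → ℝ) : height b ≤ 1 :=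
  Real.sqrt_le_one.2 (sub_le_self _ (Finset.sum_nonneg fun i _ => sq_nonneg _))

theorem height_nonneg (b : Fin m → ℝ) : 0 ≤ height b := Real.sqrt_nonneg _

theorem continuous_height : Continuous (height (m := m)) := by unfold height; fun_prop

/-- A sharply calibrated profile. -/
structure Calibrated (U : Set (Fin m → ℝ)) (lf : (Fin m → ℝ) → ℝ) (β : (Fin m → ℝ) → Fin m → ℝ)
    (b : ℕ → (Fin m → ℝ) → Fin m → ℝ) (c : ℝ) : Prop where
  isOpen : IsOpen U
  convex : Convex ℝ U
  sub : ∀ y ∈ U, ∀ i, |y i| < 1 / 2
  lf_diff : ∀ y ∈ U, ContDiffAt ℝ 1 lf y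
  lf_mem : ∀ y ∈ U, lf y ∈ Ioo (0 : ℝ) 1
  lf_grad : ∀ y ∈ U, ∀ i, fderiv ℝ lf y (Pi.single i 1) = -(2 * β y i) / height (β y)
  β_cont : ContinuousOn β U
  β_lt : ∀ y ∈ U, ∑ i, β y i ^ 2 < 1
  field : ∀ k, TestField (b k)
  dom : ∀ k, ∀ y ∈ U, ∑ i, b k y i ^ 2 ≤ ∑ i, β y i ^ 2
  conv : ∀ y ∈ U, Tendsto (fun k => b k y) atTop (𝓝 (β y))
  sharp : Tendsto (fun k => 2 * (∫ y in U, height (b k y))
    + ∫ y in cube m, divergence (b k) y * U.indicator lf y) atTop (𝓝 c)

variable {U : Set (Fin m → ℝ)} {lf : (Fin m → ℝ) → ℝ} {β : (Fin m → ℝ) → Fin m → ℝ}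
  {b : ℕ → (Fin m → ℝ) → Fin m → ℝ} {c : ℝ} {E : Set (Fin (m + 1) → ℝ)} {j : Fin (m + 1)}
  {u : ℕ → (Fin (m + 1) → ℝ) → ℝ}

theorem Calibrated.subset (h : Calibrated U lf β b c) : U ⊆ cube m := fun y hy i _ => by
  have := abs_lt.1 (h.sub y hy i)
  exact ⟨this.1, this.2.le⟩

theorem Calibrated.finite (h : Calibrated U lf β b c) : volume U ≠ ⊤ :=
  measure_ne_top_of_subset h.subset cube_finite

theorem Calibrated.height_pos (h : Calibrated U lf β b c) {y : Fin m → ℝ} (hy : y ∈ U) :
    0 < height (β y) := Real.sqrt_pos.2 (by linarith [h.β_lt y hy])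

theorem Calibrated.height_le (h : Calibrated U lf β b c) (k : ℕ) {y : Fin m → ℝ} (hy : y ∈ U) :
    height (β y) ≤ height (b k y) := Real.sqrt_le_sqrt (by linarith [h.dom k y hy])

/-- The measure of a line, and its first moment about `t`. -/
def lineMoment (E : Set (Fin (m + 1) → ℝ)) (j : Fin (m + 1)) (t : ℝ) (y : Fin m → ℝ) : ℝ :=
  ∫ z in period, E.indicator (fun _ => (1 : ℝ)) (splice j z y) * cos (2 * π * (z - t))

/-- The cosine of the centre. -/
def centreCos (E : Set (Fin (m + 1) → ℝ)) (j : Fin (m + 1)) (t : ℝ) (y : Fin m → ℝ) : ℝ :=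
  max (-1) (min 1 (π * lineMoment E j t y / sin (π * baseLen E j y)))

theorem measurable_lineMoment (hE : MeasurableSet E) (t : ℝ) : Measurable (lineMoment E j t) :=
  (StronglyMeasurable.integral_prod_left (μ := volume.restrict period)
    (f := fun z y => E.indicator (fun _ => (1 : ℝ)) (splice j z y) * cos (2 * π * (z - t)))
    (((measurable_const.indicator hE).comp (splice_preserving j).measurable).mul
      (by fun_prop : Measurable fun p : ℝ × (Fin m → ℝ) => cos (2 * π * (p.1 - t)))).stronglyMeasurable).measurable

theorem measurable_centreCos (hE : MeasurableSet E) (t : ℝ) : Measurable (centreCos E j t) :=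
  measurable_const.max (measurable_const.min (((measurable_lineMoment hE t).const_mul π).div
    (Real.continuous_sin.measurable.comp ((measurable_baseLen hE).const_mul π))))

theorem centreCos_abs (t : ℝ) (y : Fin m → ℝ) : |centreCos E j t y| ≤ 1 :=
  abs_le.2 ⟨le_max_left _ _, max_le (by norm_num) (min_le_left _ _)⟩

theorem lineMoment_abs (t : ℝ) (y : Fin m → ℝ) : |lineMoment E j t y| ≤ 1 := by
  have h := norm_integral_le_of_norm_le_const (μ := volume.restrict period) (C := 1)
    (f := fun z => E.indicator (fun _ => (1 : ℝ)) (splice j z y) * cos (2 * π * (z - t)))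
    (.of_forall fun z => by
      rw [Real.norm_eq_abs, abs_mul]
      exact mul_le_one₀ (by rw [abs_of_nonneg (indicator_mem E _).1]; exact (indicator_mem E _).2)
        (abs_nonneg _) (abs_cos_le_one _))
  rw [probReal_univ, mul_one, Real.norm_eq_abs] at h
  exact h

/-- The arc over `y`, and what it gives. -/
def IsArc (E : Set (Fin (m + 1) → ℝ)) (j : Fin (m + 1)) (y : Fin m → ℝ) (mc : ℝ) : Prop :=
  baseLen E j y ∈ Ioo (0 : ℝ) 1 ∧ ∀ᵐ z, E.indicator (fun _ => (1 : ℝ)) (splice j z y)
    = (arc mc (baseLen E j y)).indicator (fun _ => 1) z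

theorem IsArc.centreCos_eq {y : Fin m → ℝ} {mc : ℝ} (h : IsArc E j y mc)
    (hper : Function.Periodic (fun z => E.indicator (fun _ => (1 : ℝ)) (splice j z y)) 1) (t : ℝ) :
    lineMoment E j t y = sin (π * baseLen E j y) / π * cos (2 * π * (mc - t)) ∧
      centreCos E j t y = cos (2 * π * (mc - t)) := by
  have e := integral_arc h.1 h.2 hper t
  have hs : 0 < sin (π * baseLen E j y) :=
    sin_pos_of_pos_of_lt_pi (mul_pos pi_pos h.1.1) (by nlinarith [pi_pos, h.1.2])
  refine ⟨e, ?_⟩
  have e' : π * lineMoment E j t y / sin (π * baseLen E j y) = cos (2 * π * (mc - t)) := by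
    rw [show lineMoment E j t y = _ from e]
    field_simp
  rw [centreCos, e', min_eq_right (cos_le_one _), max_eq_right (neg_one_le_cos _)]

/-- Almost every line over `U` is an arc. -/
theorem Calibrated.exists_arcs (h : Calibrated U lf β b c) (hu : SetApprox E c u)
    (hE : MeasurableSet E) (hp : Periodic fun x => x ∈ E)
    (hlen : ∀ᵐ y ∂volume.restrict (cube m), baseLen E j y = U.indicator lf y) :
    ∀ᵐ y ∂volume.restrict (cube m), y ∈ U → ∃ mc, IsArc E j y mc := by
  set V : ℕ → (Fin m → ℝ) → ℝ := fun k y => lineVar j (fun _ => 1) (u k) y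
  have hVm : ∀ k, Measurable (V k) := fun k => by
    have hd : Differentiable ℝ (u k) := (hu.smooth k).differentiable two_ne_zero
    have e : V k = fun y => ∫ z in period, |fderiv ℝ (u k) (splice j z y) (Pi.single j 1)| :=
      funext fun y => integral_congr_ae (.of_forall fun z => by simp only [one_mul, line_deriv hd y z])
    rw [e]
    exact (StronglyMeasurable.integral_prod_left (μ := volume.restrict period)
      (f := fun z y => |fderiv ℝ (u k) (splice j z y) (Pi.single j 1)|)
      (((measurable_fderiv_apply_const ℝ _ _).abs).comp (splice_preserving j).measurable).stronglyMeasurable).measurable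
  have hV0 : ∀ k y, 0 ≤ V k y := fun k y =>
    integral_nonneg fun z => mul_nonneg zero_le_one (abs_nonneg _)
  set q : (Fin m → ℝ) → ℝ := fun y => liminf (fun k => min (V k y) 4) atTop
  have hqm : Measurable q := Measurable.liminf fun k => (hVm k).min measurable_const
  have bdA : ∀ y, IsBoundedUnder (· ≤ ·) atTop fun k => min (V k y) 4 := fun y =>
    ⟨4, eventually_map.2 (.of_forall fun k => min_le_right _ _)⟩
  have bdB : ∀ y, IsBoundedUnder (· ≥ ·) atTop fun k => min (V k y) 4 := fun y =>
    ⟨0, eventually_map.2 (.of_forall fun k => le_min (hV0 k y) (by norm_num))⟩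
  have hq : ∀ y, q y ∈ Icc (0 : ℝ) 4 := fun y =>
    ⟨le_liminf_of_le (bdA y).isCoboundedUnder_ge (.of_forall fun k => le_min (hV0 k y) (by norm_num)),
      (liminf_le_limsup (bdA y) (bdB y)).trans
        (limsup_le_of_le (bdB y).isCoboundedUnder_le (.of_forall fun k => min_le_right _ _))⟩
  have hlines := hu.lines hp j
  -- at least two
  have hq2 : ∀ᵐ y ∂volume.restrict (cube m), y ∈ U → 2 ≤ q y := by
    filter_upwards [hlines, hlen] with y hy hl hyU
    rw [indicator_of_mem hyU] at hl
    have hint : ∫ z in Ioc (-(1 / 2) : ℝ) (1 / 2), E.indicator (fun _ => (1 : ℝ)) (splice j z y) = lf y := hl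
    refine le_of_forall_sub_le fun ε hε => ?_
    have he : ∀ᶠ k in atTop, 2 - ε ≤ ∫ z in Ioc (-(1 / 2) : ℝ) (1 / 2), |deriv (fun s => u k (splice j s y)) z| := by
      refine hy.two (fun h1 => ?_) (fun h0 => ?_) hε
      · rw [integral_congr_ae (ae_restrict_of_ae h1)] at hint
        simp [measureReal_def] at hint
        linarith [(h.lf_mem y hyU).2]
      · rw [integral_congr_ae (ae_restrict_of_ae h0)] at hint
        simp at hint
        linarith [(h.lf_mem y hyU).1]
    refine le_liminf_of_le (bdA y).isCoboundedUnder_ge (he.mono fun k hk => le_min ?_ (by linarith))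
    simpa [V, lineVar, period] using hk
  set D : ℕ → ℝ := fun k => c - (2 * (∫ y in U, height (b k y))
    + ∫ y in cube m, divergence (b k) y * U.indicator lf y)
  have hD : Tendsto D atTop (𝓝 0) := by simpa using h.sharp.const_sub c
  set I : ℕ → ℝ := fun k => ∫ y in U, height (b k y) * (q y - 2)
  have hfinU : IsFiniteMeasure (volume.restrict U) := isFiniteMeasure_restrict.2 h.finite
  have hbm : ∀ k, Measurable fun y => height (b k y) := fun k =>
    (continuous_height.comp (h.field k).contDiff.continuous).measurable
  have hhb : ∀ k y, |height (b k y)| ≤ 1 := fun k y => by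
    rw [abs_of_nonneg (height_nonneg _)]; exact height_le_one _
  have hI : ∀ k, I k ≤ D k := by
    intro k
    set W : (Fin (m + 1) → ℝ) → Fin m → ℝ := fun x => b k (baseProj j x)
    set f : (Fin (m + 1) → ℝ) → ℝ := fun x => height (b k (baseProj j x))
    have hWd : ContDiff ℝ 1 W :=
      (h.field k).contDiff.comp (contDiff_pi.2 fun i => contDiff_apply ℝ ℝ (j.succAbove i))
    have hWp : Periodic W := fun i x => by
      simp only [W]
      refine j.succAboveCases ?_ (fun l => ?_) i
      · rw [baseProj_add_same]
      · rw [baseProj_add_above, (h.field k).periodic]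
    have h1 := hu.limit_le j hWd hWp (f := f)
      (((hbm k).comp continuous_baseProj.measurable))
      (fun x => height_nonneg _)
      (fun x => by
        simp only [f, W, height]
        rw [Real.sq_sqrt (by linarith [(h.field k).sq_le (baseProj j x)])]
        linarith)
      (M := U.indicator fun y => height (b k y) * q y)
      (((hbm k).mul hqm).indicator h.isOpen.measurableSet) (C := 4)
      (fun y => by
        by_cases hy : y ∈ U
        · rw [indicator_of_mem hy, abs_mul, abs_of_nonneg (hq y).1]
          calc |height (b k y)| * q y ≤ 1 * 4 := mul_le_mul (hhb k y) (hq y).2 (hq y).1 zero_le_one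
            _ = 4 := one_mul 4
        · simp [indicator_of_notMem hy])
      (.of_forall fun y ε hε => by
        have hlv : ∀ l, lineVar j f (u l) y = height (b k y) * V l y := fun l => by
          simp only [lineVar, V, f, baseProj_splice, one_mul, integral_const_mul]
        by_cases hy : y ∈ U
        · rw [indicator_of_mem hy]
          filter_upwards [eventually_lt_of_lt_liminf (show q y - ε < liminf (fun l => min (V l y) 4) atTop
            by simp only [q]; linarith) (bdB y)] with l hl
          rw [hlv]
          have h2 : q y - ε ≤ V l y := hl.le.trans (min_le_left _ _)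
          nlinarith [height_nonneg (b k y), height_le_one (b k y), mul_le_mul_of_nonneg_left h2 (height_nonneg (b k y))]
        · rw [indicator_of_notMem hy]
          exact .of_forall fun l => by
            rw [hlv]; linarith [mul_nonneg (height_nonneg (b k y)) (hV0 l y)])
    have e1 : ∫ x in cube (m + 1), E.indicator (fun _ => 1) x * divergence (baseField j W) x
        = ∫ y in cube m, divergence (b k) y * U.indicator lf y := by
      obtain ⟨C, hC⟩ := (h.field k).divergence_bound
      have e0 : ∀ x, divergence (baseField j W) x = divergence (b k) (baseProj j x) := fun x => by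
        rw [divergence_baseField, divergence]
        exact Finset.sum_congr rfl fun l _ =>
          fderiv_baseProj (((h.field k).coord l).differentiable one_ne_zero _) l
      simp only [e0]
      rw [(integral_cube_lines (f := fun x => E.indicator (fun _ => 1) x * divergence (b k) (baseProj j x))
        (integrableOn_cube ((measurable_const.indicator hE).mul
          ((divergence_measurable _).comp continuous_baseProj.measurable)) (C := 1 * C) fun x => by
          rw [abs_mul]
          exact mul_le_mul (by rw [abs_of_nonneg (indicator_mem E _).1]; exact (indicator_mem E _).2)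
            (hC _) (abs_nonneg _) zero_le_one) j).1]
      refine integral_congr_ae ?_
      filter_upwards [hlen] with y hy
      simp only [baseProj_splice, integral_mul_const]
      rw [← hy, baseLen, mul_comm]
    rw [e1, setIntegral_indicator h.isOpen.measurableSet, inter_eq_right.2 h.subset] at h1
    simp only [I, D, mul_sub]
    have i1 : Integrable (fun y => height (b k y) * q y) (volume.restrict U) :=
      Integrable.of_bound ((hbm k).mul hqm).aestronglyMeasurable (1 * 4) (.of_forall fun y => by
        rw [Real.norm_eq_abs, abs_mul]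
        exact mul_le_mul (hhb k y) (by rw [abs_of_nonneg (hq y).1]; exact (hq y).2) (abs_nonneg _) zero_le_one)
    have i2 : Integrable (fun y => height (b k y) * 2) (volume.restrict U) :=
      (Integrable.of_bound (hbm k).aestronglyMeasurable 1 (.of_forall fun y => by
        rw [Real.norm_eq_abs]; exact hhb k y)).mul_const 2
    rw [integral_sub i1 i2, integral_mul_const]
    linarith
  have hβm : AEStronglyMeasurable (fun y => height (β y)) (volume.restrict U) :=
    (continuous_height.comp_continuousOn h.β_cont).aestronglyMeasurable h.isOpen.measurableSet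
  have hlim : Tendsto I atTop (𝓝 (∫ y in U, height (β y) * (q y - 2))) := by
    refine tendsto_integral_of_dominated_convergence (fun _ => 1 * 4) (fun k => ?_) (integrable_const _)
      (fun k => .of_forall fun y => ?_) ?_
    · exact ((hbm k).mul (hqm.sub measurable_const)).aestronglyMeasurable
    · rw [Real.norm_eq_abs, abs_mul]
      exact mul_le_mul (hhb k y) (abs_le.2 ⟨by linarith [(hq y).1], by linarith [(hq y).2]⟩)
        (abs_nonneg _) zero_le_one
    · filter_upwards [ae_restrict_mem h.isOpen.measurableSet] with y hy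
      exact ((continuous_height.tendsto _).comp (h.conv y hy)).mul_const _
  have hnn : ∀ᵐ y ∂volume.restrict U, 0 ≤ height (β y) * (q y - 2) := by
    filter_upwards [ae_restrict_of_ae_restrict_of_subset h.subset hq2, ae_restrict_mem h.isOpen.measurableSet]
      with y hy hyU
    exact mul_nonneg (height_nonneg _) (by linarith [hy hyU])
  have hz := (integral_eq_zero_iff_of_nonneg_ae hnn (Integrable.of_bound
    (hβm.mul (hqm.sub measurable_const).aestronglyMeasurable) (1 * 4) (.of_forall fun y => by
      rw [Real.norm_eq_abs, abs_mul]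
      exact mul_le_mul (by rw [abs_of_nonneg (height_nonneg _)]; exact height_le_one _)
        (abs_le.2 ⟨by linarith [(hq y).1], by linarith [(hq y).2]⟩) (abs_nonneg _) zero_le_one))).1
    (le_antisymm (le_of_tendsto_of_tendsto' hlim hD hI) (integral_nonneg_of_ae hnn))
  have hz' : ∀ᵐ y ∂volume.restrict (cube m), y ∈ U → height (β y) * (q y - 2) = 0 :=
    ae_restrict_of_ae ((ae_restrict_iff' h.isOpen.measurableSet).1 hz)
  filter_upwards [hz', hlines, hlen] with y hy hL hl hyU
  rw [indicator_of_mem hyU] at hl
  have hqy : q y = 2 := by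
    rcases mul_eq_zero.1 (hy hyU) with e | e
    · exact absurd e (h.height_pos hyU).ne'
    · linarith
  have hfr : ∃ᶠ k in atTop, ∫ z in Ioc (-(1 / 2) : ℝ) (1 / 2), |deriv (fun s => u k (splice j s y)) z| ≤ 3 := by
    refine (frequently_lt_of_liminf_lt (bdA y).isCoboundedUnder_ge (b := 3)
      (show q y < 3 by linarith)).mono fun k hk => ?_
    have : V k y < 3 := by
      rcases min_choice (V k y) 4 with e | e <;> rw [e] at hk
      · exact hk
      · norm_num at hk
    simpa [V, lineVar, period] using this.le
  obtain ⟨mc, hmc⟩ := hL.exists_arc (l := baseLen E j y) (by rw [hl]; exact h.lf_mem y hyU) rfl hfr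
  exact ⟨mc, hl ▸ h.lf_mem y hyU, hmc⟩

end

end Vale.Agent.P232
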