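import Vale.Agent.P232.Full.Min.Perturb

/-!
# P232: equality in a calibration forces a translate of the Steiner symmetrisation

Let the lines of `E` in direction `j` have lengths `lf` on a convex open set `U` of the base and `0` outside.
If fields `b k` calibrate this profile sharply, almost every line over `U` is an arc and the first moment of
the lines, divided by `sin (π lf)`, has weak gradient zero: the arcs have a common centre.
-/

namespace Vale.Agent.P232

open MeasureTheory Set Function Filter Topology Real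

noncomputable section

variable {m : ℕ} {U : Set (Fin m → ℝ)} {lf : (Fin m → ℝ) → ℝ} {β : (Fin m → ℝ) → Fin m → ℝ}
  {b : ℕ → (Fin m → ℝ) → Fin m → ℝ} {c : ℝ} {E : Set (Fin (m + 1) → ℝ)} {j : Fin (m + 1)}
  {u : ℕ → (Fin (m + 1) → ℝ) → ℝ}

/-- The cut-off divided by the sine. -/
theorem contDiff_div_sin {ζ : (Fin m → ℝ) → ℝ} (h : Calibrated U lf β b c) (hζ : ContDiff ℝ 1 ζ)
    (hζU : tsupport ζ ⊆ U) : ContDiff ℝ 1 fun y => ζ y / sin (π * lf y) := by
  refine contDiff_iff_contDiffAt.2 fun y => ?_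
  by_cases hy : y ∈ tsupport ζ
  · have hm := h.lf_mem y (hζU hy)
    exact hζ.contDiffAt.div ((contDiffAt_const.mul (h.lf_diff y (hζU hy))).sin)
      (sin_pos_of_pos_of_lt_pi (mul_pos pi_pos hm.1) (by nlinarith [pi_pos, hm.2])).ne'
  · refine (contDiffAt_const (c := (0 : ℝ))).congr_of_eventuallyEq ?_
    filter_upwards [(isClosed_tsupport ζ).isOpen_compl.mem_nhds hy] with z hz
    simp only [image_eq_zero_of_notMem_tsupport hz, zero_div]

/-- The integrand which vanishes is the weak gradient. -/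
theorem weak_grad_identity (h : Calibrated U lf β b c) {ζ η : (Fin m → ℝ) → ℝ} (hζ : ContDiff ℝ 1 ζ)
    {y : Fin m → ℝ} (hy : y ∈ U) (he : η =ᶠ[𝓝 y] fun y => ζ y / sin (π * lf y)) (i : Fin m) (G : ℝ) :
    fderiv ℝ η y (Pi.single i 1) * (sin (π * lf y) / π * G)
        - 2 * (β y i * η y / height (β y) * (cos (π * lf y) * G))
      = π⁻¹ * (G * fderiv ℝ ζ y (Pi.single i 1)) := by
  have hm := h.lf_mem y hy
  have hs : 0 < sin (π * lf y) :=
    sin_pos_of_pos_of_lt_pi (mul_pos pi_pos hm.1) (by nlinarith [pi_pos, hm.2])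
  have hh := h.height_pos hy
  have hlfd : HasFDerivAt lf (fderiv ℝ lf y) y :=
    ((h.lf_diff y hy).differentiableAt one_ne_zero).hasFDerivAt
  have hinv := (hasDerivAt_inv hs.ne').comp_hasFDerivAt y (hlfd.const_mul π).sin
  have hdz : HasFDerivAt (fun y => ζ y * (sin (π * lf y))⁻¹) _ y :=
    ((hζ.differentiable one_ne_zero) y).hasFDerivAt.mul hinv
  simp only [← div_eq_mul_inv] at hdz
  rw [he.fderiv_eq, he.eq_of_nhds, hdz.fderiv]
  simp only [add_apply, smul_apply, smul_eq_mul, h.lf_grad y hy i]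
  field_simp
  ring

/-- The weak gradient of the cosine of the centre vanishes. -/
theorem Calibrated.weak_grad (h : Calibrated U lf β b c) (hu : SetApprox E c u)
    (hE : MeasurableSet E) (hp : Periodic fun x => x ∈ E)
    (hlen : ∀ᵐ y ∂volume.restrict (cube m), baseLen E j y = U.indicator lf y) (t : ℝ)
    {ζ : (Fin m → ℝ) → ℝ} (hζ : ContDiff ℝ 1 ζ) (hζc : HasCompactSupport ζ) (hζU : tsupport ζ ⊆ U)
    (i : Fin m) : ∫ y in U, centreCos E j t y * fderiv ℝ ζ y (Pi.single i 1) = 0 := by
  set K := tsupport ζ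
  have harcs := h.exists_arcs hu hE hp hlen
  set ζ₀ : (Fin m → ℝ) → ℝ := fun y => ζ y / sin (π * lf y)
  have hζ₀0 : ∀ y, y ∉ K → ζ₀ y = 0 := fun y hy => by
    simp only [ζ₀, image_eq_zero_of_notMem_tsupport hy, zero_div]
  obtain ⟨σ, hσ, hσK⟩ : ∃ σ < (1 / 2 : ℝ), ∀ y ∈ K, ∀ l, |y l| ≤ σ := by
    rcases K.eq_empty_or_nonempty with hK | hK
    · exact ⟨0, by norm_num, by simp [hK]⟩
    obtain ⟨y₀, hy₀, hmax⟩ := hζc.exists_isMaxOn hK continuous_norm.continuousOn
    refine ⟨‖y₀‖, (pi_norm_lt_iff (by norm_num)).2 fun l => ?_, fun y hy l => ?_⟩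
    · rw [Real.norm_eq_abs]; exact h.sub y₀ (hζU hy₀) l
    · exact (norm_le_pi_norm y l).trans (hmax hy)
  set η := periodExt ζ₀
  have hη : ContDiff ℝ 1 η :=
    contDiff_periodExt (contDiff_div_sin h hζ hζU) hσ fun y l hl => hζ₀0 y fun hy => (hσK y hy l).not_gt hl
  have hηp : Periodic η := periodExt_periodic _
  obtain ⟨C, hC⟩ := hηp.bounded hη.continuous
  obtain ⟨C', hC'⟩ := hηp.fderiv.bounded (hη.continuous_fderiv one_ne_zero)
  have hdb : ∀ y, |fderiv ℝ η y (Pi.single i 1)| ≤ C' := fun y => by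
    have := ((fderiv ℝ η y).le_opNorm (Pi.single i 1))
    rw [Real.norm_eq_abs, Pi.norm_single, norm_one, mul_one] at this
    exact this.trans (hC' y)
  have hC0 : 0 ≤ C := (norm_nonneg _).trans (hC 0)
  obtain ⟨a₀, ha₀, ha₀K⟩ : ∃ a₀ > 0, ∀ y ∈ K, a₀ ≤ height (β y) := by
    rcases K.eq_empty_or_nonempty with hK | hK
    · exact ⟨1, one_pos, by simp [hK]⟩
    obtain ⟨y₀, hy₀, hmin⟩ := hζc.exists_isMinOn hK
      ((continuous_height.comp_continuousOn h.β_cont).mono hζU)
    exact ⟨_, h.height_pos (hζU hy₀), fun y hy => hmin hy⟩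
  have hha : ∀ k y, η y ≠ 0 → a₀ ≤ height (b k y) := fun k y hy => by
    have hc : centre y ∈ K := by_contra fun hc => hy (hζ₀0 _ hc)
    rw [← (h.field k).periodic.apply_centre y]
    exact (ha₀K _ hc).trans (h.height_le k (hζU hc))
  have hK := quadConst_pos ha₀
  set s₀ : ℝ := min 1 (min (a₀ ^ 2 / 2 / (C + 1)) (a₀ / 2 / (quadConst a₀ * (C + 1) ^ 2)))
  have hs₀ : 0 < s₀ := lt_min one_pos (lt_min (by positivity) (by positivity))
  set F := ∫ y in cube m, fderiv ℝ η y (Pi.single i 1) * lineMoment E j t y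
  set Q : ℕ → (Fin m → ℝ) → ℝ := fun k y =>
    2 * (b k y i * η y / height (b k y) * (cos (π * baseLen E j y) * centreCos E j t y))
  set Qi : (Fin m → ℝ) → ℝ := fun y =>
    2 * (β y i * η y / height (β y) * (cos (π * baseLen E j y) * centreCos E j t y))
  have hQm : ∀ k, Measurable (Q k) := fun k =>
    ((((h.field k).coord i).continuous.measurable.mul hη.continuous.measurable).div
      (continuous_height.comp (h.field k).contDiff.continuous).measurable |>.mul
      (((measurable_baseLen hE).const_mul π).cos.mul (measurable_centreCos hE t))).const_mul 2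
  have hQb : ∀ k y, |Q k y| ≤ 2 * (C / a₀ * (1 * 1)) := fun k y => by
    simp only [Q, abs_mul, abs_two, abs_div, abs_of_nonneg (height_nonneg _)]
    refine mul_le_mul_of_nonneg_left (mul_le_mul ?_ (mul_le_mul (abs_cos_le_one _) (centreCos_abs t y)
      (abs_nonneg _) zero_le_one) (by positivity) (by positivity)) zero_le_two
    by_cases hy : η y = 0
    · simp only [hy, abs_zero, mul_zero, zero_div]; positivity
    · refine div_le_div₀ hC0 ?_ ha₀ (hha k y hy)
      calc |b k y i| * |η y| ≤ 1 * C :=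
            mul_le_mul ((h.field k).abs_le y i) (hC y) (abs_nonneg _) zero_le_one
        _ = C := one_mul C
  have hptQ : ∀ᵐ y ∂volume.restrict U, Tendsto (fun k => Q k y) atTop (𝓝 (Qi y)) := by
    filter_upwards [ae_restrict_mem h.isOpen.measurableSet] with y hy
    exact (((((continuous_apply i).tendsto _).comp (h.conv y hy)).mul_const _).div
      ((continuous_height.tendsto _).comp (h.conv y hy)) (h.height_pos hy).ne').mul_const _ |>.const_mul 2
  have : IsFiniteMeasure (volume.restrict U) := isFiniteMeasure_restrict.2 h.finite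
  have hlimQ : Tendsto (fun k => ∫ y in U, Q k y) atTop (𝓝 (∫ y in U, Qi y)) :=
    tendsto_integral_of_dominated_convergence (fun _ => 2 * (C / a₀ * (1 * 1)))
      (fun k => (hQm k).aestronglyMeasurable) (integrable_const _)
      (fun k => .of_forall fun y => hQb k y) hptQ
  have e3 : ∀ k, ∫ y in cube m, divergence (b k) y * U.indicator lf y
      = ∫ y in cube m, divergence (b k) y * baseLen E j y := fun k =>
    integral_congr_ae (hlen.mono fun y hy => by simp only [hy])
  have hA : F - ∫ y in U, Qi y = 0 := by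
    refine eq_zero_of_le_sq hs₀ (show 0 ≤ 2 * quadConst a₀ * C ^ 2 by positivity) fun s hs => ?_
    refine le_of_tendsto_of_tendsto' ((hlimQ.const_sub F).const_mul s)
      (by simpa using (h.sharp.const_sub c).add_const (s ^ 2 * (2 * quadConst a₀ * C ^ 2))) fun k => ?_
    rw [e3 k]
    obtain ⟨hs1, hs23⟩ := le_min_iff.1 hs
    obtain ⟨hs2, hs3⟩ := le_min_iff.1 hs23
    rw [le_div_iff₀ (by positivity)] at hs2 hs3
    refine perturb_le hu hE hp h.isOpen h.subset harcs (h.field k) hη hηp hC hdb ha₀ (hha k) ?_ ?_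
    · nlinarith [abs_nonneg s]
    · calc quadConst a₀ * s ^ 2 * C ^ 2 ≤ quadConst a₀ * |s| * (C + 1) ^ 2 := by
            refine mul_le_mul (mul_le_mul_of_nonneg_left ?_ hK.le) (by nlinarith) (sq_nonneg C) (by positivity)
            rw [← sq_abs]; nlinarith [abs_nonneg s]
        _ ≤ a₀ / 2 := by linarith
  -- localisation to `U`
  have heta : ∀ y : Fin m → ℝ, (∀ l, |y l| < 1 / 2) → η =ᶠ[𝓝 y] ζ₀ := by
    intro y hy
    have : ∀ᶠ z in 𝓝 y, ∀ l, |z l| < 1 / 2 := eventually_all.2 fun l =>
      (continuous_apply l).abs.continuousAt.eventually (gt_mem_nhds (hy l))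
    exact this.mono fun z hz => periodExt_eq _ fun l _ => ⟨(abs_lt.1 (hz l)).1, (abs_lt.1 (hz l)).2.le⟩
  have hopen : ∀ᵐ y ∂volume.restrict (cube m), ∀ l, |y l| < 1 / 2 := by
    refine ae_all_iff.2 fun l => ?_
    filter_upwards [ae_restrict_mem cube_measurable, ae_restrict_of_ae
      ((Measure.quasiMeasurePreserving_eval (fun _ : Fin m => (volume : Measure ℝ)) l).ae
        (Measure.ae_ne volume (1 / 2 : ℝ)))] with y hy hy'
    exact abs_lt.2 ⟨(hy l (mem_univ l)).1, lt_of_le_of_ne (hy l (mem_univ l)).2 hy'⟩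
  have e4 : F = ∫ y in U, fderiv ℝ η y (Pi.single i 1) * lineMoment E j t y := by
    refine setIntegral_eq_of_subset_of_ae_sdiff_eq_zero cube_measurable.nullMeasurableSet h.subset ?_
    filter_upwards [(ae_restrict_iff' cube_measurable).1 hopen] with y hy hyc
    have hz : ζ₀ =ᶠ[𝓝 y] fun _ => (0 : ℝ) :=
      Filter.eventually_of_mem ((isClosed_tsupport ζ).isOpen_compl.mem_nhds fun hh => hyc.2 (hζU hh))
        fun z hz => hζ₀0 z hz
    rw [(heta y (hy hyc.1)).fderiv_eq, hz.fderiv_eq, fderiv_fun_const]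
    simp
  have iP : Integrable (fun y => fderiv ℝ η y (Pi.single i 1) * lineMoment E j t y) (volume.restrict U) :=
    Integrable.of_bound ((measurable_fderiv_apply_const ℝ _ _).mul
      (measurable_lineMoment hE t)).aestronglyMeasurable (C' * 1) (.of_forall fun y => by
        rw [norm_mul, Real.norm_eq_abs, Real.norm_eq_abs]
        exact mul_le_mul (hdb y) (lineMoment_abs t y) (abs_nonneg _) ((abs_nonneg _).trans (hdb y)))
  have iQi : Integrable Qi (volume.restrict U) :=
    Integrable.of_bound (aestronglyMeasurable_of_tendsto_ae atTop (fun k => (hQm k).aestronglyMeasurable) hptQ)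
      (2 * (C / a₀ * (1 * 1))) (hptQ.mono fun y hy => le_of_tendsto' hy.norm fun k => hQb k y)
  rw [e4, ← integral_sub iP iQi] at hA
  have e5 : ∫ y in U, (fderiv ℝ η y (Pi.single i 1) * lineMoment E j t y - Qi y)
      = ∫ y in U, π⁻¹ * (centreCos E j t y * fderiv ℝ ζ y (Pi.single i 1)) := by
    refine integral_congr_ae ?_
    filter_upwards [ae_restrict_of_ae_restrict_of_subset h.subset harcs,
      ae_restrict_of_ae_restrict_of_subset h.subset hlen,
      ae_restrict_of_ae_restrict_of_subset h.subset (hu.lines hp j),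
      ae_restrict_mem h.isOpen.measurableSet] with y hy hl hL hyU
    rw [indicator_of_mem hyU] at hl
    obtain ⟨mc, hmc⟩ := hy hyU
    obtain ⟨e1, e2⟩ := hmc.centreCos_eq hL.per' t
    simp only [Qi, e1, ← e2, hl]
    exact weak_grad_identity h hζ hyU (heta y (h.sub y hyU)) i _
  rw [e5, integral_const_mul, mul_eq_zero] at hA
  exact hA.resolve_left (inv_ne_zero pi_ne_zero)

/-- Equality in a sharp calibration: a translate of the Steiner symmetrisation. -/
theorem Calibrated.exists_translate (h : Calibrated U lf β b c) (hE : MeasurableSet E)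
    (hp : Periodic fun x => x ∈ E) (hc : TVLE (E.indicator fun _ => 1) c)
    (hlen : ∀ᵐ y ∂volume.restrict (cube m), baseLen E j y = U.indicator lf y) :
    ∃ t : ℝ, ∀ᵐ x ∂volume.restrict (cube (m + 1)),
      E.indicator (fun _ => (1 : ℝ)) x
        = (steiner E j).indicator (fun _ => 1) (x - Pi.single j t) := by
  obtain ⟨u, h1, h2, h3, h4, h5, h6⟩ := exists_smooth_approx hE hp hc
  have hu : SetApprox E c u := ⟨h1, h2, h3, h4, h5, h6⟩
  have hcen : ∀ t : ℝ, ∃ C, ∀ᵐ y, y ∈ U → centreCos E j t y = C := fun t =>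
    ae_const_of_weak_grad h.isOpen h.convex (measurable_centreCos hE t) (B := 1)
      (fun y _ => centreCos_abs t y) fun ζ a b d i => h.weak_grad hu hE hp hlen t a b d i
  obtain ⟨C₀, hC₀⟩ := hcen 0
  obtain ⟨C₁, hC₁⟩ := hcen (1 / 4)
  have hall : ∀ᵐ y ∂volume.restrict (cube m), y ∈ U → ∃ mc, IsArc E j y mc ∧
      cos (2 * π * mc) = C₀ ∧ sin (2 * π * mc) = C₁ := by
    filter_upwards [h.exists_arcs hu hE hp hlen, hu.lines hp j, ae_restrict_of_ae hC₀, ae_restrict_of_ae hC₁]
      with y hy hL h0 h1 hyU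
    obtain ⟨mc, hmc⟩ := hy hyU
    refine ⟨mc, hmc, ?_, ?_⟩
    · have := (hmc.centreCos_eq hL.per' 0).2
      rw [h0 hyU] at this
      simpa using this.symm
    · have := (hmc.centreCos_eq hL.per' (1 / 4)).2
      rw [h1 hyU, show 2 * π * (mc - 1 / 4) = 2 * π * mc - π / 2 by ring, cos_sub_pi_div_two] at this
      exact this.symm
  obtain ⟨m₀, hm₀⟩ : ∃ m₀, ∀ᵐ y ∂volume.restrict (cube m), y ∈ U → IsArc E j y m₀ := by
    by_cases hne : ∃ y ∈ U, ∃ mc, IsArc E j y mc ∧ cos (2 * π * mc) = C₀ ∧ sin (2 * π * mc) = C₁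
    · obtain ⟨y₀, -, m₀, -, hc0, hs0⟩ := hne
      refine ⟨m₀, hall.mono fun y hy hyU => ?_⟩
      obtain ⟨mc, ⟨hl, hz⟩, hc1, hs1⟩ := hy hyU
      refine ⟨hl, ?_⟩
      have harc : arc mc (baseLen E j y) = arc m₀ (baseLen E j y) := by
        ext z
        show cos (π * _) < cos (2 * π * (z - mc)) ↔ cos (π * _) < cos (2 * π * (z - m₀))
        rw [mul_sub, mul_sub (2 * π) z m₀, cos_sub, cos_sub, hc1, hs1, hc0, hs0]
      simpa only [harc] using hz
    · push Not at hne
      exact ⟨0, hall.mono fun y hy hyU => absurd (hy hyU) (fun ⟨mc, a, b, d⟩ => hne y hyU mc a b d)⟩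
  refine ⟨m₀, ?_⟩
  have hq := splice_preserving j
  have hlineEq : ∀ᵐ y ∂volume.restrict (cube m), ∀ᵐ z ∂volume.restrict period,
      E.indicator (fun _ => (1 : ℝ)) (splice j z y)
        = (steiner E j).indicator (fun _ => 1) (splice j z y - Pi.single j m₀) := by
    filter_upwards [hm₀, hlen] with y hy hl
    have hs : ∀ z, splice j z y - Pi.single j m₀ = splice j (z - m₀) y := fun z => by
      rw [splice_eq_affine z y, splice_eq_affine (z - m₀) y, Pi.single_sub]
      abel
    have hst : ∀ z, splice j (z - m₀) y ∈ steiner E j ↔ z ∈ arc m₀ (baseLen E j y) := fun z => by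
      simp only [steiner, mem_ofPred_eq, baseProj_splice, splice_same, arc]
    simp only [hs]
    by_cases hyU : y ∈ U
    · filter_upwards [ae_restrict_of_ae (hy hyU).2] with z hz
      rw [hz]
      by_cases ha : z ∈ arc m₀ (baseLen E j y)
      · rw [indicator_of_mem ha, indicator_of_mem ((hst z).2 ha)]
      · rw [indicator_of_notMem ha, indicator_of_notMem fun hh => ha ((hst z).1 hh)]
    · rw [indicator_of_notMem hyU] at hl
      have hz0 := (integral_eq_zero_iff_of_nonneg_ae
        (.of_forall fun z => (indicator_mem E _).1)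
        (Integrable.of_bound ((measurable_const.indicator hE).comp
          (continuous_splice y).measurable).aestronglyMeasurable 1 (.of_forall fun z => by
            rw [Real.norm_eq_abs, abs_of_nonneg (indicator_mem E _).1]
            exact (indicator_mem E _).2))).1 hl
      filter_upwards [hz0] with z hz
      rw [show E.indicator (fun _ => (1 : ℝ)) (splice j z y) = 0 from hz,
        indicator_of_notMem fun hh => ?_]
      have h0 := (hst z).1 hh
      rw [hl] at h0
      simp only [arc, mem_ofPred_eq, mul_zero, cos_zero] at h0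
      exact (cos_le_one _).not_gt h0
  have hmE : Measurable (E.indicator fun _ => (1 : ℝ)) := measurable_const.indicator hE
  have hmS : Measurable fun x => (steiner E j).indicator (fun _ => (1 : ℝ)) (x - Pi.single j m₀) :=
    (measurable_const.indicator (measurableSet_steiner hE)).comp (measurable_id.sub measurable_const)
  have hset : MeasurableSet {x | E.indicator (fun _ => (1 : ℝ)) x
      = (steiner E j).indicator (fun _ => 1) (x - Pi.single j m₀)} := measurableSet_eq_fun hmE hmS
  have hpr : ∀ᵐ p ∂(volume.restrict (cube m)).prod (volume.restrict period),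
      E.indicator (fun _ => (1 : ℝ)) (splice j p.2 p.1)
        = (steiner E j).indicator (fun _ => 1) (splice j p.2 p.1 - Pi.single j m₀) :=
    (Measure.ae_prod_iff_ae_ae (((splice_preserving j).measurable.comp measurable_swap) hset)).2 hlineEq
  rw [← hq.map_eq]
  exact (ae_map_iff hq.measurable.aemeasurable hset).2
    (Measure.measurePreserving_swap.quasiMeasurePreserving.ae hpr)

end

end Vale.Agent.P232
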