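import Vale.Agent.P232.Full.Min.Steiner
import Vale.Agent.P232.Full.Min.Line
import Vale.Agent.P232.Full.Min.Base

/-!
# P232: the calibration inequality on the lines of one direction

For a field `W` in the directions of the base and a weight `f` with `f² + |W|² ≤ 1`, the weighted
variations of the lines of smooth approximations give `∫ M + ∫_E div W ≤ c`, `M` any eventual lower
bound of these variations.
-/

namespace Vale.Agent.P232

open MeasureTheory Set Function Filter Topology
open scoped NNReal

noncomputable section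

variable {m : ℕ} {j : Fin (m + 1)}

theorem Periodic.apply_centre {α : Type*} {f : (Fin m → ℝ) → α} (hf : Periodic f) (y : Fin m → ℝ) :
    f (centre y) = f y := by
  have e : centre y = fun i => ((-toIocDiv one_pos (-(1 / 2) : ℝ) (y i) : ℤ) : ℝ) + y i := funext fun i => by
    have h := toIocMod_add_toIocDiv_zsmul one_pos (-(1 / 2) : ℝ) (y i)
    simp only [zsmul_one] at h
    unfold centre
    push_cast
    linarith
  rw [e]
  exact hf.vadd ⟨fun i => ((-toIocDiv one_pos (-(1 / 2) : ℝ) (y i) : ℤ) : ℝ), mem_lattice.2 ⟨_, rfl⟩⟩ y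

theorem splice_eq_affine (z : ℝ) (y : Fin m → ℝ) :
    splice j z y = splice j 0 y + Pi.single j z := by
  funext i
  refine j.succAboveCases ?_ (fun k => ?_) i
  · simp [splice_same]
  · simp [splice_above]

theorem line_contDiff {f : (Fin (m + 1) → ℝ) → ℝ} (hf : ContDiff ℝ 1 f) (y : Fin m → ℝ) :
    ContDiff ℝ 1 fun z => f (splice j z y) := by
  refine hf.comp (contDiff_pi.2 fun i => ?_)
  refine j.succAboveCases ?_ (fun k => ?_) i
  · simp only [splice_same]; exact contDiff_id
  · simp only [splice_above]; exact contDiff_const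

theorem line_deriv {f : (Fin (m + 1) → ℝ) → ℝ} (hf : Differentiable ℝ f) (y : Fin m → ℝ) (z : ℝ) :
    deriv (fun s => f (splice j s y)) z = fderiv ℝ f (splice j z y) (Pi.single j 1) := by
  have h : HasDerivAt (fun s => splice j s y) (Pi.single j 1) z := by
    refine hasDerivAt_pi.2 fun i => ?_
    refine j.succAboveCases ?_ (fun k => ?_) i
    · simp only [splice_same, Pi.single_eq_same]; exact hasDerivAt_id z
    · simp only [splice_above, Pi.single_eq_of_ne (Fin.succAbove_ne j k)]; exact hasDerivAt_const z _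
  exact ((hf _).hasFDerivAt.comp_hasDerivAt z h).deriv

theorem integral_cube_lines {f : (Fin (m + 1) → ℝ) → ℝ} (hf : IntegrableOn f (cube (m + 1)))
    (j : Fin (m + 1)) :
    ∫ x in cube (m + 1), f x = ∫ y in cube m, ∫ z in period, f (splice j z y) ∧
      IntegrableOn (fun y => ∫ z in period, f (splice j z y)) (cube m) := by
  obtain ⟨h1, h2⟩ := integral_cube_succ hf j
  exact ⟨h1.trans (integral_integral_swap h2), h2.integral_prod_right⟩

/-- A field in the directions of the base. -/
def baseField (j : Fin (m + 1)) (W : (Fin (m + 1) → ℝ) → Fin m → ℝ) (x : Fin (m + 1) → ℝ) :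
    Fin (m + 1) → ℝ := splice j 0 (W x)

theorem testField_baseField {W : (Fin (m + 1) → ℝ) → Fin m → ℝ} (hW : ContDiff ℝ 1 W)
    (hp : Periodic W) (h1 : ∀ x, ∑ i, W x i ^ 2 ≤ 1) : TestField (baseField j W) := by
  refine ⟨contDiff_pi.2 fun i => ?_, fun i x => ?_, fun x => ?_⟩
  · unfold baseField
    refine j.succAboveCases ?_ (fun k => ?_) i
    · simp only [splice_same]; exact contDiff_const
    · simp only [splice_above]; exact contDiff_pi.1 hW k
  · unfold baseField; rw [hp i x]
  · rw [Fin.sum_univ_succAbove _ j]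
    simp only [baseField, splice_same, splice_above]
    simpa using h1 x

theorem divergence_baseField (W : (Fin (m + 1) → ℝ) → Fin m → ℝ) (x : Fin (m + 1) → ℝ) :
    divergence (baseField j W) x
      = ∑ k, fderiv ℝ (fun y => W y k) x (Pi.single (j.succAbove k) 1) := by
  rw [divergence, Fin.sum_univ_succAbove _ j]
  simp only [baseField, splice_same, splice_above, fderiv_fun_const]
  simp

/-- Derivative in a direction of the base of a function of the base coordinates. -/
theorem fderiv_baseProj {g : (Fin m → ℝ) → ℝ} {x : Fin (m + 1) → ℝ}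
    (hg : DifferentiableAt ℝ g (baseProj j x)) (k : Fin m) :
    fderiv ℝ (fun y => g (baseProj j y)) x (Pi.single (j.succAbove k) 1)
      = fderiv ℝ g (baseProj j x) (Pi.single k 1) := by
  set L : (Fin (m + 1) → ℝ) →L[ℝ] (Fin m → ℝ) :=
    ContinuousLinearMap.pi fun i => ContinuousLinearMap.proj (j.succAbove i)
  have h : HasFDerivAt (fun y => g (baseProj j y)) ((fderiv ℝ g (baseProj j x)).comp L) x :=
    HasFDerivAt.comp (f := fun y => baseProj j y) x hg.hasFDerivAt L.hasFDerivAt
  rw [h.fderiv, ContinuousLinearMap.comp_apply]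
  congr 1
  funext i
  rcases eq_or_ne i k with rfl | h
  · simp [L]
  · simp [L, h, j.succAbove_right_injective.ne h]

/-- Weighted Cauchy-Schwarz. -/
theorem calib_le {n : ℕ} {f a : ℝ} {p W : Fin n → ℝ} (h : f ^ 2 + ∑ i, W i ^ 2 ≤ 1) :
    f * |a| + ∑ i, -(p i * W i) ≤ Real.sqrt (a ^ 2 + ∑ i, p i ^ 2) := by
  have h1 := Real.sum_mul_le_sqrt_mul_sqrt Finset.univ (fun i => -p i) W
  simp only [neg_mul, neg_sq] at h1
  set P := Real.sqrt (∑ i, p i ^ 2)
  set Q := Real.sqrt (∑ i, W i ^ 2)
  have hP := Real.sq_sqrt (show 0 ≤ ∑ i, p i ^ 2 by positivity)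
  have hQ := Real.sq_sqrt (show 0 ≤ ∑ i, W i ^ 2 by positivity)
  refine le_trans (add_le_add_right h1 _) ?_
  refine (le_abs_self _).trans ?_
  rw [← Real.sqrt_sq_eq_abs]
  refine Real.sqrt_le_sqrt ?_
  simp only [P, Q] at *
  nlinarith [sq_nonneg (f * Real.sqrt (∑ i, p i ^ 2) - Real.sqrt (∑ i, W i ^ 2) * |a|), sq_abs a,
    mul_le_mul_of_nonneg_left h (show 0 ≤ a ^ 2 + ∑ i, p i ^ 2 by positivity)]

/-- Smooth approximations of a set of total variation at most `c`. -/
structure SetApprox (E : Set (Fin (m + 1) → ℝ)) (c : ℝ) (u : ℕ → (Fin (m + 1) → ℝ) → ℝ) : Prop where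
  smooth : ∀ k, ContDiff ℝ 2 (u k)
  lip : ∀ k, ∃ K, LipschitzWith K (u k)
  per : ∀ k, Periodic (u k)
  mem : ∀ k x, u k x ∈ Icc (0 : ℝ) 1
  grad : ∀ k, ∫ x in cube (m + 1), gradLen (u k) x ≤ c
  lim : ∀ᵐ x ∂volume.restrict (cube (m + 1)),
    Tendsto (fun k => u k x) atTop (𝓝 (E.indicator (fun _ => 1) x))

/-- The weighted variation of a line. -/
def lineVar (j : Fin (m + 1)) (f : (Fin (m + 1) → ℝ) → ℝ) (u : (Fin (m + 1) → ℝ) → ℝ)
    (y : Fin m → ℝ) : ℝ :=
  ∫ z in period, f (splice j z y) * |deriv (fun s => u (splice j s y)) z|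

variable {E : Set (Fin (m + 1) → ℝ)} {c : ℝ} {u : ℕ → (Fin (m + 1) → ℝ) → ℝ}

theorem SetApprox.lines (h : SetApprox E c u) (hp : Periodic fun x => x ∈ E) (j : Fin (m + 1)) :
    ∀ᵐ y ∂volume.restrict (cube m), LineApprox (fun k z => u k (splice j z y))
      (fun z => E.indicator (fun _ => 1) (splice j z y)) := by
  have h' : ∀ᵐ y ∂volume.restrict (cube m), ∀ᵐ z ∂volume.restrict period,
      Tendsto (fun k => u k (splice j z y)) atTop (𝓝 (E.indicator (fun _ => 1) (splice j z y))) :=
    Measure.ae_ae_of_ae_prod (((splice_preserving j).quasiMeasurePreserving.comp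
      Measure.measurePreserving_swap.quasiMeasurePreserving).ae h.lim)
  filter_upwards [h'] with y hy
  refine ⟨fun k => line_contDiff ((h.smooth k).of_le one_le_two) y, fun k => line_periodic (h.per k) y,
    line_periodic (fun i x => ?_) y, fun z => ?_, hy⟩
  · have e : (x + Pi.single i 1 ∈ E) = (x ∈ E) := hp i x
    by_cases hx : x ∈ E
    · rw [indicator_of_mem hx, indicator_of_mem (e.mpr hx)]
    · rw [indicator_of_notMem hx, indicator_of_notMem (fun h' => hx (e.mp h'))]
  · by_cases hx : splice j z y ∈ E <;> simp [hx]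

/-- The inequality in the limit. -/
theorem SetApprox.limit_le (h : SetApprox E c u) (j : Fin (m + 1))
    {f : (Fin (m + 1) → ℝ) → ℝ} {W : (Fin (m + 1) → ℝ) → Fin m → ℝ} (hW : ContDiff ℝ 1 W)
    (hWp : Periodic W) (hfm : Measurable f) (hf0 : ∀ x, 0 ≤ f x)
    (hfW : ∀ x, f x ^ 2 + ∑ i, W x i ^ 2 ≤ 1) {M : (Fin m → ℝ) → ℝ} (hMm : Measurable M) {C : ℝ}
    (hMb : ∀ y, |M y| ≤ C)
    (hev : ∀ᵐ y ∂volume.restrict (cube m), ∀ ε : ℝ, 0 < ε →
      ∀ᶠ k in atTop, M y - ε ≤ lineVar j f (u k) y) :
    (∫ y in cube m, M y) +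
      ∫ x in cube (m + 1), E.indicator (fun _ => 1) x * divergence (baseField j W) x ≤ c := by
  have hF : TestField (baseField j W) :=
    testField_baseField hW hWp fun x => by linarith [hfW x, sq_nonneg (f x)]
  obtain ⟨D, hD⟩ := hF.divergence_bound
  have hf1 : ∀ x, |f x| ≤ 1 := fun x => by
    rw [abs_of_nonneg (hf0 x)]
    nlinarith [hfW x, hf0 x, Finset.sum_nonneg (fun i (_ : i ∈ Finset.univ) => sq_nonneg (W x i))]
  have main : ∀ k, (∫ y in cube m, min (lineVar j f (u k) y) (M y)) +
      ∫ x in cube (m + 1), u k x * divergence (baseField j W) x ≤ c ∧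
      Measurable fun y => min (lineVar j f (u k) y) (M y) := by
    intro k
    obtain ⟨K, hK⟩ := h.lip k
    obtain ⟨e, hI⟩ := integral_mul_divergence hK (h.per k) hF
    have hd : Differentiable ℝ (u k) := (h.smooth k).differentiable two_ne_zero
    set g := fun x => f x * |fderiv ℝ (u k) x (Pi.single j 1)|
    have hgm : Measurable g := hfm.mul (measurable_fderiv_apply_const ℝ _ _).abs
    have hg : IntegrableOn g (cube (m + 1)) :=
      integrableOn_cube hgm (C := 1 * K) fun x => by
        rw [abs_mul, abs_abs]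
        exact mul_le_mul (hf1 x) (fderiv_single_abs_le hK x j) (abs_nonneg _) zero_le_one
    have hgv : ∀ y, lineVar j f (u k) y = ∫ z in period, g (splice j z y) := fun y =>
      integral_congr_ae (.of_forall fun z => by simp only [g, line_deriv hd y z])
    obtain ⟨eg, ig⟩ := integral_cube_lines hg j
    simp only [← hgv] at eg ig
    have hvm : Measurable fun y => lineVar j f (u k) y := by
      simp only [hgv]
      exact (StronglyMeasurable.integral_prod_left (μ := volume.restrict period)
        (f := fun z y => g (splice j z y))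
        (hgm.comp (splice_preserving j).measurable).stronglyMeasurable).measurable
    refine ⟨?_, hvm.min hMm⟩
    have h1 : ∫ y in cube m, min (lineVar j f (u k) y) (M y) ≤ ∫ x in cube (m + 1), g x := by
      rw [eg]
      refine integral_mono (Integrable.mono' (ig.abs.add (integrable_const C))
        (hvm.min hMm).aestronglyMeasurable (.of_forall fun y => ?_)) ig fun y => min_le_left _ _
      rw [Real.norm_eq_abs, Pi.add_apply]
      rcases min_choice (lineVar j f (u k) y) (M y) with e | e <;> rw [e]
      · linarith [abs_nonneg (M y), hMb y]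
      · linarith [abs_nonneg (lineVar j f (u k) y), hMb y]
    have h2 : (∫ x in cube (m + 1), g x) +
        ∫ x in cube (m + 1), u k x * divergence (baseField j W) x ≤ c := by
      rw [e, ← integral_add hg hI]
      refine le_trans (integral_mono (hg.add hI)
        (integrableOn_cube (gradLen_measurable _) (gradLen_abs_le hK)) fun x => ?_) (h.grad k)
      rw [Fin.sum_univ_succAbove _ j, gradLen, Fin.sum_univ_succAbove _ j]
      simp only [baseField, splice_same, splice_above, mul_zero, neg_zero, zero_add, g]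
      exact calib_le (hfW x)
    linarith
  have l1 : Tendsto (fun k => ∫ y in cube m, min (lineVar j f (u k) y) (M y)) atTop
      (𝓝 (∫ y in cube m, M y)) := by
    refine tendsto_setIntegral (C := C) (fun k => (main k).2) (fun k y => ?_) ?_
    · have h0 : 0 ≤ lineVar j f (u k) y :=
        integral_nonneg fun z => mul_nonneg (hf0 _) (abs_nonneg _)
      exact abs_le.2 ⟨le_min (by linarith [(abs_nonneg (M y)).trans (hMb y)]) (abs_le.1 (hMb y)).1,
        (min_le_right _ _).trans (abs_le.1 (hMb y)).2⟩
    · filter_upwards [hev] with y hy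
      rw [Metric.tendsto_atTop]
      intro ε hε
      obtain ⟨N, hN⟩ := eventually_atTop.1 (hy (ε / 2) (half_pos hε))
      refine ⟨N, fun k hk => ?_⟩
      have := hN k hk
      rw [Real.dist_eq, abs_sub_comm, abs_of_nonneg (sub_nonneg.2 (min_le_right _ _))]
      have := le_min (show M y - ε / 2 ≤ lineVar j f (u k) y from this) (show M y - ε / 2 ≤ M y by linarith)
      linarith
  have l2 : Tendsto (fun k => ∫ x in cube (m + 1), u k x * divergence (baseField j W) x) atTop
      (𝓝 (∫ x in cube (m + 1), E.indicator (fun _ => 1) x * divergence (baseField j W) x)) := by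
    refine tendsto_setIntegral (C := 1 * D) (fun k => (h.smooth k).continuous.measurable.mul
      (divergence_measurable _)) (fun k x => ?_) ?_
    · rw [abs_mul]
      exact mul_le_mul (abs_le.2 ⟨by linarith [(h.mem k x).1], (h.mem k x).2⟩) (hD x) (abs_nonneg _)
        zero_le_one
    · filter_upwards [h.lim] with x hx
      exact hx.mul_const _
  exact le_of_tendsto' (l1.add l2) fun k => (main k).1

end

end Vale.Agent.P232
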