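import Vale.Agent.P232.Full.Upper

/-!
# P232: the models

Balls, tubes about a coordinate geodesic and slabs between parallel coordinate tori, centred at the
origin, are the sublevel sets of `radial I` for three, two or one coordinates.
-/

namespace Vale.Agent.P232

open MeasureTheory Set Real

noncomputable section

/-- Ball, tube or slab, centred at the origin. -/
def model (I : Finset (Fin 3)) (r : ℝ) : Set (Fin 3 → ℝ) := {x | radial I x < r}

/-- The model of volume `v` whose area is the conjectured profile. -/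
def IsModel (v : ℝ) (I : Finset (Fin 3)) (r : ℝ) : Prop :=
  0 < r ∧ r < 1 / 2 ∧
    ((I.card = 3 ∧ v = 4 * π / 3 * r ^ 3 ∧ ballTubeSlab v = 4 * π * r ^ 2) ∨
      (I.card = 2 ∧ v = π * r ^ 2 ∧ ballTubeSlab v = 2 * π * r) ∨
      (I.card = 1 ∧ v = 2 * r ∧ ballTubeSlab v = 2))

theorem mem_model_iff {I : Finset (Fin 3)} {x : Fin 3 → ℝ} (hx : x ∈ cube 3) {r : ℝ} (hr : 0 ≤ r) :
    x ∈ model I r ↔ ∑ i ∈ I, x i ^ 2 < r ^ 2 := radial_lt_iff hx hr

theorem periodic_model (I : Finset (Fin 3)) (r : ℝ) : Periodic fun x => x ∈ model I r :=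
  (radial_periodic I).comp_left fun t => t < r

end

end Vale.Agent.P232
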