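import Vale.Agent.P232.Full.Min.LineRigidity
import Vale.Agent.P232.Full.Min.Model

/-!
# P232: the lines of the models and their calibrations

The lines of direction `j ∈ I` of `model I r` have length `2 √(r² - q)`, `q` the sum of the squares of the
other coordinates of `I`, and this profile is calibrated by the radial fields `y / R`, `R ↓ r`. The sharp
value is `#I v / r`, the area of the model.
-/

namespace Vale.Agent.P232

open MeasureTheory Set Function Filter Topology Real

noncomputable section

variable {j : Fin 3} {I : Finset (Fin 3)} {r : ℝ}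

/-- The coordinates of `I` other than `j`. -/
def baseSet (j : Fin 3) (I : Finset (Fin 3)) : Finset (Fin 2) :=
  Finset.univ.filter fun k => j.succAbove k ∈ I

/-- The square of the distance to the axis. -/
def sqDist (S : Finset (Fin 2)) (y : Fin 2 → ℝ) : ℝ := ∑ k ∈ S, y k ^ 2

theorem sqDist_nonneg (S : Finset (Fin 2)) (y : Fin 2 → ℝ) : 0 ≤ sqDist S y :=
  Finset.sum_nonneg fun _ _ => sq_nonneg _

theorem continuous_sqDist (S : Finset (Fin 2)) : Continuous (sqDist S) := by unfold sqDist; fun_prop

theorem sum_splice (j : Fin 3) (I : Finset (Fin 3)) (z : ℝ) (y : Fin 2 → ℝ) :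
    ∑ i ∈ I, splice j z y i ^ 2 = (if j ∈ I then z ^ 2 else 0) + sqDist (baseSet j I) y := by
  rw [sqDist, baseSet, Finset.sum_filter, ← Finset.sum_ite_mem_eq I, Fin.sum_univ_succAbove _ j]
  simp [splice_same, splice_above]

theorem card_baseSet (h : j ∈ I) : I.card = (baseSet j I).card + 1 := by
  have e : I.card = ∑ i, if i ∈ I then 1 else 0 := by simp
  rw [e, Fin.sum_univ_succAbove _ j, if_pos h, baseSet, Finset.card_filter]
  ring

theorem splice_mem_cube {z : ℝ} {y : Fin 2 → ℝ} (hz : z ∈ period) (hy : y ∈ cube 2) :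
    splice j z y ∈ cube 3 := fun i _ => by
  refine j.succAboveCases ?_ (fun k => ?_) i
  · rw [splice_same]; exact hz
  · rw [splice_above]; exact hy k (mem_univ k)

/-- The open cube of the base. -/
def openSquare : Set (Fin 2 → ℝ) := Set.pi univ fun _ => Ioo (-(1 / 2) : ℝ) (1 / 2)

theorem openSquare_ae : ∀ᵐ y ∂volume.restrict (cube 2), y ∈ openSquare := by
  have : ∀ᵐ y ∂volume.restrict (cube 2), ∀ k : Fin 2, y k ∈ Ioo (-(1 / 2) : ℝ) (1 / 2) := by
    refine ae_all_iff.2 fun k => ?_
    filter_upwards [ae_restrict_mem cube_measurable, ae_restrict_of_ae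
      ((Measure.quasiMeasurePreserving_eval (fun _ : Fin 2 => (volume : Measure ℝ)) k).ae
        (Measure.ae_ne volume (1 / 2 : ℝ)))] with y hy hy'
    exact ⟨(hy k (mem_univ k)).1, lt_of_le_of_ne (hy k (mem_univ k)).2 hy'⟩
  exact this.mono fun y hy k _ => hy k

/-- The region over which the lines meet the model. -/
def shadow (S : Finset (Fin 2)) (r : ℝ) : Set (Fin 2 → ℝ) := openSquare ∩ {y | sqDist S y < r ^ 2}

/-- The length of the lines over the shadow. -/
def chord (S : Finset (Fin 2)) (r : ℝ) (y : Fin 2 → ℝ) : ℝ := 2 * √(r ^ 2 - sqDist S y)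

/-- Lines off the coordinates of the model are empty or full. -/
theorem baseLen_model_of_notMem (hr : 0 ≤ r) (h : j ∉ I) :
    ∀ᵐ y ∂volume.restrict (cube 2), baseLen (model I r) j y = 0 ∨ baseLen (model I r) j y = 1 := by
  filter_upwards [ae_restrict_mem cube_measurable] with y hy
  have key : ∀ z ∈ period, splice j z y ∈ model I r ↔ sqDist (baseSet j I) y < r ^ 2 := fun z hz => by
    rw [mem_model_iff (splice_mem_cube hz hy) hr, sum_splice, if_neg h, zero_add]
  by_cases hq : sqDist (baseSet j I) y < r ^ 2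
  · right
    rw [baseLen, setIntegral_congr_fun period_measurable (g := fun _ => (1 : ℝ))
      fun z hz => indicator_of_mem ((key z hz).2 hq) _]
    simp
  · left
    rw [baseLen, setIntegral_congr_fun period_measurable (g := fun _ => (0 : ℝ))
      fun z hz => indicator_of_notMem (fun hh => hq ((key z hz).1 hh)) _]
    simp

theorem baseLen_model (hr : 0 ≤ r) (hr' : r ≤ 1 / 2) (h : j ∈ I) :
    ∀ᵐ y ∂volume.restrict (cube 2),
      baseLen (model I r) j y = (shadow (baseSet j I) r).indicator (chord (baseSet j I) r) y := by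
  filter_upwards [ae_restrict_mem cube_measurable, openSquare_ae] with y hy hyo
  set q := sqDist (baseSet j I) y
  have hq0 : 0 ≤ q := sqDist_nonneg _ _
  have key : ∀ z ∈ period, (model I r).indicator (fun _ => (1 : ℝ)) (splice j z y)
      = (Ioo (-√(r ^ 2 - q)) √(r ^ 2 - q)).indicator (fun _ => 1) z := fun z hz => by
    have hm : splice j z y ∈ model I r ↔ z ∈ Ioo (-√(r ^ 2 - q)) √(r ^ 2 - q) := by
      rw [mem_model_iff (splice_mem_cube hz hy) hr, sum_splice, if_pos h, mem_Ioo, ← sq_lt]
      constructor <;> intro hh <;> simp only [q] at * <;> linarith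
    by_cases hzm : z ∈ Ioo (-√(r ^ 2 - q)) √(r ^ 2 - q)
    · rw [indicator_of_mem hzm, indicator_of_mem (hm.2 hzm)]
    · rw [indicator_of_notMem hzm, indicator_of_notMem fun hh => hzm (hm.1 hh)]
  have hs : √(r ^ 2 - q) ≤ 1 / 2 :=
    ((Real.sqrt_le_sqrt (sub_le_self _ hq0)).trans_eq (Real.sqrt_sq hr)).trans hr'
  rw [baseLen, setIntegral_congr_fun period_measurable key, setIntegral_indicator measurableSet_Ioo,
    inter_eq_right.2 (show Ioo (-√(r ^ 2 - q)) √(r ^ 2 - q) ⊆ period from fun z hz =>
      ⟨by linarith [hz.1], by linarith [hz.2]⟩),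
    setIntegral_const, smul_eq_mul, mul_one,
    Real.volume_real_Ioo_of_le (by linarith [Real.sqrt_nonneg (r ^ 2 - q)])]
  by_cases hlt : q < r ^ 2
  · rw [indicator_of_mem (show y ∈ shadow (baseSet j I) r from ⟨hyo, hlt⟩), chord]
    simp only [q]
    ring
  · rw [indicator_of_notMem (show y ∉ shadow (baseSet j I) r from fun hh => hlt hh.2),
      Real.sqrt_eq_zero_of_nonpos (by linarith)]
    ring

/-- A periodic `C¹` extension of the identity of `[-r, r]`. -/
theorem exists_periodic_id {r : ℝ} (hr : 0 ≤ r) (hr' : r < 1 / 2) :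
    ∃ P : ℝ → ℝ, ContDiff ℝ 1 P ∧ Function.Periodic P 1 ∧ ∀ s, |s| ≤ r → P s = s := by
  obtain ⟨σ, hσ, hσ'⟩ := exists_between hr'
  set w : (Fin 1 → ℝ) → ℝ :=
    fun v => v 0 * Real.smoothTransition ((σ ^ 2 - v 0 ^ 2) / (σ ^ 2 - r ^ 2))
  have hd : 0 < σ ^ 2 - r ^ 2 := by nlinarith
  have hw : ContDiff ℝ 1 w := (contDiff_apply ℝ ℝ 0).mul
    (Real.smoothTransition.contDiff.comp
      ((contDiff_const.sub ((contDiff_apply ℝ ℝ 0).pow 2)).div_const _))
  have hext : ContDiff ℝ 1 (periodExt w) := contDiff_periodExt hw hσ' fun v i hi => by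
    rw [Subsingleton.elim i 0] at hi
    simp only [w]
    rw [Real.smoothTransition.zero_of_nonpos
      (div_nonpos_of_nonpos_of_nonneg (by nlinarith [sq_abs (v 0), abs_nonneg (v 0)]) hd.le), mul_zero]
  refine ⟨fun s => periodExt w fun _ => s, hext.comp (contDiff_pi.2 fun _ => contDiff_id), fun s => ?_,
    fun s hs => ?_⟩
  · have e : (fun _ : Fin 1 => s + 1) = (fun _ : Fin 1 => s) + Pi.single 0 1 :=
      funext fun i => by rw [Subsingleton.elim i 0]; simp
    show periodExt w (fun _ => s + 1) = periodExt w fun _ => s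
    rw [e, periodExt_periodic w 0]
  · have hmem : (fun _ : Fin 1 => s) ∈ cube 1 := fun i _ =>
      ⟨by linarith [(abs_le.1 hs).1], by linarith [(abs_le.1 hs).2]⟩
    show periodExt w (fun _ => s) = s
    rw [periodExt_eq w hmem]
    simp only [w]
    rw [Real.smoothTransition.one_of_one_le
      ((one_le_div hd).2 (by nlinarith [sq_abs s, abs_nonneg s])), mul_one]

/-- The radial field of radius `R`, periodic. -/
def radField (S : Finset (Fin 2)) (P : ℝ → ℝ) (r R : ℝ) (y : Fin 2 → ℝ) (k : Fin 2) : ℝ :=
  if k ∈ S then P (y k) / R *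
    Real.smoothTransition ((R ^ 2 - ∑ l ∈ S, P (y l) ^ 2) / (R ^ 2 - r ^ 2)) else 0

theorem testField_radField {S : Finset (Fin 2)} {P : ℝ → ℝ} (hP : ContDiff ℝ 1 P)
    (hPp : Function.Periodic P 1) {r R : ℝ} (hr : 0 ≤ r) (hR : r < R) :
    TestField (radField S P r R) := by
  have hd : 0 < R ^ 2 - r ^ 2 := by nlinarith
  have hR0 : 0 < R := hr.trans_lt hR
  refine ⟨contDiff_pi.2 fun k => ?_, fun i y => funext fun k => ?_, fun y => ?_⟩
  · simp only [radField]
    split_ifs
    · exact ((hP.comp (contDiff_apply ℝ ℝ k)).div_const R).mul (Real.smoothTransition.contDiff.comp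
        ((contDiff_const.sub (ContDiff.sum fun l _ => (hP.comp (contDiff_apply ℝ ℝ l)).pow 2)).div_const _))
    · exact contDiff_const
  · have e : ∀ l, P (y l + (Pi.single i (1 : ℝ) : Fin 2 → ℝ) l) = P (y l) := fun l => by
      rcases eq_or_ne l i with rfl | h
      · rw [Pi.single_eq_same, hPp]
      · rw [Pi.single_eq_of_ne h, add_zero]
    simp only [radField, Pi.add_apply, e]
  · set q := ∑ l ∈ S, P (y l) ^ 2
    set T := Real.smoothTransition ((R ^ 2 - q) / (R ^ 2 - r ^ 2))
    have e : ∑ k, radField S P r R y k ^ 2 = q / R ^ 2 * T ^ 2 := by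
      simp only [radField, ite_pow, zero_pow two_ne_zero, Finset.sum_ite_mem, Finset.univ_inter, mul_pow,
        div_pow, ← Finset.sum_mul, ← Finset.sum_div, q, T]
    rw [e]
    rcases le_or_gt q (R ^ 2) with h | h
    · exact mul_le_one₀ ((div_le_one (by positivity)).2 h) (sq_nonneg _) (pow_le_one₀
        (Real.smoothTransition.nonneg _) (Real.smoothTransition.le_one _))
    · simp only [T, Real.smoothTransition.zero_of_nonpos
        (div_nonpos_of_nonpos_of_nonneg (by linarith : R ^ 2 - q ≤ 0) hd.le)]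
      simp

theorem abs_le_of_sqDist {S : Finset (Fin 2)} {y : Fin 2 → ℝ} {r : ℝ} (hr : 0 ≤ r)
    (h : sqDist S y < r ^ 2) {k : Fin 2} (hk : k ∈ S) : |y k| ≤ r :=
  abs_le_of_sq_le_sq ((Finset.single_le_sum (f := fun l => y l ^ 2) (fun _ _ => sq_nonneg _) hk).trans h.le) hr

theorem radField_eq {S : Finset (Fin 2)} {P : ℝ → ℝ} {r R : ℝ} (hr : 0 ≤ r) (hR : r < R)
    (hP : ∀ s, |s| ≤ r → P s = s) {y : Fin 2 → ℝ} (hy : sqDist S y < r ^ 2) (k : Fin 2) :
    radField S P r R y k = if k ∈ S then y k / R else 0 := by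
  have e : ∑ l ∈ S, P (y l) ^ 2 = sqDist S y :=
    Finset.sum_congr rfl fun l hl => by rw [hP _ (abs_le_of_sqDist hr hy hl)]
  simp only [radField, e]
  split_ifs with hk
  · rw [hP _ (abs_le_of_sqDist hr hy hk), Real.smoothTransition.one_of_one_le
      ((one_le_div (by nlinarith)).2 (by linarith)), mul_one]
  · rfl

theorem sum_radial (S : Finset (Fin 2)) (y : Fin 2 → ℝ) (R : ℝ) :
    ∑ k, (if k ∈ S then y k / R else 0) ^ 2 = sqDist S y / R ^ 2 := by
  simp only [ite_pow, zero_pow two_ne_zero, Finset.sum_ite_mem, Finset.univ_inter, div_pow,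
    ← Finset.sum_div, sqDist]

theorem isOpen_shadow (S : Finset (Fin 2)) (r : ℝ) : IsOpen (shadow S r) :=
  (isOpen_set_pi finite_univ fun _ _ => isOpen_Ioo).inter (isOpen_lt (continuous_sqDist S) continuous_const)

theorem convex_shadow (S : Finset (Fin 2)) (r : ℝ) : Convex ℝ (shadow S r) := by
  refine (convex_pi fun _ _ => convex_Ioo _ _).inter fun x hx y hy a b ha hb hab => ?_
  simp only [mem_ofPred_eq, sqDist] at hx hy ⊢
  refine lt_of_le_of_lt (Finset.sum_le_sum (g := fun k => a * x k ^ 2 + b * y k ^ 2) fun k _ => ?_) ?_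
  · simp only [Pi.add_apply, Pi.smul_apply, smul_eq_mul]
    have hb' : b = 1 - a := by linarith
    subst hb'
    nlinarith [mul_nonneg (mul_nonneg ha hb) (sq_nonneg (x k - y k))]
  · rw [Finset.sum_add_distrib, ← Finset.mul_sum, ← Finset.mul_sum]
    have hb' : b = 1 - a := by linarith
    subst hb'
    rcases ha.eq_or_lt with rfl | ha'
    · simpa using hy
    · nlinarith [mul_lt_mul_of_pos_left hx ha', mul_le_mul_of_nonneg_left hy.le hb]

/-- The radial calibration of a chord profile. -/
theorem calibrated_shadow (S : Finset (Fin 2)) (hr : 0 < r) (hr' : r < 1 / 2) :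
    ∃ b, Calibrated (shadow S r) (chord S r) (fun y k => if k ∈ S then y k / r else 0) b
      ((S.card + 1) * (∫ y in shadow S r, chord S r y) / r) := by
  obtain ⟨P, hP, hPp, hPid⟩ := exists_periodic_id hr.le hr'
  set R : ℕ → ℝ := fun n => r + 1 / (n + 1)
  have hR : ∀ n, r < R n := fun n => lt_add_of_pos_right r (by positivity)
  have hR0 : ∀ n, 0 < R n := fun n => hr.trans (hR n)
  have hRlim : Tendsto R atTop (𝓝 r) := by
    simpa [R] using (tendsto_one_div_add_atTop_nhds_zero_nat (𝕜 := ℝ)).const_add r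
  set U := shadow S r
  have hUc : U ⊆ cube 2 := fun y hy k _ => Ioo_subset_Ioc_self (hy.1 k (mem_univ k))
  have hpos : ∀ y ∈ U, 0 < r ^ 2 - sqDist S y := fun y hy => sub_pos.2 hy.2
  set b : ℕ → (Fin 2 → ℝ) → Fin 2 → ℝ := fun n => radField S P r (R n)
  have hb : ∀ n, ∀ y ∈ U, ∀ k, b n y k = if k ∈ S then y k / R n else 0 := fun n y hy k =>
    radField_eq hr.le (hR n) hPid hy.2 k
  refine ⟨b, isOpen_shadow S r, convex_shadow S r, fun y hy k => abs_lt.2 (hy.1 k (mem_univ k)),
    fun y hy => ?_, fun y hy => ?_, fun y hy k => ?_, ?_, fun y hy => ?_,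
    fun n => testField_radField hP hPp hr.le (hR n), fun n y hy => ?_, fun y hy => ?_, ?_⟩
  · exact contDiffAt_const.mul ((contDiffAt_const.sub
      ((ContDiff.sum fun k _ => (contDiff_apply ℝ ℝ k).pow 2).contDiffAt)).sqrt (hpos y hy).ne')
  · refine ⟨mul_pos two_pos (Real.sqrt_pos.2 (hpos y hy)), ?_⟩
    have : √(r ^ 2 - sqDist S y) ≤ r :=
      (Real.sqrt_le_sqrt (sub_le_self _ (sqDist_nonneg S y))).trans_eq (Real.sqrt_sq hr.le)
    simp only [chord]
    linarith
  · have hq : HasFDerivAt (sqDist S) (∑ l ∈ S, (2 * y l) • (ContinuousLinearMap.proj l : (Fin 2 → ℝ) →L[ℝ] ℝ)) y := by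
      refine HasFDerivAt.fun_sum fun l _ => ?_
      simpa using (hasFDerivAt_apply (𝕜 := ℝ) (F' := fun _ : Fin 2 => ℝ) l y).pow 2
    rw [show chord S r = fun z => 2 * √(r ^ 2 - sqDist S z) from rfl,
      ((hq.const_sub (r ^ 2)).sqrt (hpos y hy).ne' |>.const_mul 2).fderiv]
    have hh : height (fun l => if l ∈ S then y l / r else 0) = √(r ^ 2 - sqDist S y) / r := by
      rw [height, sum_radial, one_sub_div (by positivity), Real.sqrt_div' _ (sq_nonneg r), Real.sqrt_sq hr.le]
    rw [hh]
    have hsum : (∑ l ∈ S, (2 * y l) • (ContinuousLinearMap.proj l : (Fin 2 → ℝ) →L[ℝ] ℝ)) (Pi.single k 1)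
        = if k ∈ S then 2 * y k else 0 := by
      simp [Pi.single_apply]
    simp only [smul_apply, neg_apply, smul_eq_mul, hsum]
    have := Real.sqrt_pos.2 (hpos y hy)
    split_ifs <;> field_simp <;> ring
  · refine (continuous_pi fun k => ?_).continuousOn
    split_ifs <;> fun_prop
  · rw [sum_radial, div_lt_one (by positivity)]
    exact hy.2
  · simp only [hb n y hy, sum_radial]
    exact div_le_div_of_nonneg_left (sqDist_nonneg S y) (by positivity)
      (pow_le_pow_left₀ hr.le (hR n).le 2)
  · refine tendsto_pi_nhds.2 fun k => ?_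
    simp only [hb _ y hy k]
    split_ifs
    · exact tendsto_const_nhds.div hRlim hr.ne'
    · exact tendsto_const_nhds
  · have hdiv : ∀ n, ∀ y ∈ U, divergence (b n) y = S.card / R n := fun n y hy => by
      have he : ∀ k, (fun z => b n z k) =ᶠ[𝓝 y] fun z => if k ∈ S then z k / R n else 0 := fun k =>
        Filter.eventually_of_mem ((isOpen_shadow S r).mem_nhds hy) fun z hz => hb n z hz k
      simp only [divergence, (he _).fderiv_eq]
      have hk : ∀ k, fderiv ℝ (fun z : Fin 2 → ℝ => if k ∈ S then z k / R n else 0) y (Pi.single k 1)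
          = if k ∈ S then 1 / R n else 0 := fun k => by
        by_cases hk : k ∈ S
        · simp only [if_pos hk]
          have h1 : HasFDerivAt (fun z : Fin 2 → ℝ => z k / R n)
              ((R n)⁻¹ • (ContinuousLinearMap.proj k : (Fin 2 → ℝ) →L[ℝ] ℝ)) y :=
            ((hasFDerivAt_apply (𝕜 := ℝ) (F' := fun _ : Fin 2 => ℝ) k y).const_mul (R n)⁻¹).congr_of_eventuallyEq
              (.of_forall fun z => div_eq_inv_mul (z k) (R n))
          rw [h1.fderiv]
          simp
        · simp only [if_neg hk, fderiv_fun_const]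
          rfl
      simp only [hk, Finset.sum_ite_mem, Finset.univ_inter, Finset.sum_const, nsmul_eq_mul]
      ring
    have hterm : ∀ n, ∫ y in cube 2, divergence (b n) y * U.indicator (chord S r) y
        = (S.card / R n) * ∫ y in U, chord S r y := fun n => by
      rw [← integral_const_mul,
        show (fun y => divergence (b n) y * U.indicator (chord S r) y)
          = U.indicator fun y => divergence (b n) y * chord S r y from funext fun y => by
          by_cases hy : y ∈ U <;> simp [hy],
        setIntegral_indicator (isOpen_shadow S r).measurableSet, inter_eq_right.2 hUc]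
      exact setIntegral_congr_fun (isOpen_shadow S r).measurableSet fun y hy => by simp only [hdiv n y hy]
    have : IsFiniteMeasure (volume.restrict U) :=
      isFiniteMeasure_restrict.2 (measure_ne_top_of_subset hUc cube_finite)
    have hA : Tendsto (fun n => ∫ y in U, height (b n y)) atTop (𝓝 (∫ y in U, chord S r y / (2 * r))) := by
      refine tendsto_integral_of_dominated_convergence (fun _ => 1)
        (fun n => (continuous_height.comp
          (testField_radField hP hPp hr.le (hR n)).contDiff.continuous).aestronglyMeasurable)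
        (integrable_const _) (fun n => .of_forall fun y => by
          rw [Real.norm_eq_abs, abs_of_nonneg (height_nonneg _)]; exact height_le_one _) ?_
      filter_upwards [ae_restrict_mem (isOpen_shadow S r).measurableSet] with y hy
      have e : ∀ n, height (b n y) = √(1 - sqDist S y / R n ^ 2) := fun n => by
        simp only [height, hb n y hy, sum_radial]
      have e2 : chord S r y / (2 * r) = √(1 - sqDist S y / r ^ 2) := by
        rw [chord, one_sub_div (by positivity), Real.sqrt_div' _ (sq_nonneg r), Real.sqrt_sq hr.le]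
        field_simp
      simp only [e, e2]
      exact ((tendsto_const_nhds.div (hRlim.pow 2) (by positivity)).const_sub 1).sqrt
    simp only [hterm]
    have hB := ((tendsto_const_nhds (x := (S.card : ℝ))).div hRlim hr.ne').mul_const (∫ y in U, chord S r y)
    refine ((hA.const_mul 2).add hB).trans_eq (congrArg 𝓝 ?_)
    rw [integral_div]
    field_simp
    ring

end

end Vale.Agent.P232
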