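import Vale.Agent.P232.Full.Core
import Vale.Agent.P232.Full.Cases
import Vale.Agent.P232.Full.LemmaA
import Vale.Agent.P232.Full.Min.Chain
import Vale.Agent.P232.Full.Min.Disc

/-!
# P232: slices of a symmetric decreasing minimiser, tools

The data of the slices of one axis, least-length slices of small area, and the passage between a set and
its slices.
-/

namespace Vale.Agent.P232

open MeasureTheory Set Function Filter Topology Real
open LemmaA (areaDisc discLen_le_line lenA_of_le)

noncomputable section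

variable {m : ℕ}

/-- The sum of the squares of the coordinates other than `i`. -/
def offSq (i : Fin (m + 1)) (x : Fin (m + 1) → ℝ) : ℝ := ∑ k ∈ Finset.univ.erase i, x k ^ 2

theorem offSq_add (i : Fin (m + 1)) (x : Fin (m + 1) → ℝ) : offSq i x + x i ^ 2 = ∑ k, x k ^ 2 := by
  rw [offSq, Finset.sum_erase_add _ _ (Finset.mem_univ i)]

theorem offSq_splice (i : Fin 3) (z : ℝ) (y : Fin 2 → ℝ) :
    offSq i (splice i z y) = y 0 ^ 2 + y 1 ^ 2 := by
  have h := offSq_add i (splice i z y)
  rw [Fin.sum_univ_succAbove _ i, Fin.sum_univ_two, splice_same, splice_above, splice_above] at h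
  linarith

theorem offSq_succAbove (i : Fin 3) (z : ℝ) (y : Fin 2 → ℝ) :
    offSq (i.succAbove 0) (splice i z y) = z ^ 2 + y 1 ^ 2 := by
  have h := offSq_add (i.succAbove 0) (splice i z y)
  rw [Fin.sum_univ_succAbove _ i, Fin.sum_univ_two, splice_same, splice_above, splice_above] at h
  linarith

theorem sq_le_offSq {i n : Fin (m + 1)} (hn : n ≠ i) (x : Fin (m + 1) → ℝ) : x n ^ 2 ≤ offSq i x :=
  Finset.single_le_sum (f := fun k => x k ^ 2) (fun _ _ => sq_nonneg _)
    (Finset.mem_erase.2 ⟨hn, Finset.mem_univ n⟩)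

/-- An almost sure property of the cube fails on no nonempty open subset. -/
theorem absurd_of_open {n : ℕ} {P : (Fin n → ℝ) → Prop} (h : ∀ᵐ x ∂volume.restrict (cube n), P x)
    {O : Set (Fin n → ℝ)} (hO : IsOpen O) (hne : O.Nonempty) (hOc : O ⊆ cube n)
    (hP : ∀ x ∈ O, ¬ P x) : False := by
  refine (hO.measure_pos volume hne).ne' (measure_mono_null ?_
    (ae_iff.1 ((ae_restrict_iff' cube_measurable).1 h)))
  exact fun x hx hh => hP x hx (hh (hOc hx))

/-- From the slices to the set. -/
theorem iff_of_slices {E F : Set (Fin (m + 1) → ℝ)} (hE : MeasurableSet E) (hF : MeasurableSet F)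
    {i : Fin (m + 1)} (h : ∀ᵐ z ∂volume.restrict period, ∀ᵐ y ∂volume.restrict (cube m),
      (splice i z y ∈ E ↔ splice i z y ∈ F)) :
    ∀ᵐ x ∂volume.restrict (cube (m + 1)), x ∈ E ↔ x ∈ F := by
  have hq := splice_preserving i
  have hset : MeasurableSet {x | x ∈ E ↔ x ∈ F} := by
    have : {x | x ∈ E ↔ x ∈ F} = (E ∩ F) ∪ (Eᶜ ∩ Fᶜ) := by ext x; simp; tauto
    rw [this]
    exact (hE.inter hF).union (hE.compl.inter hF.compl)
  rw [← hq.map_eq]
  exact (ae_map_iff hq.measurable.aemeasurable hset).2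
    ((Measure.ae_prod_iff_ae_ae (hq.measurable hset)).2 h)

/-- From the set to the slices. -/
theorem slices_of_ae {P : (Fin (m + 1) → ℝ) → Prop} (i : Fin (m + 1))
    (h : ∀ᵐ x ∂volume.restrict (cube (m + 1)), P x) :
    ∀ᵐ z ∂volume.restrict period, ∀ᵐ y ∂volume.restrict (cube m), P (splice i z y) :=
  Measure.ae_ae_of_ae_prod ((splice_preserving i).quasiMeasurePreserving.ae h)

theorem indicator_congr_ae {α : Type*} [MeasurableSpace α] {μ : Measure α} {A B : Set α}
    (h : ∀ᵐ x ∂μ, x ∈ A ↔ x ∈ B) :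
    ∀ᵐ x ∂μ, A.indicator (fun _ => (1 : ℝ)) x = B.indicator (fun _ => 1) x :=
  h.mono fun x hx => by by_cases hA : x ∈ A <;> simp [hA, hx.symm]

theorem ae_notMem_of_area_zero {S : Set (Fin 2 → ℝ)} (hS : MeasurableSet S) (h : area S = 0) :
    ∀ᵐ y ∂volume.restrict (cube 2), y ∉ S :=
  ((integral_eq_zero_iff_of_nonneg_ae (.of_forall fun y => (indicator_mem S y).1)
    (integrableOn_cube (measurable_const.indicator hS) (C := 1) fun x => by
      by_cases hx : x ∈ S <;> simp [hx])).1 h).mono fun y hy hm => by simp [indicator_of_mem hm] at hy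

theorem ae_mem_of_area_one {S : Set (Fin 2 → ℝ)} (hS : MeasurableSet S) (h : area S = 1) :
    ∀ᵐ y ∂volume.restrict (cube 2), y ∈ S := by
  have hi : IntegrableOn (S.indicator fun _ => (1 : ℝ)) (cube 2) :=
    integrableOn_cube (measurable_const.indicator hS) (C := 1) fun x => by by_cases hx : x ∈ S <;> simp [hx]
  have : IsFiniteMeasure (volume.restrict (cube 2)) := isFiniteMeasure_restrict.2 cube_finite
  have h0 : area Sᶜ = 0 := by
    have e : (fun y => Sᶜ.indicator (fun _ => (1 : ℝ)) y) = fun y => 1 - S.indicator (fun _ => 1) y :=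
      funext fun y => by by_cases hy : y ∈ S <;> simp [hy]
    rw [area, e, integral_sub (integrable_const _) hi]
    rw [area] at h
    simp [h, measureReal_def]
  exact (ae_notMem_of_area_zero hS.compl h0).mono fun y hy => not_not.1 hy

theorem discLen_lt_line {A : ℝ} (hA : 0 ≤ A) (hA' : A ≤ areaDisc) :
    discLen A < (A - 3 / 25) / (13 / 20) + 889 / 500 := by
  rw [areaDisc] at hA'
  have h1 := LemmaA.tube_tangent (show (0 : ℝ) < 29 / 10 by norm_num) hA
  have h2 : π / (29 / 10) ≤ 1083309 / 1000000 := by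
    rw [div_le_iff₀ (by norm_num)]; linarith [pi_lt_d6]
  rw [discLen]
  linarith [show (A - 3 / 25) / (13 / 20) = 20 / 13 * A - 12 / 65 by ring]

/-- A slice of least length and small area has no band. -/
theorem traces_zero {S : Set (Fin 2 → ℝ)} {c : ℝ} (h : PlanarSet S c)
    (hT : ∀ k l : Fin 2, k ≠ l → trace S k ≤ 2 * kappa ∨ 0 < trace S l) (hA : area S ≤ areaDisc)
    (hc : c ≤ discLen (area S)) : ∀ k, trace S k = 0 := by
  have hA0 : 0 ≤ area S := (area_mem h.meas).1
  rcases trace_cases S with h0 | ⟨k, l, hkl, hk, hl⟩ | h2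
  · exact h0
  · have hs := (stripe_le h hkl hk hl (R := 13 / 20) (by norm_num)).2
    have hb := arc_integral_ge (R := 13 / 20) le_rfl
    norm_num at hb
    have htr : trace S k ≤ 3 / 25 := by
      have := (hT k l hkl).resolve_right (by rw [hl]; exact lt_irrefl 0)
      rw [kappa] at this; linarith
    have h3 : (area S - 3 / 25) / (13 / 20) ≤ (area S - trace S k) / (13 / 20) := by gcongr
    linarith [discLen_lt_line hA0 hA]
  · have h1 := (stadLen_le h (k := 0) (l := 1) (by decide) (h2 0) (W := 0) (by linarith [h2 1]) (h2 1)).2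
    have h3 : discLen (area S) < discLen (1 - area S) := by
      rw [areaDisc] at hA
      unfold discLen
      gcongr
      linarith
    linarith

theorem areaDisc_lt : areaDisc / π < 1 / 4 := by
  rw [areaDisc, div_lt_iff₀ pi_pos]; linarith [pi_gt_d6]

/-- A slice of least length and small area is a centred disc. -/
theorem slice_disc {S : Set (Fin 2 → ℝ)} {c : ℝ} (h : PlanarSet S c)
    (hT : ∀ k l : Fin 2, k ≠ l → trace S k ≤ 2 * kappa ∨ 0 < trace S l) (hA : area S ≤ areaDisc)
    (hc : 0 < area S → c ≤ discLen (area S)) :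
    ∀ᵐ y ∂volume.restrict (cube 2), y ∈ S ↔ y 0 ^ 2 + y 1 ^ 2 < area S / π := by
  rcases (area_mem h.meas).1.eq_or_lt with h0 | hpos
  · filter_upwards [ae_notMem_of_area_zero h.meas h0.symm] with y hy
    rw [← h0, zero_div]
    exact iff_of_false hy (not_lt.2 (by positivity))
  set r := √(area S / π)
  have hr : 0 < r := Real.sqrt_pos.2 (by positivity)
  have hr2 : r ^ 2 = area S / π := Real.sq_sqrt (by positivity)
  have hr' : r < 1 / 2 := by
    rw [Real.sqrt_lt' (by norm_num)]
    have := areaDisc_lt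
    have : area S / π ≤ areaDisc / π := by gcongr
    linarith
  have hA' : area S = π * r ^ 2 := by rw [hr2]; field_simp
  have hc' : c ≤ 2 * π * r := by
    refine (hc hpos).trans (le_of_eq ?_)
    rw [discLen, hA', show π * (π * r ^ 2) = (π * r) ^ 2 by ring, Real.sqrt_sq (by positivity)]
    ring
  have hprof := lineLen_disc h (traces_zero h hT hA (hc hpos)) hr hr' hA' hc'
  have hF : MeasurableSet {y : Fin 2 → ℝ | y 0 ^ 2 + y 1 ^ 2 < area S / π} :=
    (isOpen_lt (by fun_prop) continuous_const).measurableSet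
  refine iff_of_slices (i := 0) h.meas hF ?_
  filter_upwards [hprof, period_ae_interior] with x hx _
  have hne : ∀ t : ℝ, ∀ᵐ y ∂volume.restrict (cube 1), y 0 ≠ t := fun t => ae_restrict_of_ae
    ((Measure.quasiMeasurePreserving_eval (fun _ : Fin 1 => (volume : Measure ℝ)) 0).ae
      (Measure.ae_ne volume t))
  filter_upwards [hne (√(r ^ 2 - x ^ 2)), hne (-√(r ^ 2 - x ^ 2)), hne (1 / 2),
    ae_restrict_mem cube_measurable] with y h1 h2 h3 hy
  have hy0 := hy 0 (mem_univ _)
  have hs : |y 0| < 1 / 2 := abs_lt.2 ⟨hy0.1, lt_of_le_of_ne hy0.2 h3⟩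
  have ey : y = fun _ => y 0 := funext fun k => by rw [Subsingleton.elim k 0]
  obtain ⟨g1, g2⟩ := line_iff h 0 x hs
  rw [hx, ← ey] at g1 g2
  have e : splice 0 x y ∈ {y : Fin 2 → ℝ | y 0 ^ 2 + y 1 ^ 2 < area S / π}
      ↔ |y 0| < √(r ^ 2 - x ^ 2) := by
    rw [Real.lt_sqrt (abs_nonneg _), sq_abs, mem_ofPred_eq, ← hr2, splice_same,
      show (1 : Fin 2) = (0 : Fin 2).succAbove 0 from rfl, splice_above]
    constructor <;> intro _ <;> linarith
  refine Iff.trans ?_ e.symm
  refine ⟨fun hm => lt_of_le_of_ne (by linarith [g1 hm]) fun he => ?_,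
    fun hlt => by_contra fun hn => by linarith [g2 hn]⟩
  rcases abs_choice (y 0) with e' | e' <;> rw [e'] at he
  · exact h1 he
  · exact h2 (by linarith)

/-- The lengths `L` and the end areas `a`, `b` of the slices of one axis. -/
structure AxisData (M : Set (Fin 3 → ℝ)) (v : ℝ) (i : Fin 3) (L : ℝ → ℝ) (a b : ℝ) : Prop where
  nonneg : ∀ z, 0 ≤ L z
  meas : Measurable L
  integrable : IntegrableOn L period
  planar : ∀ᵐ z ∂volume.restrict period, PlanarSet (sliceSet M i z) (L z)
  ineq : SliceIneq L (sliceArea M i) (ballTubeSlab v)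
  endLimit : EndLimit (sliceArea M i) a
  tendsto : Tendsto (sliceArea M i) (𝓝[≠] 0) (𝓝 b)
  ha : a ∈ Icc (0 : ℝ) 1
  hb : b ∈ Icc (0 : ℝ) 1
  mem : ∀ z, z ≠ 0 → |z| < 1 / 2 → sliceArea M i z ∈ Icc a b
  total : ∫ z in period, sliceArea M i z = v

variable {M : Set (Fin 3 → ℝ)} {v a b : ℝ} {i : Fin 3} {L : ℝ → ℝ}

theorem exists_axisData (hv : 0 ≤ v) (hM : HasVolume M v) (hs : SymmDecr (M.indicator fun _ => (1 : ℝ)))
    (hc : TVLE (M.indicator fun _ => (1 : ℝ)) (ballTubeSlab v)) (i : Fin 3) :
    ∃ (L : ℝ → ℝ) (a b : ℝ), AxisData M v i L a b := by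
  obtain ⟨L, hL0, hLm, hLi, hLtv, hI⟩ := exists_slice_bound hM.meas hM.periodic hc i
  have h01 : ∀ z, sliceArea M i z ∈ Icc (0 : ℝ) 1 := sliceArea_mem hM.meas i
  have hmono : ∀ x y, |x| ≤ |y| → |y| ≤ 1 / 2 → sliceArea M i y ≤ sliceArea M i x :=
    sliceArea_antitone hM.meas hs i
  obtain ⟨a, ha, hend, hale⟩ := exists_endLimit h01 hmono
  obtain ⟨b, hb, htend, hble⟩ := exists_limit_zero h01 hmono
  refine ⟨L, a, b, hL0, hLm, hLi, hLtv.mono fun z hz => planarSet_slice hM.meas hM.periodic hs hz, ?_,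
    hend, htend, ha, hb, fun z h0 h1 => ⟨hale z h1, hble z h0 h1.le⟩, ?_⟩
  · rw [funext (sliceArea_eq M i)]
    exact hI
  · rw [integral_sliceArea hM.meas, hM.vol, ENNReal.toReal_ofReal hv]

namespace AxisData

theorem ae_mem (d : AxisData M v i L a b) :
    ∀ᵐ z ∂volume.restrict period, z ≠ 0 ∧ |z| < 1 / 2 ∧ sliceArea M i z ∈ Icc a b := by
  filter_upwards [period_ae_interior, ae_restrict_of_ae (Measure.ae_ne volume (0 : ℝ))] with z h1 h0
  exact ⟨h0, h1, d.mem z h0 h1⟩

theorem integrable_area (hM : MeasurableSet M) (i : Fin 3) :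
    IntegrableOn (sliceArea M i) period :=
  Integrable.of_bound (measurable_sliceArea hM i).aestronglyMeasurable 1 (.of_forall fun z => by
    rw [Real.norm_eq_abs, abs_of_nonneg (sliceArea_mem hM i z).1]; exact (sliceArea_mem hM i z).2)

theorem le_v (d : AxisData M v i L a b) (hM : MeasurableSet M) : a ≤ v ∧ v ≤ b := by
  have hi := integrable_area hM i
  have hp : IsFiniteMeasure (volume.restrict period) := isFiniteMeasure_restrict.2 (by simp [volume_period])
  constructor
  · calc a = ∫ _ in period, a := by simp [measureReal_def]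
      _ ≤ ∫ z in period, sliceArea M i z :=
        integral_mono_ae (integrable_const _) hi (d.ae_mem.mono fun z hz => hz.2.2.1)
      _ = v := d.total
  · calc v = ∫ z in period, sliceArea M i z := d.total.symm
      _ ≤ ∫ _ in period, b :=
        integral_mono_ae hi (integrable_const _) (d.ae_mem.mono fun z hz => hz.2.2.2)
      _ = b := by simp [measureReal_def]

/-- The core inequality with one function of the area. -/
theorem weighted (d : AxisData M v i L a b) (hM : MeasurableSet M)
    (hs : SymmDecr (M.indicator fun _ => (1 : ℝ))) {s : ℝ → ℝ} (hsc : Continuous s)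
    (hs01 : ∀ x, s x ∈ Icc (0 : ℝ) 1) :
    (∫ z in period, √(1 - s (sliceArea M i z) ^ 2) * L z) + 2 * (∫ x in a..b, s x) ≤ ballTubeSlab v := by
  have hmono := sliceArea_antitone hM hs i
  have h := core_weighted d.ineq d.integrable d.meas d.nonneg (measurable_sliceArea hM i)
    (sliceArea_mem hM i) hmono d.endLimit d.tendsto (q := 1 / 4) (m := sliceArea M i (1 / 4))
    (by norm_num) (fun z hz => hmono z (1 / 4) (hz.le.trans (le_abs_self _)) (by norm_num))
    (fun z hz hz' => hmono (1 / 4) z (by rw [abs_of_pos (by norm_num : (0 : ℝ) < 1 / 4)]; exact hz.le) hz')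
    hsc hs01 hsc hs01
  simp only [ite_self] at h
  rwa [intervalIntegral.integral_add_adjacent_intervals (hsc.intervalIntegrable _ _)
    (hsc.intervalIntegrable _ _)] at h

theorem weight_integrable (d : AxisData M v i L a b) (hM : MeasurableSet M) {s : ℝ → ℝ}
    (hsc : Continuous s) :
    IntegrableOn (fun z => √(1 - s (sliceArea M i z) ^ 2) * L z) period :=
  d.integrable.bdd_mul (measurable_const.sub
    ((hsc.measurable.comp (measurable_sliceArea hM i)).pow_const 2)).sqrt.aestronglyMeasurable (c := 1)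
    (.of_forall fun z => by
      rw [Real.norm_eq_abs, abs_of_nonneg (Real.sqrt_nonneg _)]
      exact Real.sqrt_le_one.2 (sub_le_self _ (sq_nonneg _)))

end AxisData

end

end Vale.Agent.P232
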