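import Vale.Agent.P232.Perim.Slice

/-!
# P232: Steiner symmetrisation in one direction

`steiner E j` has on each line of direction `j` the interval about the origin with the length of the line
of `E`. Its total variation is no larger: polarisations in the direction `j` keep the distribution on
each line, and on a line the symmetric decreasing functions with almost the distribution of `E` converge
to the interval.
-/

namespace Vale.Agent.P232

open MeasureTheory Set Function Filter Topology
open scoped NNReal

noncomputable section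

variable {m : ℕ} {j : Fin (m + 1)}

/-- The measure of the line of direction `j` through `y`. -/
def baseLen (E : Set (Fin (m + 1) → ℝ)) (j : Fin (m + 1)) (y : Fin m → ℝ) : ℝ :=
  ∫ z in period, E.indicator (fun _ => (1 : ℝ)) (splice j z y)

/-- The coordinates other than `j`. -/
def baseProj (j : Fin (m + 1)) (x : Fin (m + 1) → ℝ) : Fin m → ℝ := fun k => x (j.succAbove k)

/-- The Steiner symmetrisation in direction `j`. -/
def steiner (E : Set (Fin (m + 1) → ℝ)) (j : Fin (m + 1)) : Set (Fin (m + 1) → ℝ) :=
  {x | Real.cos (Real.pi * baseLen E j (baseProj j x)) < Real.cos (2 * Real.pi * x j)}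

theorem splice_baseProj (x : Fin (m + 1) → ℝ) : splice j (x j) (baseProj j x) = x := by
  funext i
  refine j.succAboveCases ?_ (fun k => ?_) i
  · rw [splice_same]
  · rw [splice_above]; rfl

theorem baseProj_splice (z : ℝ) (y : Fin m → ℝ) : baseProj j (splice j z y) = y :=
  funext fun k => splice_above z y k

theorem baseProj_add_same (x : Fin (m + 1) → ℝ) (t : ℝ) :
    baseProj j (x + Pi.single j t) = baseProj j x := funext fun k => by simp [baseProj]

theorem baseProj_add_above (x : Fin (m + 1) → ℝ) (k : Fin m) (t : ℝ) :
    baseProj j (x + Pi.single (j.succAbove k) t) = baseProj j x + Pi.single k t := funext fun i => by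
  rcases eq_or_ne i k with rfl | h
  · simp [baseProj]
  · simp [baseProj, h, j.succAbove_right_injective.ne h]

theorem continuous_baseProj : Continuous (baseProj j) := continuous_pi fun _ => continuous_apply _

theorem continuous_splice (y : Fin m → ℝ) : Continuous fun z : ℝ => splice j z y := by
  refine continuous_pi fun i => ?_
  refine j.succAboveCases ?_ (fun k => ?_) i
  · simp only [splice_same]; fun_prop
  · simp only [splice_above]; fun_prop

theorem refl_splice (a z : ℝ) (y : Fin m → ℝ) : refl j a (splice j z y) = splice j (2 * a - z) y := by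
  funext i
  refine j.succAboveCases ?_ (fun k => ?_) i
  · rw [refl_apply_self, splice_same, splice_same]
  · rw [refl_apply_ne (Fin.succAbove_ne j k), splice_above, splice_above]

theorem line_periodic {α : Type*} {f : (Fin (m + 1) → ℝ) → α} (hf : Periodic f) (y : Fin m → ℝ) :
    Function.Periodic (fun z : ℝ => f (splice j z y)) 1 := fun z => by
  have e : splice j (z + 1) y = splice j z y + Pi.single j 1 := by
    funext i
    refine j.succAboveCases ?_ (fun k => ?_) i
    · simp [splice_same]
    · simp [splice_above]
  show f (splice j (z + 1) y) = f (splice j z y)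
  rw [e, hf]

theorem integral_period_sub_left {f : ℝ → ℝ} (hf : Function.Periodic f 1) (b : ℝ) :
    ∫ z in period, f (b - z) = ∫ z in period, f z := by
  rw [period, ← intervalIntegral.integral_of_le (by norm_num : -(1 / 2 : ℝ) ≤ 1 / 2),
    intervalIntegral.integral_comp_sub_left, ← intervalIntegral.integral_of_le (by norm_num : -(1 / 2 : ℝ) ≤ 1 / 2)]
  have h := hf.intervalIntegral_add_eq (b - 1 / 2) (-(1 / 2))
  rw [show b - 1 / 2 + 1 = b - -(1 / 2) by ring, show -(1 / 2 : ℝ) + 1 = 1 / 2 by norm_num] at h
  exact h

/-- Polarisation in direction `j` keeps the distribution on every line. -/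
theorem pol_line {a : ℝ} (ha : ∀ k : ℤ, 2 * a ≠ k) {K : ℝ≥0} {u : (Fin (m + 1) → ℝ) → ℝ}
    (hu : LipschitzWith K u) (hp : Periodic u) {g : ℝ → ℝ} (hg : Continuous g) (y : Fin m → ℝ) :
    ∫ z in period, g (pol j a u (splice j z y)) = ∫ z in period, g (u (splice j z y)) := by
  set f := fun z => g (pol j a u (splice j z y))
  set h := fun z => g (u (splice j z y))
  have cf : Continuous f :=
    hg.comp ((pol_lipschitz ha hu hp).continuous.comp (continuous_splice y))
  have ch : Continuous h := hg.comp (hu.continuous.comp (continuous_splice y))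
  have key : ∫ z in period, (f z + f (2 * a - z)) = ∫ z in period, (h z + h (2 * a - z)) := by
    refine integral_congr_ae (.of_forall fun z => ?_)
    rcases pol_pair (j := j) ha hp (splice j z y) with ⟨e1, e2⟩ | ⟨e1, e2⟩ <;>
      simp only [refl_splice] at e1 e2 <;> simp only [f, h, e1, e2]
    exact add_comm _ _
  have int : ∀ {q : ℝ → ℝ}, Continuous q → IntegrableOn q period := fun hq => hq.integrableOn_Ioc
  rw [integral_add (int cf) (int (q := fun z => f (2 * a - z)) (by fun_prop)),
    integral_add (int ch) (int (q := fun z => h (2 * a - z)) (by fun_prop)),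
    integral_period_sub_left (line_periodic ((pol_periodic hp).comp_left g) y),
    integral_period_sub_left (line_periodic (hp.comp_left g) y)] at key
  linarith

/-- Obtained from `u` by finitely many polarisations in direction `j`. -/
inductive AxisIterate (j : Fin (m + 1)) (u : (Fin (m + 1) → ℝ) → ℝ) : ((Fin (m + 1) → ℝ) → ℝ) → Prop
  | base : AxisIterate j u u
  | step {v : (Fin (m + 1) → ℝ) → ℝ} (a : ℝ) (ha : ∀ k : ℤ, 2 * a ≠ k) :
      AxisIterate j u v → AxisIterate j u (pol j a v)

theorem AxisIterate.props {u v : (Fin (m + 1) → ℝ) → ℝ} {K : ℝ≥0} (h : AxisIterate j u v)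
    (hu : LipschitzWith K u) (hp : Periodic u) (h01 : ∀ x, u x ∈ Icc (0 : ℝ) 1) :
    Iterate u v ∧ ∀ g : ℝ → ℝ, Continuous g → ∀ y : Fin m → ℝ,
      ∫ z in period, g (v (splice j z y)) = ∫ z in period, g (u (splice j z y)) := by
  induction h with
  | base => exact ⟨Iterate.base, fun _ _ _ => rfl⟩
  | step a ha _ ih =>
    obtain ⟨h1, h2⟩ := ih
    exact ⟨Iterate.step j a ha h1, fun g hg y =>
      (pol_line ha (h1.props hu hp h01).1 (h1.props hu hp h01).2.1 hg y).trans (h2 g hg y)⟩

/-- Rearrangement in one direction. -/
theorem exists_rearrange_axis {u : (Fin (m + 1) → ℝ) → ℝ} {K : ℝ≥0} (hu : LipschitzWith K u)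
    (hp : Periodic u) (h01 : ∀ x, u x ∈ Icc (0 : ℝ) 1) (j : Fin (m + 1)) :
    ∃ w, LipschitzWith K w ∧ (∀ x, w x ∈ Icc (0 : ℝ) 1) ∧
      (∀ x y, Real.cos (2 * Real.pi * y) ≤ Real.cos (2 * Real.pi * x j) → w (update x j y) ≤ w x) ∧
      TVLE w (∫ x in cube (m + 1), gradLen u x) ∧
      ∀ g : ℝ → ℝ, Continuous g → ∀ y : Fin m → ℝ,
        ∫ z in period, g (w (splice j z y)) = ∫ z in period, g (u (splice j z y)) := by
  set wt : (Fin (m + 1) → ℝ) → ℝ := fun x => Real.cos (2 * Real.pi * x j) with hwt
  have hwtc : Continuous wt := by fun_prop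
  have hwtp : Periodic wt := fun i x => by
    rcases eq_or_ne i j with rfl | h
    · simp only [wt, Pi.add_apply, Pi.single_eq_same, mul_add, mul_one, Real.cos_add_two_pi]
    · simp [wt, Pi.single_eq_of_ne h.symm]
  have hW : ∀ x, |wt x| ≤ 1 := fun x => Real.abs_cos_le_one _
  set J : ((Fin (m + 1) → ℝ) → ℝ) → ℝ := fun v => ∫ x in cube (m + 1), v x * wt x
  have hprops : ∀ {v}, AxisIterate j u v → LipschitzWith K v ∧ Periodic v ∧
      (∀ x, |v x| ≤ 1) := fun {v} hv => by
    obtain ⟨h1, h2, h3, -, -⟩ := (hv.props hu hp h01).1.props hu hp h01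
    exact ⟨h1, h2, fun x => abs_le.2 ⟨by linarith [(h3 x).1], (h3 x).2⟩⟩
  have bdd : BddAbove (J '' {v | AxisIterate j u v}) := by
    refine ⟨1, ?_⟩
    rintro _ ⟨v, hv, rfl⟩
    obtain ⟨hl, -, hb⟩ := hprops hv
    have hb' : ∀ x, |v x * wt x| ≤ 1 := fun x => by
      rw [abs_mul]; exact mul_le_one₀ (hb x) (abs_nonneg _) (hW x)
    calc J v ≤ ∫ _ in cube (m + 1), (1 : ℝ) := setIntegral_mono
          (integrableOn_cube (hl.continuous.mul hwtc).measurable hb')
          (integrableOn_const cube_finite) fun x => (abs_le.1 (hb' x)).2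
      _ = 1 := by simp [measureReal_def]
  obtain ⟨s, -, hs, hsmem⟩ := exists_seq_tendsto_sSup (S := J '' {v | AxisIterate j u v})
    ⟨_, u, AxisIterate.base, rfl⟩ bdd
  choose v hv hvs using hsmem
  have hit := fun k => (hv k).props hu hp h01
  have hprop := fun k => (hit k).1.props hu hp h01
  have hab : ∀ k x, |v k x| ≤ 1 := fun k => (hprops (hv k)).2.2
  obtain ⟨φ, hφ, w, hwK, hw⟩ := lipschitz_subseq v (fun k => (hprop k).1) hab
  have hwp : Periodic w := Periodic.of_tendsto (fun k => (hprop _).2.1) hw
  have hw01 : ∀ x, w x ∈ Icc (0 : ℝ) 1 := fun x =>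
    isClosed_Icc.mem_of_tendsto (hw x) (.of_forall fun k => (hprop _).2.2.1 x)
  have hJlim : ∀ (f : ℕ → (Fin (m + 1) → ℝ) → ℝ) (g : (Fin (m + 1) → ℝ) → ℝ), (∀ k, Continuous (f k)) →
      (∀ k x, |f k x| ≤ 1) → (∀ x, Tendsto (fun k => f k x) atTop (𝓝 (g x))) →
      Tendsto (fun k => J (f k)) atTop (𝓝 (J g)) := fun f g hc hb hl =>
    tendsto_setIntegral (fun k => ((hc k).mul hwtc).measurable)
      (fun k x => by simpa [abs_mul] using mul_le_mul (hb k x) (hW x) (abs_nonneg _) zero_le_one)
      (.of_forall fun x => (hl x).mul_const _)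
  have hJw : J w = sSup (J '' {v | AxisIterate j u v}) :=
    tendsto_nhds_unique (hJlim _ _ (fun k => (hprop _).1.continuous) (fun k x => hab _ x) hw)
      ((funext fun k => hvs (φ k) : (fun k => J (v (φ k))) = fun k => s (φ k)) ▸ hs.comp hφ.tendsto_atTop)
  refine ⟨w, hwK, hw01, decr_of_side hwK.continuous hwp fun a ha x hx => ?_,
    TVLE.of_tendsto (c := fun _ => ∫ x in cube (m + 1), gradLen u x)
      (fun k => (hprop (φ k)).1.continuous.measurable) (fun k x => hab _ x) (.of_forall hw)
      (fun k => (hprop _).2.2.2.1 ▸ tvle_of_lipschitz (hprop _).1 (hprop _).2.1) tendsto_const_nhds,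
    fun g hg y => ?_⟩
  · set p := pol j a w
    have hpl : LipschitzWith K p := pol_lipschitz ha hwK hwp
    have hle : J p ≤ J w := by
      rw [hJw]
      exact le_of_tendsto' (hJlim _ _ (fun k => (pol_lipschitz ha (hprop _).1 (hprop _).2.1).continuous)
        (fun k => (hprops (AxisIterate.step a ha (hv (φ k)))).2.2) (pol_tendsto hw j a)) fun k =>
          le_csSup bdd ⟨_, AxisIterate.step a ha (hv (φ k)), rfl⟩
    set f := fun y => (p y - w y) * side j a y
    have hf0 : ∀ y, 0 ≤ f y := fun y => by
      simp only [f, p, pol]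
      split_ifs with hs
      · exact mul_nonneg (sub_nonneg.2 (le_max_left _ _)) hs
      · exact mul_nonneg_of_nonpos_of_nonpos (sub_nonpos.2 (min_le_left _ _)) (not_le.1 hs).le
    have hfp : Periodic f := fun i y => by
      simp only [f, p, pol_periodic (j := j) (a := a) hwp i y, hwp i y, side_periodic (j := j) (a := a) i y]
    have hfc : Continuous f := (hpl.continuous.sub hwK.continuous).mul continuous_side
    set h := fun y => (p y - w y) * wt y
    have hhp : Periodic h := fun i y => by
      simp only [h, p, pol_periodic (j := j) (a := a) hwp i y, hwp i y, hwtp i y]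
    have hhc : Continuous h := (hpl.continuous.sub hwK.continuous).mul hwtc
    have hdec : ∀ y, f y = h y + h (refl j a y) := fun y => by
      have hflip : p (refl j a y) - w (refl j a y) = -(p y - w y) := by
        rcases pol_pair (j := j) ha hwp y with ⟨e1, e2⟩ | ⟨e1, e2⟩ <;> simp only [p, e1, e2] <;> ring
      simp only [f, h, hflip, wt, refl_apply_self, side]
      ring
    obtain ⟨C, hC⟩ := hhp.bounded hhc
    have hz : ∫ y in cube (m + 1), f y = 0 := by
      refine le_antisymm ?_ (setIntegral_nonneg cube_measurable fun y _ => hf0 y)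
      simp only [hdec]
      rw [integral_add (integrableOn_cube hhc.measurable hC)
        (integrableOn_cube (f := fun y => h (refl j a y)) (hhc.comp continuous_refl).measurable fun y => hC _),
        hhp.integral_refl]
      have i1 : ∀ {q : (Fin (m + 1) → ℝ) → ℝ}, Continuous q → Periodic q →
          IntegrableOn (fun y => q y * wt y) (cube (m + 1)) := fun hq hqp => by
        obtain ⟨D, hD⟩ := hqp.bounded hq
        exact integrableOn_cube (hq.mul hwtc).measurable (C := D * 1) fun y => by
          rw [abs_mul]
          exact mul_le_mul (hD y) (hW y) (abs_nonneg _) ((norm_nonneg _).trans (hD y))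
      simp only [h, sub_mul]
      rw [integral_sub (i1 hpl.continuous (pol_periodic hwp)) (i1 hwK.continuous hwp)]
      simp only [J] at hle
      linarith
    have h0 := eq_zero_of_integral hfp hfc hf0 hz x
    simp only [f, mul_eq_zero, hx.ne', or_false, sub_eq_zero] at h0
    have e : p x = max (w x) (w (refl j a x)) := if_pos hx.le
    rw [← h0, e]
    exact le_max_right _ _
  · obtain ⟨G, hG⟩ := isCompact_Icc.exists_bound_of_continuousOn (hg.continuousOn (s := Icc (0 : ℝ) 1))
    refine tendsto_nhds_unique
      (tendsto_integral_of_dominated_convergence (μ := volume.restrict period)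
        (F := fun k z => g (v (φ k) (splice j z y))) (fun _ => G)
        (fun k => (hg.comp ((hprop _).1.continuous.comp (continuous_splice y))).aestronglyMeasurable)
        (integrable_const _) (fun k => .of_forall fun z => hG _ ((hprop _).2.2.1 _))
        (.of_forall fun z => (hg.tendsto _).comp (hw _)))
      (tendsto_const_nhds.congr fun k => ((hit (φ k)).2 g hg y).symm)

theorem indicator_mem {α : Type*} (E : Set α) (x : α) :
    E.indicator (fun _ => (1 : ℝ)) x ∈ Icc (0 : ℝ) 1 := by
  by_cases hx : x ∈ E <;> simp [hx]

theorem baseLen_mem (E : Set (Fin (m + 1) → ℝ)) (y : Fin m → ℝ) :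
    baseLen E j y ∈ Icc (0 : ℝ) 1 := by
  refine ⟨integral_nonneg fun z => (indicator_mem E _).1, ?_⟩
  have h := norm_integral_le_of_norm_le_const (μ := volume.restrict period) (C := 1)
    (f := fun z => E.indicator (fun _ => (1 : ℝ)) (splice j z y)) (.of_forall fun z => by
      rw [Real.norm_eq_abs, abs_of_nonneg (indicator_mem E _).1]; exact (indicator_mem E _).2)
  rw [probReal_univ, mul_one] at h
  exact (le_abs_self _).trans h

theorem measurable_baseLen {E : Set (Fin (m + 1) → ℝ)} (hE : MeasurableSet E) :
    Measurable (baseLen E j) :=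
  (StronglyMeasurable.integral_prod_left (μ := volume.restrict period)
    (f := fun z y => E.indicator (fun _ => (1 : ℝ)) (splice j z y))
    ((measurable_const.indicator hE).comp (splice_preserving j).measurable).stronglyMeasurable).measurable

theorem measurableSet_steiner {E : Set (Fin (m + 1) → ℝ)} (hE : MeasurableSet E) :
    MeasurableSet (steiner E j) :=
  measurableSet_lt (Real.continuous_cos.measurable.comp
    (((measurable_baseLen hE).comp continuous_baseProj.measurable).const_mul Real.pi))
    (by fun_prop)

theorem periodic_steiner {E : Set (Fin (m + 1) → ℝ)} (hp : Periodic fun x => x ∈ E) :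
    Periodic fun x => x ∈ steiner E j := fun i x => by
  simp only [steiner, mem_ofPred_eq]
  refine j.succAboveCases ?_ (fun k => ?_) i
  · rw [baseProj_add_same, Pi.add_apply, Pi.single_eq_same, mul_add, mul_one, Real.cos_add_two_pi]
  · have e : baseLen E j (baseProj j x + Pi.single k 1) = baseLen E j (baseProj j x) := by
      refine integral_congr_ae (.of_forall fun z => ?_)
      have h := hp (j.succAbove k) (splice j z (baseProj j x))
      dsimp only
      rw [splice_add_single]
      by_cases hz : splice j z (baseProj j x) ∈ E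
      · rw [indicator_of_mem hz, indicator_of_mem (h.mpr hz)]
      · rw [indicator_of_notMem hz, indicator_of_notMem (fun h' => hz (h.mp h'))]
    rw [baseProj_add_above, e, Pi.add_apply, Pi.single_eq_of_ne (Fin.succAbove_ne j k).symm, add_zero]

/-- Symmetric decreasing functions of the circle with almost the distribution of an interval. -/
theorem tendsto_of_distribution {f : ℕ → ℝ → ℝ} {l : ℝ}
    (h01 : ∀ k z, f k z ∈ Icc (0 : ℝ) 1) (hc : ∀ k, Continuous (f k))
    (hdecr : ∀ k s t, |s| ≤ |t| → |t| ≤ 1 / 2 → f k t ≤ f k s)
    (hlim : ∀ g : ℝ → ℝ, Continuous g → g 0 = 0 → g 1 = 1 →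
      Tendsto (fun k => ∫ z in period, g (f k z)) atTop (𝓝 l)) {r : ℝ} (hr : |r| ≤ 1 / 2) :
    (2 * |r| < l → Tendsto (fun k => f k r) atTop (𝓝 1)) ∧
      (l < 2 * |r| → Tendsto (fun k => f k r) atTop (𝓝 0)) := by
  have hint : ∀ {g : ℝ → ℝ}, Continuous g → ∀ k, IntegrableOn (fun z => g (f k z)) period :=
    fun hg k => (hg.comp (hc k)).integrableOn_Ioc
  have hsub : Icc (-|r|) |r| ≤ᵐ[volume] period := by
    filter_upwards [Measure.ae_ne volume (-(1 / 2) : ℝ)] with z hz hmem
    exact ⟨lt_of_le_of_ne (le_trans (by linarith) hmem.1) (Ne.symm hz), hmem.2.trans hr⟩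
  have heq : (Icc (-|r|) |r| ∩ period : Set ℝ) =ᵐ[volume] (Icc (-|r|) |r| : Set ℝ) :=
    inter_eventuallyEq_left.2 hsub
  constructor <;> intro hl <;> rw [Metric.tendsto_atTop] <;> intro ε hε
  · set t := 1 - min ε 1 / 2 with ht
    have ht1 : t < 1 := by have := lt_min hε one_pos; linarith
    have ht0 : 0 ≤ t := by have := min_le_right ε 1; linarith
    set g : ℝ → ℝ := fun s => max 0 (min 1 ((s - t) / (1 - t))) with hg
    obtain ⟨N, hN⟩ := eventually_atTop.1 ((hlim g (by fun_prop) (by
      simp only [g]
      rw [max_eq_left]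
      exact (min_le_right _ _).trans (div_nonpos_of_nonpos_of_nonneg (by linarith) (by linarith))) (by
      simp [g, div_self (sub_ne_zero.2 ht1.ne')])).eventually (lt_mem_nhds hl))
    refine ⟨N, fun k hk => ?_⟩
    by_contra hd
    rw [Real.dist_eq, not_lt, abs_of_nonpos (by linarith [(h01 k r).2])] at hd
    have hft : f k r ≤ t := by have := min_le_left ε 1; linarith
    have hb : ∀ᵐ z ∂volume.restrict period, g (f k z) ≤ (Icc (-|r|) |r|).indicator (fun _ => 1) z := by
      filter_upwards [ae_restrict_mem period_measurable] with z hz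
      by_cases hzr : z ∈ Icc (-|r|) |r|
      · rw [indicator_of_mem hzr]
        exact max_le zero_le_one (min_le_left _ _)
      · rw [indicator_of_notMem hzr]
        have hrz : |r| ≤ |z| := le_of_lt (by_contra fun h => hzr (abs_le.1 (not_lt.1 h)))
        have := (hdecr k r z hrz (abs_le.2 ⟨hz.1.le, hz.2⟩)).trans hft
        simp only [g]
        rw [max_eq_left]
        exact (min_le_right _ _).trans (div_nonpos_of_nonpos_of_nonneg (by linarith) (by linarith))
    have h2 := integral_mono_ae (hint (g := g) (by fun_prop) k)
      ((integrable_const (1 : ℝ)).indicator measurableSet_Icc) hb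
    rw [integral_indicator measurableSet_Icc, Measure.restrict_restrict measurableSet_Icc,
      setIntegral_congr_set heq, setIntegral_const, Real.volume_real_Icc,
      max_eq_left (by linarith [abs_nonneg r]), smul_eq_mul, mul_one] at h2
    linarith [hN k hk]
  · set t := min ε 1 / 2 with ht
    have ht0 : 0 < t := by have := lt_min hε one_pos; linarith
    have ht1 : t ≤ 1 := by have := min_le_right ε 1; linarith
    set g : ℝ → ℝ := fun s => max 0 (min 1 (s / t)) with hg
    obtain ⟨N, hN⟩ := eventually_atTop.1 ((hlim g (by fun_prop) (by simp [g]) (by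
      simp only [g]
      rw [min_eq_left ((le_div_iff₀ ht0).2 (by linarith)), max_eq_right zero_le_one])).eventually
      (gt_mem_nhds hl))
    refine ⟨N, fun k hk => ?_⟩
    by_contra hd
    rw [Real.dist_eq, not_lt, sub_zero, abs_of_nonneg (h01 k r).1] at hd
    have hft : t ≤ f k r := by have := min_le_left ε 1; linarith
    have hb : ∀ᵐ z ∂volume.restrict period, (Icc (-|r|) |r|).indicator (fun _ => 1) z ≤ g (f k z) := by
      refine .of_forall fun z => ?_
      by_cases hzr : z ∈ Icc (-|r|) |r|
      · rw [indicator_of_mem hzr]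
        have := hft.trans (hdecr k z r (abs_le.2 hzr) hr)
        simp only [g]
        rw [min_eq_left ((le_div_iff₀ ht0).2 (by linarith)), max_eq_right zero_le_one]
      · rw [indicator_of_notMem hzr]
        exact le_max_left _ _
    have h2 := integral_mono_ae ((integrable_const (1 : ℝ)).indicator measurableSet_Icc)
      (hint (g := g) (by fun_prop) k) hb
    rw [integral_indicator measurableSet_Icc, Measure.restrict_restrict measurableSet_Icc,
      setIntegral_congr_set heq, setIntegral_const, Real.volume_real_Icc,
      max_eq_left (by linarith [abs_nonneg r]), smul_eq_mul, mul_one] at h2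
    linarith [hN k hk]

/-- Steiner symmetrisation does not increase the total variation. -/
theorem tvle_steiner {E : Set (Fin (m + 1) → ℝ)} (hE : MeasurableSet E)
    (hp : Periodic fun x => x ∈ E) {c : ℝ} (hc : TVLE (E.indicator fun _ => 1) c) (j : Fin (m + 1)) :
    TVLE ((steiner E j).indicator fun _ => 1) c := by
  obtain ⟨u, -, hlip, hper, h01, hgrad, htend⟩ := exists_smooth_approx hE hp hc
  choose K hK using hlip
  choose w hwK hw01 hwd hwtv hwl using fun k => exists_rearrange_axis (hK k) (hper k) (h01 k) j
  refine TVLE.of_tendsto (c := fun _ => c) (fun k => (hwK k).continuous.measurable)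
    (fun k x => abs_le.2 ⟨by linarith [(hw01 k x).1], (hw01 k x).2⟩) ?_
    (fun k F hF => (hwtv k F hF).trans (hgrad k)) tendsto_const_nhds
  have hq := splice_preserving j
  have hlines : ∀ᵐ y ∂volume.restrict (cube m), ∀ᵐ z ∂volume.restrict period,
      Tendsto (fun k => u k (splice j z y)) atTop
        (𝓝 (E.indicator (fun _ => 1) (splice j z y))) :=
    Measure.ae_ae_of_ae_prod ((hq.quasiMeasurePreserving.comp
      Measure.measurePreserving_swap.quasiMeasurePreserving).ae htend)
  have hdist : ∀ᵐ y ∂volume.restrict (cube m), ∀ g : ℝ → ℝ, Continuous g → g 0 = 0 → g 1 = 1 →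
      Tendsto (fun k => ∫ z in period, g (w k (splice j z y))) atTop (𝓝 (baseLen E j y)) := by
    filter_upwards [hlines] with y hy g hg g0 g1
    simp only [hwl _ g hg]
    obtain ⟨G, hG⟩ := isCompact_Icc.exists_bound_of_continuousOn (hg.continuousOn (s := Icc (0 : ℝ) 1))
    refine tendsto_integral_of_dominated_convergence (fun _ => G)
      (fun k => (hg.comp ((hK k).continuous.comp (continuous_splice y))).aestronglyMeasurable)
      (integrable_const _) (fun k => .of_forall fun z => hG _ (h01 _ _)) ?_
    filter_upwards [hy] with z hz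
    have e : E.indicator (fun _ => (1 : ℝ)) (splice j z y)
        = g (E.indicator (fun _ => (1 : ℝ)) (splice j z y)) := by
      by_cases hx : splice j z y ∈ E <;> simp [hx, g0, g1]
    rw [e]
    exact (hg.tendsto _).comp hz
  have hpt : ∀ᵐ p ∂(volume.restrict period).prod (volume.restrict (cube m)),
      Tendsto (fun k => w k (splice j p.1 p.2)) atTop
        (𝓝 ((steiner E j).indicator (fun _ => 1) (splice j p.1 p.2))) := by
    have hne : ∀ᵐ p ∂(volume.restrict period).prod (volume.restrict (cube m)),
        2 * |p.1| ≠ baseLen E j p.2 := by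
      have hm : Measurable fun p : (Fin m → ℝ) × ℝ => 2 * |p.2| - baseLen E j p.1 :=
        (measurable_snd.abs.const_mul 2).sub ((measurable_baseLen hE).comp measurable_fst)
      have h : ∀ᵐ p ∂(volume.restrict (cube m)).prod (volume.restrict period),
          2 * |p.2| - baseLen E j p.1 ≠ 0 := by
        refine (Measure.ae_prod_iff_ae_ae ?_).2 (.of_forall fun y => ?_)
        · exact (hm (measurableSet_singleton 0)).compl
        filter_upwards [ae_restrict_of_ae (Measure.ae_ne volume (baseLen E j y / 2)),
          ae_restrict_of_ae (Measure.ae_ne volume (-(baseLen E j y / 2)))] with z h1 h2 h0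
        rcases abs_choice z with e | e <;> rw [e] at h0
        · exact h1 (by linarith)
        · exact h2 (by linarith)
      exact (Measure.measurePreserving_swap.quasiMeasurePreserving.ae h).mono fun p hp h0 =>
        hp (show 2 * |p.1| - baseLen E j p.2 = 0 by rw [h0, sub_self])
    have hd := (Measure.quasiMeasurePreserving_snd (μ := volume.restrict period)).ae hdist
    have hz := (Measure.quasiMeasurePreserving_fst (ν := volume.restrict (cube m))).ae
      (ae_restrict_mem (μ := volume) period_measurable)
    filter_upwards [hne, hd, hz] with ⟨z, y⟩ hne hd hz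
    dsimp only at hne hd hz ⊢
    have hz' : |z| ≤ 1 / 2 := abs_le.2 ⟨hz.1.le, hz.2⟩
    have hup : ∀ s t : ℝ, update (splice j s y) j t = splice j t y := fun s t => by
      funext i
      refine j.succAboveCases ?_ (fun k => ?_) i
      · simp [splice_same]
      · simp [splice_above, Fin.succAbove_ne]
    have key := tendsto_of_distribution (f := fun k s => w k (splice j s y))
      (fun k s => hw01 k _) (fun k => (hwK k).continuous.comp (continuous_splice y))
      (fun k s t h1 h2 => by
        simp only [← hup s t]
        exact hwd k _ t (by rw [splice_same]; exact cos_le_cos_of_abs h1 h2))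
      hd hz'
    have hl := baseLen_mem (j := j) E y
    have hiff : splice j z y ∈ steiner E j ↔
        Real.cos (2 * Real.pi * (baseLen E j y / 2)) < Real.cos (2 * Real.pi * z) := by
      simp only [steiner, mem_ofPred_eq, baseProj_splice, splice_same]
      rw [show 2 * Real.pi * (baseLen E j y / 2) = Real.pi * baseLen E j y by ring]
    rcases hne.lt_or_gt with h | h
    · rw [indicator_of_mem]
      · exact key.1 h
      · rw [hiff, ← Real.cos_abs (2 * Real.pi * z), abs_mul, abs_of_pos Real.two_pi_pos]
        exact Real.cos_lt_cos_of_nonneg_of_le_pi (by positivity) (by nlinarith [Real.pi_pos, hl.2])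
          (by have := Real.pi_pos; nlinarith)
    · rw [indicator_of_notMem]
      · exact key.2 h
      · rw [hiff, not_lt]
        exact cos_le_cos_of_abs (by rw [abs_of_nonneg (by linarith [hl.1])]; linarith) hz'
  rw [← hq.map_eq]
  exact (ae_map_iff hq.measurable.aemeasurable (measurableSet_tendsto_fun
    (fun k => (hwK k).continuous.measurable)
    (measurable_const.indicator (measurableSet_steiner hE)))).2 hpt

theorem update_splice_self (s t : ℝ) (y : Fin m → ℝ) : update (splice j s y) j t = splice j t y := by
  funext i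
  refine j.succAboveCases ?_ (fun k => ?_) i
  · simp [splice_same]
  · simp [splice_above, Fin.succAbove_ne]

theorem steiner_iff {E : Set (Fin (m + 1) → ℝ)} {z : ℝ} {y : Fin m → ℝ} (hz : |z| ≤ 1 / 2) :
    splice j z y ∈ steiner E j ↔ 2 * |z| < baseLen E j y := by
  have hl := baseLen_mem (j := j) E y
  have hp := Real.pi_pos
  simp only [steiner, mem_ofPred_eq, baseProj_splice, splice_same]
  rw [← Real.cos_abs (2 * Real.pi * z), abs_mul, abs_of_pos Real.two_pi_pos]
  constructor
  · intro h
    by_contra h'
    refine h.not_ge (Real.cos_le_cos_of_nonneg_of_le_pi (by nlinarith [hl.1]) (by nlinarith) ?_)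
    nlinarith [not_lt.1 h']
  · intro h
    exact Real.cos_lt_cos_of_nonneg_of_le_pi (by positivity) (by nlinarith [hl.2]) (by nlinarith)

/-- The lines keep their length. -/
theorem baseLen_steiner {E : Set (Fin (m + 1) → ℝ)} (y : Fin m → ℝ) :
    baseLen (steiner E j) j y = baseLen E j y := by
  set l := baseLen E j y
  have hl : l ∈ Icc (0 : ℝ) 1 := baseLen_mem E y
  have e : ∀ᵐ z ∂volume.restrict period, (steiner E j).indicator (fun _ => (1 : ℝ)) (splice j z y)
      = (Ioo (-(l / 2)) (l / 2)).indicator (fun _ => 1) z := by
    filter_upwards [ae_restrict_mem period_measurable] with z hz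
    have h := steiner_iff (j := j) (E := E) (z := z) (y := y) (abs_le.2 ⟨hz.1.le, hz.2⟩)
    by_cases hm : z ∈ Ioo (-(l / 2)) (l / 2)
    · rw [indicator_of_mem hm, indicator_of_mem]
      exact h.2 (by have := abs_lt.2 hm; simp only [l] at this; linarith)
    · rw [indicator_of_notMem hm, indicator_of_notMem fun hm' => hm (abs_lt.1 (by
        have := h.1 hm'; simp only [l]; linarith))]
  rw [baseLen, integral_congr_ae e, setIntegral_indicator measurableSet_Ioo,
    inter_eq_right.2 (show Ioo (-(l / 2)) (l / 2) ⊆ period from fun z hz =>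
      ⟨by linarith [hz.1, hl.2], by linarith [hz.2, hl.2]⟩),
    setIntegral_const, smul_eq_mul, mul_one, Real.volume_real_Ioo_of_le (by linarith [hl.1])]
  ring

theorem update_splice_above (k : Fin m) (z t : ℝ) (y : Fin m → ℝ) :
    update (splice j z y) (j.succAbove k) t = splice j z (update y k t) := by
  funext i
  refine j.succAboveCases ?_ (fun l => ?_) i
  · simp [splice_same, (Fin.succAbove_ne j k).symm]
  · rcases eq_or_ne l k with rfl | h
    · simp [splice_above]
    · simp [splice_above, h, j.succAbove_right_injective.ne h]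

/-- Symmetric decreasing in the axes of a set of coordinates. -/
def SymmDecrOn (E : Set (Fin (m + 1) → ℝ)) (s : Set (Fin (m + 1))) : Prop :=
  ∀ (x : Fin (m + 1) → ℝ) (i : Fin (m + 1)) (y : ℝ), i ∈ s →
    Real.cos (2 * Real.pi * y) ≤ Real.cos (2 * Real.pi * x i) → update x i y ∈ E → x ∈ E

theorem symmDecrOn_steiner {E : Set (Fin (m + 1) → ℝ)} (hE : MeasurableSet E)
    {s : Set (Fin (m + 1))} (hs : SymmDecrOn E s) : SymmDecrOn (steiner E j) (insert j s) := by
  intro x i y hi hy hmem
  rw [← splice_baseProj (j := j) x] at hmem ⊢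
  set p := baseProj j x
  rcases Fin.eq_self_or_eq_succAbove j i with rfl | ⟨k, rfl⟩
  · rw [update_splice_self] at hmem
    simp only [steiner, mem_ofPred_eq, baseProj_splice, splice_same] at hmem ⊢
    linarith
  · have hi' : j.succAbove k ∈ s := (mem_insert_iff.1 hi).resolve_left (Fin.succAbove_ne j k)
    rw [update_splice_above] at hmem
    simp only [steiner, mem_ofPred_eq, baseProj_splice, splice_same] at hmem ⊢
    refine lt_of_le_of_lt (Real.cos_le_cos_of_nonneg_of_le_pi (mul_nonneg Real.pi_pos.le (baseLen_mem E _).1)
      (mul_le_of_le_one_right Real.pi_pos.le (baseLen_mem E _).2)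
      (mul_le_mul_of_nonneg_left ?_ Real.pi_pos.le)) hmem
    refine integral_mono_ae ?_ ?_ (.of_forall fun z => ?_)
    · exact Integrable.of_bound ((measurable_const.indicator hE).comp
        (continuous_splice _).measurable).aestronglyMeasurable 1 (.of_forall fun z => by
          rw [Real.norm_eq_abs, abs_of_nonneg (indicator_mem E _).1]
          exact (indicator_mem E _).2)
    · exact Integrable.of_bound ((measurable_const.indicator hE).comp
        (continuous_splice _).measurable).aestronglyMeasurable 1 (.of_forall fun z => by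
          rw [Real.norm_eq_abs, abs_of_nonneg (indicator_mem E _).1]
          exact (indicator_mem E _).2)
    · dsimp only
      by_cases hm : splice j z (update p k y) ∈ E
      · rw [indicator_of_mem hm, indicator_of_mem]
        exact hs _ (j.succAbove k) y hi' (by rwa [splice_above]) (by rwa [update_splice_above])
      · rw [indicator_of_notMem hm]
        exact (indicator_mem E _).1

end

end Vale.Agent.P232
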