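import Vale.Agent.P232.Full.Min.AxisCases

/-!
# P232: a symmetric decreasing minimiser is a ball, a tube or a slab

If the slices of one axis are those of a ball, a second axis is of type A and shows a ball as well; the
radii of the discs are then forced.
-/

namespace Vale.Agent.P232

open MeasureTheory Set Function Filter Topology Real

noncomputable section

variable {M : Set (Fin 3 → ℝ)} {v r : ℝ} {i : Fin 3}

theorem continuous_offSq (i : Fin 3) : Continuous (offSq i) := by unfold offSq; fun_prop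

/-- The membership in the set, from the slices of a ball. -/
theorem BallSlices.ae_iff (h : BallSlices M v i r) (hM : MeasurableSet M) :
    ∀ᵐ x ∂volume.restrict (cube 3), x ∈ M ↔ offSq i x < sliceArea M i (x i) / π := by
  have hF : MeasurableSet {x : Fin 3 → ℝ | offSq i x < sliceArea M i (x i) / π} :=
    measurableSet_lt (continuous_offSq i).measurable
      (((measurable_sliceArea hM i).comp (measurable_pi_apply i)).div_const π)
  refine iff_of_slices (i := i) hM hF ?_
  filter_upwards [h.2.2.2.2.2.2.2] with z hz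
  filter_upwards [hz] with y hy
  refine hy.trans ?_
  show _ ↔ offSq i (splice i z y) < sliceArea M i (splice i z y i) / π
  rw [offSq_splice, splice_same]

/-- Beside a ball every axis is of type A. -/
theorem BallSlices.axisA (h : BallSlices M v i r) (hM : MeasurableSet M)
    (hs : SymmDecr (M.indicator fun _ => (1 : ℝ))) {j : Fin 3} (hj : j ≠ i) : AxisA M j := by
  intro z hz0 hz k l hkl
  left
  refine le_trans (not_lt.1 fun hτ => ?_) (show (0 : ℝ) ≤ 2 * kappa by norm_num [kappa])
  obtain ⟨hr, hr', -, -, hend, -, hle, -⟩ := id h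
  set τ := trace (sliceSet M j z) k
  have hτ1 : τ ≤ 1 := trace_le_one _ k
  set k' := j.succAbove k
  set l' := j.succAbove l
  have hkj : k' ≠ j := Fin.succAbove_ne j k
  have hlj : l' ≠ j := Fin.succAbove_ne j l
  have hkl' : k' ≠ l' := fun e => hkl (Fin.succAbove_right_injective e)
  have hall : ∀ n, n = j ∨ n = k' ∨ n = l' := by
    intro n
    rcases Fin.eq_self_or_eq_succAbove j n with e | ⟨q, rfl⟩
    · exact .inl e
    · rcases (show ∀ a b c : Fin 2, a ≠ b → c = a ∨ c = b by decide) k l q hkl with rfl | rfl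
      · exact .inr (.inl rfl)
      · exact .inr (.inr rfl)
  set B : Set (Fin 3 → ℝ) :=
    {x | |x j| < |z|} ∩ ({x | |x l'| < τ / 2} ∩ {x | |x k'| < 1 / 2})
  have hBo : IsOpen B := by
    refine IsOpen.inter ?_ (IsOpen.inter ?_ ?_) <;> exact isOpen_lt (by fun_prop) continuous_const
  have hBc : ∀ x ∈ B, ∀ n, |x n| < 1 / 2 := by
    rintro x ⟨h1, h2, h3⟩ n
    rcases hall n with rfl | rfl | rfl
    · exact lt_trans h1 hz
    · exact h3
    · exact lt_of_lt_of_le h2 (by linarith)
  have hBM : ∀ x ∈ B, x ∈ M := by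
    rintro x hx
    obtain ⟨h1, h2, h3⟩ := id hx
    have hmem : update x j z ∈ M := mem_of_trace hM hs j hkl (z := z) (w := x l')
      (by have : |x l'| < τ / 2 := h2; linarith) (update x j z) (update_self ..)
      (update_of_ne hlj ..) (by rw [update_of_ne hkj]; exact h3)
    have hmon := hs.mono (x := update x j z) (y := x) (fun n => by
      rcases eq_or_ne n j with rfl | hn
      · rw [update_self]; exact le_of_lt h1
      · rw [update_of_ne hn]) (fun n => by
      rcases eq_or_ne n j with rfl | hn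
      · rw [update_self]; exact hz.le
      · rw [update_of_ne hn]; exact (hBc x hx n).le)
    rw [indicator_of_mem hmem] at hmon
    by_contra hxM
    rw [indicator_of_notMem hxM] at hmon
    linarith
  have hne : ∀ t : ℝ, |t| < 1 / 2 →
      ∃ p ∈ B, p j = 3 / 4 * |z| ∧ p k' = t ∧ p l' = τ / 4 := by
    intro t ht
    refine ⟨fun n => if n = j then 3 / 4 * |z| else if n = k' then t else τ / 4,
      ⟨?_, ?_, ?_⟩, by simp, by simp [hkj], by simp [hlj, hkl'.symm]⟩
    · simp only [mem_ofPred_eq, if_true]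
      rw [abs_of_pos (by linarith)]; linarith
    · simp only [mem_ofPred_eq, if_neg hlj, if_neg hkl'.symm]
      rw [abs_of_pos (by linarith)]; linarith
    · simpa [hkj] using ht
  -- an open part of the box outside the discs
  have fin : ∀ P : Set (Fin 3 → ℝ), IsOpen P → (B ∩ P).Nonempty →
      (∀ x ∈ B, x ∈ P → sliceArea M i (x i) / π ≤ offSq i x) → False := by
    intro P hP hne' hsub
    refine absurd_of_open (h.ae_iff hM) (hBo.inter hP) hne' (fun x hx n _ => ?_) fun x hx hiff => ?_
    · exact Ioo_subset_Ioc_self (abs_lt.1 (hBc x hx.1 n))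
    · exact (hiff.1 (hBM x hx.1)).not_ge (hsub x hx.1 hx.2)
  by_cases hki : k' = i
  · have hz2 : (0 : ℝ) < π * (z ^ 2 / 4) := by
      have : 0 < z ^ 2 := by rw [← sq_abs]; positivity
      positivity
    obtain ⟨η, hη0, hη, hηb⟩ := hend _ hz2
    refine fin ({x | η < |x i|} ∩ {x | z ^ 2 / 4 < x j ^ 2})
      ((isOpen_lt continuous_const (by fun_prop)).inter (isOpen_lt continuous_const (by fun_prop))) ?_ ?_
    · obtain ⟨p, hp, hpj, hpk, -⟩ := hne ((η + 1 / 2) / 2) (by rw [abs_of_pos (by linarith)]; linarith)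
      refine ⟨p, hp, ?_, ?_⟩
      · show η < |p i|
        rw [← hki, hpk, abs_of_pos (by linarith)]; linarith
      · show z ^ 2 / 4 < p j ^ 2
        rw [hpj, mul_pow, sq_abs]
        have : 0 < z ^ 2 := by rw [← sq_abs]; positivity
        linarith
    · rintro x hx ⟨hxi, hxj⟩
      have h1 := (abs_le.1 (hηb (x i) hxi (hBc x hx i))).2
      rw [sub_zero] at h1
      rw [div_le_iff₀ pi_pos]
      have h2 : z ^ 2 / 4 < x j ^ 2 := hxj
      nlinarith [sq_le_offSq hj x, pi_pos]
  · refine fin ({x | r < |x k'|} ∩ {x | x i ≠ 0})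
      ((isOpen_lt continuous_const (by fun_prop)).inter (isOpen_ne_fun (continuous_apply i) continuous_const))
      ?_ ?_
    · obtain ⟨p, hp, hpj, hpk, hpl⟩ := hne ((r + 1 / 2) / 2) (by rw [abs_of_pos (by linarith)]; linarith)
      refine ⟨p, hp, ?_, ?_⟩
      · show r < |p k'|
        rw [hpk, abs_of_pos (by linarith)]; linarith
      · show p i ≠ 0
        rcases hall i with rfl | rfl | rfl
        · exact absurd rfl hj
        · exact absurd rfl hki
        · rw [hpl]; linarith
    · rintro x hx ⟨hxk, hxi⟩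
      have h1 : sliceArea M i (x i) / π ≤ r ^ 2 := by
        rw [div_le_iff₀ pi_pos, mul_comm (r ^ 2)]; exact hle _ hxi (hBc x hx i)
      have h2 : r ^ 2 ≤ x k' ^ 2 := by
        rw [← sq_abs (x k')]; exact pow_le_pow_left₀ hr.le (le_of_lt hxk) 2
      linarith [sq_le_offSq hki x]

/-- Equal thresholds. -/
theorem threshold_eq {p q : ℝ} (hp : p < 1 / 4) (hq : q < 1 / 4)
    (h : ∀ᵐ t ∂volume.restrict (cube 1), (t 0 ^ 2 < p ↔ t 0 ^ 2 < q)) : max p 0 = max q 0 := by
  suffices H : ∀ p q : ℝ, q < 1 / 4 →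
      (∀ᵐ t ∂volume.restrict (cube 1), (t 0 ^ 2 < p ↔ t 0 ^ 2 < q)) → max q 0 ≤ max p 0 from
    le_antisymm (H q p hp (h.mono fun t ht => ht.symm)) (H p q hq h)
  intro p q hq h
  refine not_lt.1 fun hlt => ?_
  have hq0 : 0 < q := lt_of_not_ge fun hc => by
    rw [max_eq_right hc] at hlt; linarith [le_max_right p 0]
  rw [max_eq_left hq0.le] at hlt
  refine absurd_of_open h (O := {t | max p 0 < t 0 ^ 2} ∩ {t | t 0 ^ 2 < q})
    ((isOpen_lt continuous_const (by fun_prop)).inter (isOpen_lt (by fun_prop) continuous_const))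
    ⟨fun _ => √((max p 0 + q) / 2), ?_, ?_⟩ (fun t ht n _ => ?_) fun t ht hiff => ?_
  · show max p 0 < √((max p 0 + q) / 2) ^ 2
    rw [Real.sq_sqrt (by linarith [le_max_right p 0])]; linarith
  · show √((max p 0 + q) / 2) ^ 2 < q
    rw [Real.sq_sqrt (by linarith [le_max_right p 0])]; linarith
  · have h2 : t 0 ^ 2 < q := ht.2
    rw [Subsingleton.elim n 0]
    have : |t 0| < 1 / 2 := abs_lt_of_sq_lt_sq (by linarith) (by norm_num)
    exact Ioo_subset_Ioc_self (abs_lt.1 this)
  · have h1 : max p 0 < t 0 ^ 2 := ht.1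
    linarith [hiff.2 ht.2, le_max_left p 0]

/-- Ball slices along two axes force a ball. -/
theorem hasModel_of_balls (h : BallSlices M v i r) (h' : BallSlices M v (i.succAbove 0) r)
    (hM : MeasurableSet M) : HasModel M v := by
  obtain ⟨hr, hr', hv, hJ, -, -, hle, -⟩ := id h
  obtain ⟨-, -, -, -, -, htend', hle', -⟩ := id h'
  set j := i.succAbove 0
  set α : ℝ → ℝ := fun z => sliceArea M i z / π
  set γ : ℝ → ℝ := fun w => sliceArea M j w / π
  have hr4 : r ^ 2 < 1 / 4 := by nlinarith
  have hb : ∀ (k : Fin 3) (z : ℝ), sliceArea M k z ≤ π * r ^ 2 → sliceArea M k z / π ≤ r ^ 2 :=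
    fun k z hz => by rw [div_le_iff₀ pi_pos, mul_comm (r ^ 2)]; exact hz
  have hboth : ∀ᵐ x ∂volume.restrict (cube 3), (offSq i x < α (x i) ↔ offSq j x < γ (x j)) := by
    filter_upwards [h.ae_iff hM, h'.ae_iff hM] with x h1 h2 using h1.symm.trans h2
  have hslice : ∀ᵐ z ∂volume.restrict period, ∀ᵐ w ∂volume.restrict period,
      max (α z - w ^ 2) 0 = max (γ w - z ^ 2) 0 := by
    filter_upwards [slices_of_ae i hboth, period_ae_interior,
      ae_restrict_of_ae (Measure.ae_ne volume (0 : ℝ))] with z hz hz2 hz0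
    filter_upwards [slices_of_ae (m := 1) (0 : Fin 2) hz, period_ae_interior,
      ae_restrict_of_ae (Measure.ae_ne volume (0 : ℝ))] with w hw hw2 hw0
    have hα : α z ≤ r ^ 2 := hb i z (hle z hz0 hz2)
    have hγ : γ w ≤ r ^ 2 := hb j w (hle' w hw0 hw2)
    refine threshold_eq (by linarith [sq_nonneg w]) (by linarith [sq_nonneg z]) (hw.mono fun t ht => ?_)
    rw [offSq_splice, offSq_succAbove, splice_same, show j = i.succAbove 0 from rfl, splice_above,
      splice_same, show (1 : Fin 2) = (0 : Fin 2).succAbove 0 from rfl, splice_above] at ht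
    simp only [splice_same] at ht
    constructor <;> intro h1
    · linarith [ht.1 (by linarith)]
    · linarith [ht.2 (by linarith)]
  have hid : ∀ᵐ z ∂volume.restrict period, max (α z) 0 = max (r ^ 2 - z ^ 2) 0 := by
    filter_upwards [hslice] with z hz
    have hz' : ∀ᵐ w, w ∈ period → max (α z - w ^ 2) 0 = max (γ w - z ^ 2) 0 :=
      (ae_restrict_iff' period_measurable).1 hz
    choose w hw hweq using fun n : ℕ =>
      exists_good hz' (show (0 : ℝ) < 1 / ((n : ℝ) + 3) by positivity)
    have hsmall : ∀ n : ℕ, 1 / ((n : ℝ) + 3) ≤ 1 / 2 := fun n =>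
      one_div_le_one_div_of_le two_pos (by linarith [(Nat.cast_nonneg n : (0 : ℝ) ≤ n)])
    have hw0 : Tendsto w atTop (𝓝 0) := by
      refine squeeze_zero (fun n => (hw n).1.le) (fun n => (hw n).2.le) ?_
      exact tendsto_const_nhds.div_atTop
        (tendsto_atTop_add_const_right atTop 3 tendsto_natCast_atTop_atTop)
    have hw0' : Tendsto w atTop (𝓝[≠] 0) :=
      tendsto_nhdsWithin_iff.2 ⟨hw0, .of_forall fun n => (hw n).1.ne'⟩
    have hγlim : Tendsto (fun n => γ (w n)) atTop (𝓝 (r ^ 2)) := by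
      have := (htend'.comp hw0').div_const π
      rwa [mul_div_cancel_left₀ _ pi_pos.ne'] at this
    have h1 : Tendsto (fun n => max (α z - w n ^ 2) 0) atTop (𝓝 (max (α z) 0)) := by
      simpa using ((hw0.pow 2).const_sub (α z)).max (tendsto_const_nhds (x := (0 : ℝ)))
    have h2 : Tendsto (fun n => max (γ (w n) - z ^ 2) 0) atTop (𝓝 (max (r ^ 2 - z ^ 2) 0)) :=
      (hγlim.sub_const (z ^ 2)).max tendsto_const_nhds
    refine tendsto_nhds_unique h1 (h2.congr fun n => (hweq n ⟨?_, ?_⟩).symm)
    · linarith [(hw n).1]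
    · linarith [(hw n).2, hsmall n]
  refine hasModel_of_slices (i := i) hM (I := Finset.univ) (r := r)
    ⟨hr, hr', .inl ⟨by simp, by rw [hv]; ring, hJ⟩⟩ ?_
  filter_upwards [h.2.2.2.2.2.2.2, hid] with z hz hz'
  have hα0 : 0 ≤ α z := div_nonneg (sliceArea_mem hM i z).1 pi_pos.le
  rw [max_eq_left hα0] at hz'
  filter_upwards [hz] with y hy
  rw [hy, ← offSq_add i, offSq_splice, splice_same, show sliceArea M i z / π = α z from rfl, hz']
  rcases le_total (r ^ 2 - z ^ 2) 0 with h1 | h1
  · rw [max_eq_right h1]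
    constructor <;> intro h2
    · linarith [sq_nonneg (y 0), sq_nonneg (y 1)]
    · linarith [sq_nonneg (y 0), sq_nonneg (y 1)]
  · rw [max_eq_left h1]
    constructor <;> intro h2 <;> linarith

/-- A symmetric decreasing minimiser is a model. -/
theorem symm_minimiser_of (hB : StrictB) {v : ℝ} {M : Set (Fin 3 → ℝ)} (hv : 0 < v) (hv' : v ≤ 1 / 2)
    (hM : HasVolume M v) (hs : SymmDecr (M.indicator fun _ => (1 : ℝ)))
    (hc : TVLE (M.indicator fun _ => (1 : ℝ)) (ballTubeSlab v)) :
    ∃ (I : Finset (Fin 3)) (r : ℝ), IsModel v I r ∧ ∀ᵐ x ∂volume.restrict (cube 3),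
      M.indicator (fun _ => (1 : ℝ)) x = (model I r).indicator (fun _ => 1) x := by
  rcases axis_cases hM.meas hs with ⟨i, hA⟩ | ⟨i, hA⟩
  · rcases axisA_model_or_ball hv hv' hM hs hc hA with h | ⟨r, h⟩
    · exact h
    · have hA' := h.axisA hM.meas hs (Fin.succAbove_ne i 0)
      rcases axisA_model_or_ball hv hv' hM hs hc hA' with h' | ⟨r', h'⟩
      · exact h'
      · obtain rfl : r' = r := by
          have e : π * r' ^ 3 = π * r ^ 3 := by linarith [h.2.2.1, h'.2.2.1]
          exact (pow_left_inj₀ h'.1.le h.1.le three_ne_zero).1 (mul_left_cancel₀ pi_pos.ne' e)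
        exact hasModel_of_balls h h' hM.meas
  · exact axisB_model hB hv hv' hM hs hc hA

end

end Vale.Agent.P232
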